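import Mathlib

/-!
Basic objects for the prefix signing bound `σ(d) = O(√d log d)`: finite laws, operators on
Euclidean space and the potential `G`.
-/

namespace Vale.Agent.P262.Sigma

open Real
open scoped InnerProductSpace

abbrev Sp (d : ℕ) := EuclideanSpace ℝ (Fin d)
abbrev Op (d : ℕ) := Sp d →ₗ[ℝ] Sp d

/-- A finitely supported probability law, given as a weighted list. -/
structure Law (α : Type*) where
  supp : List (ℝ × α)
  nonneg : ∀ p ∈ supp, 0 ≤ p.1
  total : (supp.map Prod.fst).sum = 1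

namespace Law

variable {α β : Type*}

/-- Expectation. -/
def E (L : Law α) (f : α → ℝ) : ℝ := (L.supp.map fun p => p.1 * f p.2).sum

/-- Point mass. -/
def pure (x : α) : Law α := ⟨[(1, x)], by simp, by simp⟩

lemma E_pure (x : α) (f : α → ℝ) : (pure x).E f = f x := by simp [pure, E]

lemma E_const (L : Law α) (r : ℝ) : L.E (fun _ => r) = r := by
  simp [E, List.sum_map_mul_right, L.total]

lemma E_add (L : Law α) (f g : α → ℝ) : L.E (fun x => f x + g x) = L.E f + L.E g := by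
  simp [E, mul_add, List.sum_map_add]

lemma E_const_mul (L : Law α) (r : ℝ) (f : α → ℝ) : L.E (fun x => r * f x) = r * L.E f := by
  simp [E, mul_left_comm _ r, List.sum_map_mul_left]

lemma E_mul_const (L : Law α) (r : ℝ) (f : α → ℝ) : L.E (fun x => f x * r) = L.E f * r := by
  rw [mul_comm, ← E_const_mul]; simp only [mul_comm r]

lemma E_neg (L : Law α) (f : α → ℝ) : L.E (fun x => -f x) = -L.E f := by
  have := L.E_const_mul (-1) f
  simpa using this

lemma E_sub (L : Law α) (f g : α → ℝ) : L.E (fun x => f x - g x) = L.E f - L.E g := by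
  simp [sub_eq_add_neg, E_add, E_neg]

lemma E_mono (L : Law α) {f g : α → ℝ} (h : ∀ p ∈ L.supp, f p.2 ≤ g p.2) : L.E f ≤ L.E g :=
  List.sum_le_sum fun p hp => mul_le_mul_of_nonneg_left (h p hp) (L.nonneg p hp)

lemma E_mono' (L : Law α) {f g : α → ℝ} (h : ∀ x, f x ≤ g x) : L.E f ≤ L.E g :=
  L.E_mono fun p _ => h p.2

lemma E_congr (L : Law α) {f g : α → ℝ} (h : ∀ p ∈ L.supp, f p.2 = g p.2) : L.E f = L.E g :=
  le_antisymm (L.E_mono fun p hp => (h p hp).le) (L.E_mono fun p hp => (h p hp).ge)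

lemma E_nonneg (L : Law α) {f : α → ℝ} (h : ∀ x, 0 ≤ f x) : 0 ≤ L.E f :=
  (L.E_const 0).symm.trans_le (L.E_mono' h)

lemma E_sum {ι : Type*} (L : Law α) (s : Finset ι) (f : ι → α → ℝ) :
    L.E (fun x => ∑ i ∈ s, f i x) = ∑ i ∈ s, L.E (f i) := by
  classical
  induction s using Finset.induction with
  | empty => simp [E]
  | insert a s ha ih => simp [Finset.sum_insert ha, E_add, ih]

/-- Sequential composition of laws. -/
def bind (L : Law α) (K : α → Law β) : Law β where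
  supp := L.supp.flatMap fun p => (K p.2).supp.map fun q => (p.1 * q.1, q.2)
  nonneg := by
    intro r hr
    simp only [List.mem_flatMap, List.mem_map] at hr
    obtain ⟨p, hp, q, hq, rfl⟩ := hr
    exact mul_nonneg (L.nonneg p hp) ((K p.2).nonneg q hq)
  total := by
    have h : ∀ l : List (ℝ × α),
        ((l.flatMap fun p => (K p.2).supp.map fun q => (p.1 * q.1, q.2)).map Prod.fst).sum
          = (l.map Prod.fst).sum := by
      intro l
      induction l with
      | nil => simp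
      | cons p l ih =>
        simp [ih, Function.comp_def, List.sum_map_mul_left, (K p.2).total]
    rw [h, L.total]

lemma E_bind (L : Law α) (K : α → Law β) (f : β → ℝ) :
    (L.bind K).E f = L.E fun x => (K x).E f := by
  have h : ∀ l : List (ℝ × α),
      ((l.flatMap fun p => (K p.2).supp.map fun q => (p.1 * q.1, q.2)).map
        fun r => r.1 * f r.2).sum = (l.map fun p => p.1 * (K p.2).E f).sum := by
    intro l
    induction l with
    | nil => simp
    | cons p l ih => simp [ih, Function.comp_def, E, mul_assoc, List.sum_map_mul_left]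
  exact h L.supp

lemma mem_bind {L : Law α} {K : α → Law β} {r : ℝ × β} (hr : r ∈ (L.bind K).supp) :
    ∃ p ∈ L.supp, ∃ q ∈ (K p.2).supp, q.2 = r.2 := by
  simp only [bind, List.mem_flatMap, List.mem_map] at hr
  obtain ⟨p, hp, q, hq, rfl⟩ := hr
  exact ⟨p, hp, q, hq, rfl⟩

/-- Image law. -/
def map (L : Law α) (g : α → β) : Law β := L.bind fun x => pure (g x)

lemma E_map (L : Law α) (g : α → β) (f : β → ℝ) : (L.map g).E f = L.E fun x => f (g x) := by
  simp [map, E_bind, E_pure]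

lemma mem_map {L : Law α} {g : α → β} {r : ℝ × β} (hr : r ∈ (L.map g).supp) :
    ∃ p ∈ L.supp, g p.2 = r.2 := by
  obtain ⟨p, hp, q, hq, e⟩ := mem_bind hr
  simp only [pure, List.mem_singleton] at hq
  subst hq
  exact ⟨p, hp, e⟩

/-- Indicator of an event. -/
noncomputable def ind (P : α → Prop) (x : α) : ℝ :=
  open Classical in if P x then 1 else 0

lemma ind_nonneg (P : α → Prop) (x : α) : 0 ≤ ind P x := by
  unfold ind; split_ifs <;> norm_num

lemma ind_le_exp {P : α → Prop} {x : α} {t : ℝ} (h : P x → 0 ≤ t) : ind P x ≤ exp t := by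
  unfold ind; split_ifs with hx
  · exact Real.one_le_exp (h hx)
  · exact (exp_pos _).le

/-- Probability of an event. -/
noncomputable def P (L : Law α) (A : α → Prop) : ℝ := L.E (ind A)

lemma P_nonneg (L : Law α) (A : α → Prop) : 0 ≤ L.P A := L.E_nonneg (ind_nonneg A)

lemma P_mono (L : Law α) {A B : α → Prop} (h : ∀ x, A x → B x) : L.P A ≤ L.P B := by
  refine L.E_mono' fun x => ?_
  unfold ind; split_ifs with ha hb <;> norm_num
  exact hb (h x ha)

lemma P_or (L : Law α) (A B : α → Prop) : L.P (fun x => A x ∨ B x) ≤ L.P A + L.P B := by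
  rw [P, P, P, ← E_add]
  refine L.E_mono' fun x => ?_
  unfold ind; split_ifs with h ha hb <;> norm_num
  rcases h with h | h <;> contradiction

lemma P_exists_finset {ι : Type*} (L : Law α) (s : Finset ι) (A : ι → α → Prop) :
    L.P (fun x => ∃ i ∈ s, A i x) ≤ ∑ i ∈ s, L.P (A i) := by
  unfold P
  rw [← E_sum L s fun i => ind (A i)]
  refine L.E_mono' fun x => ?_
  by_cases h : ∃ i ∈ s, A i x
  · obtain ⟨i, hi, hix⟩ := h
    refine le_trans ?_ (Finset.single_le_sum (fun j _ => ind_nonneg (A j) x) hi)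
    simp [ind, hix, (⟨i, hi, hix⟩ : ∃ i ∈ s, A i x)]
  · simp only [ind, h, if_false]
    exact Finset.sum_nonneg fun j _ => ind_nonneg (A j) x

end Law

variable {d : ℕ}

/-- Standard basis. -/
noncomputable abbrev stdB (d : ℕ) : OrthonormalBasis (Fin d) ℝ (Sp d) :=
  EuclideanSpace.basisFun (Fin d) ℝ

/-- Contraction. -/
def Contr (M : Op d) : Prop := ∀ x, ‖M x‖ ≤ ‖x‖

lemma contr_one : Contr (1 : Op d) := fun x => by simp

lemma Contr.comp {M N : Op d} (hM : Contr M) (hN : Contr N) : Contr (M ∘ₗ N) :=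
  fun x => (hM _).trans (hN x)

lemma Contr.adjoint {M : Op d} (h : Contr M) : Contr M.adjoint := by
  intro x
  rcases eq_or_lt_of_le (norm_nonneg (M.adjoint x)) with h0 | h0
  · rw [← h0]; exact norm_nonneg _
  refine le_of_mul_le_mul_left ?_ h0
  calc ‖M.adjoint x‖ * ‖M.adjoint x‖ = ⟪M.adjoint x, M.adjoint x⟫_ℝ :=
        (real_inner_self_eq_norm_mul_norm _).symm
    _ = ⟪x, M (M.adjoint x)⟫_ℝ := LinearMap.adjoint_inner_left _ _ _
    _ ≤ ‖x‖ * ‖M (M.adjoint x)‖ := real_inner_le_norm _ _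
    _ ≤ ‖x‖ * ‖M.adjoint x‖ := mul_le_mul_of_nonneg_left (h _) (norm_nonneg _)
    _ = ‖M.adjoint x‖ * ‖x‖ := mul_comm _ _

/-- The quadratic form of `I - Φ Φᵀ`. -/
noncomputable def fq (Φ : Op d) (u : Sp d) : ℝ := ‖u‖ ^ 2 - ‖Φ.adjoint u‖ ^ 2

/-- The operator `I - Φ Φᵀ`. -/
noncomputable def fop (Φ : Op d) : Op d := 1 - Φ ∘ₗ Φ.adjoint

lemma fop_apply (Φ : Op d) (u : Sp d) : fop Φ u = u - Φ (Φ.adjoint u) := rfl

lemma inner_fop (Φ : Op d) (x y : Sp d) :
    ⟪x, fop Φ y⟫_ℝ = ⟪x, y⟫_ℝ - ⟪Φ.adjoint x, Φ.adjoint y⟫_ℝ := by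
  rw [fop_apply, inner_sub_right, LinearMap.adjoint_inner_left]

lemma fq_eq (Φ : Op d) (u : Sp d) : fq Φ u = ⟪u, fop Φ u⟫_ℝ := by
  rw [inner_fop, real_inner_self_eq_norm_sq, real_inner_self_eq_norm_sq, fq]

lemma inner_fop_comm (Φ : Op d) (x y : Sp d) : ⟪x, fop Φ y⟫_ℝ = ⟪y, fop Φ x⟫_ℝ := by
  rw [inner_fop, inner_fop, real_inner_comm x y, real_inner_comm (Φ.adjoint x)]

lemma fq_nonneg {Φ : Op d} (h : Contr Φ) (u : Sp d) : 0 ≤ fq Φ u := by
  have := h.adjoint u
  unfold fq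
  nlinarith [norm_nonneg (Φ.adjoint u)]

/-- Squared Hilbert–Schmidt norm. -/
noncomputable def tr (M : Op d) : ℝ := ∑ i, ‖M (stdB d i)‖ ^ 2

lemma sum_norm_sq_eq (b b' : OrthonormalBasis (Fin d) ℝ (Sp d)) (M : Op d) :
    ∑ i, ‖M (b i)‖ ^ 2 = ∑ i, ‖M.adjoint (b' i)‖ ^ 2 := by
  simp only [← b'.sum_sq_inner_right (M (b _)), ← b.sum_sq_inner_right (M.adjoint (b' _))]
  rw [Finset.sum_comm]
  refine Finset.sum_congr rfl fun i _ => Finset.sum_congr rfl fun j _ => ?_
  rw [real_inner_comm (M.adjoint (b' i)), LinearMap.adjoint_inner_left]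

lemma tr_eq (b : OrthonormalBasis (Fin d) ℝ (Sp d)) (M : Op d) :
    tr M = ∑ i, ‖M (b i)‖ ^ 2 := by
  rw [tr, sum_norm_sq_eq (stdB d) (stdB d), sum_norm_sq_eq b (stdB d)]

lemma tr_nonneg (M : Op d) : 0 ≤ tr M := Finset.sum_nonneg fun _ _ => sq_nonneg _

lemma tr_le {M : Op d} (h : Contr M) : tr M ≤ d := by
  calc tr M ≤ ∑ _i : Fin d, (1 : ℝ) := Finset.sum_le_sum fun i _ => by
        have h1 := h (stdB d i)
        rw [(stdB d).orthonormal.1 i] at h1
        nlinarith [norm_nonneg (M (stdB d i))]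
    _ = d := by simp

lemma exists_eigen (M : Op d) : ∃ b : OrthonormalBasis (Fin d) ℝ (Sp d),
    ∀ i j, i ≠ j → ⟪M (b i), M (b j)⟫_ℝ = 0 := by
  have hT : (M.adjoint ∘ₗ M).IsSymmetric := LinearMap.isSymmetric_adjoint_comp_self M
  refine ⟨hT.eigenvectorBasis finrank_euclideanSpace_fin, fun i j hij => ?_⟩
  set b := hT.eigenvectorBasis finrank_euclideanSpace_fin
  rw [← LinearMap.adjoint_inner_left]
  have h := hT.apply_eigenvectorBasis finrank_euclideanSpace_fin i
  rw [LinearMap.comp_apply] at h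
  rw [h, inner_smul_left]
  apply mul_eq_zero.2
  right; exact b.orthonormal.2 hij

/-- An orthonormal basis diagonalising `Mᵀ M`. -/
noncomputable def eb (M : Op d) : OrthonormalBasis (Fin d) ℝ (Sp d) := (exists_eigen M).choose

/-- The eigenvalues of `Mᵀ M`. -/
noncomputable def ev (M : Op d) (i : Fin d) : ℝ := ‖M (eb M i)‖ ^ 2

lemma tr_eq_sum_ev (M : Op d) : tr M = ∑ i, ev M i := tr_eq (eb M) M

lemma ev_nonneg (M : Op d) (i : Fin d) : 0 ≤ ev M i := sq_nonneg _

lemma ev_le_one {M : Op d} (h : Contr M) (i : Fin d) : ev M i ≤ 1 := by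
  have h1 := h (eb M i)
  rw [(eb M).orthonormal.1 i] at h1
  unfold ev
  nlinarith [norm_nonneg (M (eb M i))]

lemma norm_sq_apply (M : Op d) (x : Sp d) :
    ‖M x‖ ^ 2 = ∑ i, ev M i * ⟪eb M i, x⟫_ℝ ^ 2 := by
  have ho := (exists_eigen M).choose_spec
  conv_lhs => rw [← (eb M).sum_repr' x]
  rw [← real_inner_self_eq_norm_sq, map_sum, sum_inner]
  refine Finset.sum_congr rfl fun i _ => ?_
  rw [inner_sum, Finset.sum_eq_single i]
  · rw [real_inner_self_eq_norm_sq, map_smul, norm_smul, mul_pow, Real.norm_eq_abs, sq_abs, ev]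
    ring
  · intro j _ hji
    simp [inner_smul_left, inner_smul_right, eb, ho i j hji.symm]
  · simp

/-- `q M x = min_w (3/2)‖M (x - w)‖² + 3‖w‖²`. -/
noncomputable def q (M : Op d) (x : Sp d) : ℝ :=
  ∑ i, 3 * ev M i / (ev M i + 2) * ⟪eb M i, x⟫_ℝ ^ 2

/-- The potential. -/
noncomputable def G (c : ℝ) (M : Op d) (x : Sp d) : ℝ := c * q M x + ((d : ℝ) - tr M)

lemma q_nonneg (M : Op d) (x : Sp d) : 0 ≤ q M x :=
  Finset.sum_nonneg fun i _ => mul_nonneg
    (div_nonneg (by linarith [ev_nonneg M i]) (by linarith [ev_nonneg M i])) (sq_nonneg _)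

lemma q_le (M : Op d) (x w : Sp d) : q M x ≤ 3 / 2 * ‖M (x - w)‖ ^ 2 + 3 * ‖w‖ ^ 2 := by
  rw [norm_sq_apply, ← (eb M).sum_sq_inner_right w, Finset.mul_sum, Finset.mul_sum,
    ← Finset.sum_add_distrib]
  refine Finset.sum_le_sum fun i _ => ?_
  have h := ev_nonneg M i
  rw [inner_sub_right]
  generalize ⟪eb M i, x⟫_ℝ = a
  generalize ⟪eb M i, w⟫_ℝ = b
  rw [div_mul_eq_mul_div, div_le_iff₀ (by linarith)]
  nlinarith [sq_nonneg (ev M i * (a - b) - 2 * b)]

lemma exists_split (M : Op d) (x : Sp d) : ∃ w,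
    q M x = 3 / 2 * ‖M (x - w)‖ ^ 2 + 3 * ‖w‖ ^ 2 ∧ ‖x - w‖ ≤ ‖x‖ := by
  let w : Sp d := ∑ i, (ev M i / (ev M i + 2) * ⟪eb M i, x⟫_ℝ) • eb M i
  have hw : ∀ i, ⟪eb M i, w⟫_ℝ = ev M i / (ev M i + 2) * ⟪eb M i, x⟫_ℝ := fun i =>
    (eb M).orthonormal.inner_right_fintype _ i
  refine ⟨w, ?_, ?_⟩
  · rw [norm_sq_apply, ← (eb M).sum_sq_inner_right w, Finset.mul_sum, Finset.mul_sum,
      ← Finset.sum_add_distrib, q]
    refine Finset.sum_congr rfl fun i _ => ?_
    have h := ev_nonneg M i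
    rw [inner_sub_right, hw]
    field_simp
    ring
  · rw [← abs_norm (x - w), ← abs_norm x, ← sq_le_sq, ← (eb M).sum_sq_inner_right,
      ← (eb M).sum_sq_inner_right]
    refine Finset.sum_le_sum fun i _ => ?_
    have h := ev_nonneg M i
    rw [inner_sub_right, hw, sq_le_sq, ← one_sub_mul, abs_mul]
    refine mul_le_of_le_one_left (abs_nonneg _) ?_
    have h1 : ev M i / (ev M i + 2) ≤ 1 := by rw [div_le_one (by linarith)]; linarith
    have h2 : 0 ≤ ev M i / (ev M i + 2) := div_nonneg h (by linarith)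
    rw [abs_le]; constructor <;> linarith

lemma q_one (x : Sp d) : q 1 x = ‖x‖ ^ 2 := by
  rw [q, ← (eb (1 : Op d)).sum_sq_inner_right x]
  refine Finset.sum_congr rfl fun i _ => ?_
  simp [ev, (eb (1 : Op d)).orthonormal.1 i]
  norm_num

lemma tr_one : tr (1 : Op d) = d := by simp [tr]

lemma G_one (c : ℝ) (x : Sp d) : G c 1 x = c * ‖x‖ ^ 2 := by simp [G, q_one, tr_one]

lemma G_zero (c : ℝ) (M : Op d) : G c M 0 ≤ d := by
  simp [G, q, tr_nonneg]

/-- Comparison of two operators of nearly equal strength. -/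
lemma G_le_of_le {c e : ℝ} (hc : 0 ≤ c) (he : 0 ≤ e) {M N : Op d}
    (hle : ∀ w, ‖M w‖ ^ 2 ≤ ‖N w‖ ^ 2 + e * ‖w‖ ^ 2) (htr : tr N ≤ tr M) (x : Sp d) :
    G c M x ≤ G c N x + c * (3 / 2 * e) * ‖x‖ ^ 2 := by
  obtain ⟨w, hw, hx⟩ := exists_split N x
  have h1 := q_le M x w
  have h2 := hle (x - w)
  have h3 : e * ‖x - w‖ ^ 2 ≤ e * ‖x‖ ^ 2 :=
    mul_le_mul_of_nonneg_left (pow_le_pow_left₀ (norm_nonneg _) hx 2) he
  have h4 : q M x ≤ q N x + 3 / 2 * e * ‖x‖ ^ 2 := by
    rw [hw]; linarith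
  have h5 := mul_le_mul_of_nonneg_left h4 hc
  unfold G
  linarith

end Vale.Agent.P262.Sigma
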