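import Mathlib
import Vale.Agent.P262.Sigma.Defs

/-!
Blocks: an operator together with the list of steps (operator from the start of the block, vector)
taken inside it.
-/

namespace Vale.Agent.P262.Sigma

open Real
open scoped InnerProductSpace

variable {d : ℕ}

abbrev Step (d : ℕ) := Op d × Sp d

instance : Inhabited (Step d) := ⟨(1, 0)⟩

/-- A block. -/
structure Blk (d : ℕ) where
  op : Op d
  steps : List (Step d)
  leaves : List (Sp d)

/-- Operator seen from before `P`. -/
def shift (P : Op d) (s : Step d) : Step d := (s.1 ∘ₗ P, s.2)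

/-- Product operator of consecutive blocks. -/
def prod : List (Blk d) → Op d
  | [] => 1
  | c :: cs => prod cs ∘ₗ c.op

/-- Steps of consecutive blocks, closed by a zero vector. -/
def ops : List (Blk d) → List (Step d)
  | [] => [(1, 0)]
  | c :: cs => c.steps ++ (ops cs).map (shift c.op)

/-- Sum of the squared overlaps along a list of steps. -/
noncomputable def energy (l : List (Step d)) (x : Sp d) : ℝ :=
  (l.map fun s => ⟪s.2, s.1 x⟫_ℝ ^ 2).sum

/-- The properties of future steps that are used. -/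
structure Chain (η : ℝ) (l : List (Step d)) : Prop where
  contr : ∀ s ∈ l, Contr s.1
  vec : ∀ s ∈ l, ‖s.2‖ ≤ 1
  dec : l.Pairwise fun s t => ∀ w, ‖t.1 w‖ ≤ ‖s.1 w‖
  hits : η * (l.map fun s => ‖s.1.adjoint s.2‖ ^ 2).sum ≤ d

/-- The properties of the steps of a block. -/
structure Seg (η : ℝ) (op : Op d) (l : List (Step d)) : Prop where
  contr_op : Contr op
  contr : ∀ s ∈ l, Contr s.1
  vec : ∀ s ∈ l, ‖s.2‖ ≤ 1
  dec : l.Pairwise fun s t => ∀ w, ‖t.1 w‖ ≤ ‖s.1 w‖
  below : ∀ s ∈ l, ∀ w, ‖op w‖ ≤ ‖s.1 w‖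
  first : ∃ v rest, l = (1, v) :: rest
  energy_le : ∀ x, η * energy l x ≤ ‖x‖ ^ 2 - ‖op x‖ ^ 2

lemma Seg.length_pos {η : ℝ} {op : Op d} {l : List (Step d)} (h : Seg η op l) : 0 < l.length := by
  obtain ⟨v, rest, rfl⟩ := h.first; simp

lemma Seg.first_op {η : ℝ} {op : Op d} {l : List (Step d)} (h : Seg η op l) :
    (l[0]'h.length_pos).1 = 1 := by
  obtain ⟨v, rest, rfl⟩ := h.first; rfl

lemma sum_energy (l : List (Step d)) :
    ∑ i, energy l (stdB d i) = (l.map fun s => ‖s.1.adjoint s.2‖ ^ 2).sum := by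
  induction l with
  | nil => simp [energy]
  | cons s l ih =>
    simp only [energy, List.map_cons, List.sum_cons] at ih ⊢
    rw [Finset.sum_add_distrib, ih]
    congr 1
    rw [← (stdB d).sum_sq_inner_left (s.1.adjoint s.2)]
    simp only [LinearMap.adjoint_inner_left]

lemma Seg.chain {η : ℝ} {op : Op d} {l : List (Step d)} (h : Seg η op l) : Chain η l where
  contr := h.contr
  vec := h.vec
  dec := h.dec
  hits := by
    rw [← sum_energy, Finset.mul_sum]
    calc ∑ i, η * energy l (stdB d i) ≤ ∑ _i : Fin d, (1 : ℝ) := Finset.sum_le_sum fun i _ => by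
          have := h.energy_le (stdB d i)
          rw [(stdB d).orthonormal.1 i] at this
          linarith [sq_nonneg ‖op (stdB d i)‖]
      _ = d := by simp

lemma seg_ops {η : ℝ} : ∀ {cs : List (Blk d)}, (∀ c ∈ cs, Seg η c.op c.steps) →
    Seg η (prod cs) (ops cs)
  | [], _ =>
    { contr_op := contr_one
      contr := by simp [ops, contr_one]
      vec := by simp [ops]
      dec := by simp [ops]
      below := by simp [ops, prod]
      first := ⟨0, [], rfl⟩
      energy_le := by simp [ops, prod, energy] }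
  | c :: cs, hcs => by
    have h1 := hcs c (List.mem_cons_self)
    have h2 : Seg η (prod cs) (ops cs) := seg_ops fun b hb => hcs b (List.mem_cons_of_mem _ hb)
    refine ⟨h2.contr_op.comp h1.contr_op, ?_, ?_, ?_, ?_, ?_, ?_⟩
    · intro s hs
      rcases List.mem_append.1 hs with hs | hs
      · exact h1.contr s hs
      · obtain ⟨t, ht, rfl⟩ := List.mem_map.1 hs
        exact (h2.contr t ht).comp h1.contr_op
    · intro s hs
      rcases List.mem_append.1 hs with hs | hs
      · exact h1.vec s hs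
      · obtain ⟨t, ht, rfl⟩ := List.mem_map.1 hs
        exact h2.vec t ht
    · refine List.pairwise_append.2 ⟨h1.dec, ?_, ?_⟩
      · exact List.pairwise_map.2 (h2.dec.imp fun h w => h (c.op w))
      · intro s hs t ht w
        obtain ⟨u, hu, rfl⟩ := List.mem_map.1 ht
        exact (h2.contr u hu _).trans (h1.below s hs w)
    · intro s hs w
      rcases List.mem_append.1 hs with hs | hs
      · exact (h2.contr_op _).trans (h1.below s hs w)
      · obtain ⟨t, ht, rfl⟩ := List.mem_map.1 hs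
        exact h2.below t ht (c.op w)
    · obtain ⟨v, rest, e⟩ := h1.first
      exact ⟨v, rest ++ (ops cs).map (shift c.op), by simp [ops, e]⟩
    · intro x
      have e : energy (ops (c :: cs)) x = energy c.steps x + energy (ops cs) (c.op x) := by
        simp [ops, energy, shift, Function.comp_def]
      rw [e, prod, LinearMap.comp_apply]
      linarith [h1.energy_le x, h2.energy_le (c.op x)]

/-- Following a block by a contraction. -/
lemma Seg.kill {η : ℝ} {op : Op d} {l : List (Step d)} (h : Seg η op l) {P : Op d} (hP : Contr P) :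
    Seg η (P ∘ₗ op) l where
  contr_op := hP.comp h.contr_op
  contr := h.contr
  vec := h.vec
  dec := h.dec
  below := fun s hs w => (hP _).trans (h.below s hs w)
  first := h.first
  energy_le := fun x => by
    have := hP (op x)
    rw [LinearMap.comp_apply]
    nlinarith [h.energy_le x, norm_nonneg (P (op x))]

section reps

/-- The bucket of a step. -/
noncomputable def bucket (e : ℝ) (s : Step d) : ℕ := ⌊tr s.1 / e⌋₊

/-- Index of the last step in the bucket of step `t`. -/
noncomputable def rep (e : ℝ) (l : List (Step d)) (t : ℕ) : ℕ :=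
  Nat.findGreatest (fun j => bucket e (l.getD j default) = bucket e (l.getD t default))
    (l.length - 1)

/-- The representatives. -/
noncomputable def reps (e : ℝ) (l : List (Step d)) : Finset ℕ :=
  (Finset.range l.length).image (rep e l)

variable {η e : ℝ} {l : List (Step d)} {t : ℕ}

lemma le_rep (ht : t < l.length) : t ≤ rep e l t :=
  Nat.le_findGreatest (by omega) rfl

lemma rep_lt (ht : t < l.length) : rep e l t < l.length := by
  have := Nat.findGreatest_le (P := fun j => bucket e (l.getD j default)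
    = bucket e (l.getD t default)) (l.length - 1)
  unfold rep; omega

lemma rep_mem (ht : t < l.length) : rep e l t ∈ reps e l :=
  Finset.mem_image.2 ⟨t, Finset.mem_range.2 ht, rfl⟩

lemma rep_spec (ht : t < l.length) :
    bucket e (l.getD (rep e l t) default) = bucket e (l.getD t default) :=
  Nat.findGreatest_spec (P := fun j => bucket e (l.getD j default)
    = bucket e (l.getD t default)) (by omega : t ≤ l.length - 1) rfl

lemma rep_last (ht : t + 1 = l.length) : rep e l t = t := by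
  have h1 := le_rep (e := e) (l := l) (t := t) (by omega)
  have h2 := rep_lt (e := e) (l := l) (t := t) (by omega)
  omega

lemma card_reps (he : 0 < e) (hl : ∀ s ∈ l, Contr s.1) :
    ((reps e l).card : ℝ) ≤ d / e + 1 := by
  classical
  have h : (reps e l).card ≤ (Finset.range (⌊(d : ℝ) / e⌋₊ + 1)).card := by
    refine Finset.card_le_card_of_injOn (fun j => bucket e (l.getD j default)) ?_ ?_
    · intro j hj
      obtain ⟨t, ht, rfl⟩ := Finset.mem_image.1 hj
      have hlt := rep_lt (e := e) (Finset.mem_range.1 ht)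
      simp only [Finset.coe_range, Set.mem_Iio, Nat.lt_succ_iff, bucket]
      refine Nat.floor_le_floor (div_le_div_of_nonneg_right ?_ he.le)
      rw [List.getD_eq_getElem l default hlt]
      exact tr_le (hl _ (List.getElem_mem hlt))
    · intro i hi j hj hij
      obtain ⟨s, hs, rfl⟩ := Finset.mem_image.1 hi
      obtain ⟨t, ht, rfl⟩ := Finset.mem_image.1 hj
      simp only [rep_spec (Finset.mem_range.1 hs), rep_spec (Finset.mem_range.1 ht)] at hij
      simp only [rep, hij]
  calc ((reps e l).card : ℝ) ≤ ((⌊(d : ℝ) / e⌋₊ + 1 : ℕ) : ℝ) := by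
        rw [Finset.card_range] at h; exact_mod_cast h
    _ ≤ d / e + 1 := by
        push_cast; linarith [Nat.floor_le (div_nonneg d.cast_nonneg he.le : 0 ≤ (d : ℝ) / e)]

lemma norm_sq_sub_le {M N : Op d} (h : ∀ w, ‖N w‖ ≤ ‖M w‖) (w : Sp d) :
    ‖M w‖ ^ 2 - ‖N w‖ ^ 2 ≤ (tr M - tr N) * ‖w‖ ^ 2 := by
  rcases eq_or_ne w 0 with rfl | hw
  · simp
  have hn : 0 < ‖w‖ := norm_pos_iff.2 hw
  classical
  have hor : Orthonormal ℝ ((↑) : ({(‖w‖⁻¹) • w} : Set (Sp d)) → Sp d) := by
    rw [orthonormal_iff_ite]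
    rintro ⟨x, rfl⟩ ⟨y, rfl⟩
    simp [norm_smul, inv_mul_cancel₀ hn.ne']
  obtain ⟨s, b, hsub, hb⟩ := hor.exists_orthonormalBasis_extension
  have hcard : Fintype.card s = d := by
    rw [← Module.finrank_eq_card_basis b.toBasis, finrank_euclideanSpace_fin]
  let b' := b.reindex (Fintype.equivFinOfCardEq hcard)
  obtain ⟨i, hi⟩ : ∃ i, b' i = (‖w‖⁻¹) • w :=
    ⟨Fintype.equivFinOfCardEq hcard ⟨_, hsub rfl⟩, by simp [b', hb]⟩
  have h1 : ‖M (b' i)‖ ^ 2 - ‖N (b' i)‖ ^ 2 ≤ tr M - tr N := by
    rw [tr_eq b' M, tr_eq b' N, ← Finset.sum_sub_distrib]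
    refine Finset.single_le_sum (f := fun j => ‖M (b' j)‖ ^ 2 - ‖N (b' j)‖ ^ 2) (fun j _ => ?_)
      (Finset.mem_univ i)
    have := h (b' j)
    nlinarith [norm_nonneg (N (b' j))]
  rw [hi, map_smul, map_smul, norm_smul, norm_smul, norm_inv, norm_norm, mul_pow, mul_pow,
    ← mul_sub, inv_pow, inv_mul_eq_div, div_le_iff₀ (by positivity)] at h1
  exact h1

lemma rep_le (he : 0 < e) (hl : l.Pairwise fun s t => ∀ w, ‖t.1 w‖ ≤ ‖s.1 w‖)
    (ht : t < l.length) :
    (∀ w, ‖(l[t]).1 w‖ ^ 2 ≤ ‖(l[rep e l t]'(rep_lt ht)).1 w‖ ^ 2 + e * ‖w‖ ^ 2) ∧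
    (∀ w, ‖(l[rep e l t]'(rep_lt ht)).1 w‖ ≤ ‖(l[t]).1 w‖) := by
  have h1 : ∀ w, ‖(l[rep e l t]'(rep_lt ht)).1 w‖ ≤ ‖(l[t]).1 w‖ := by
    intro w
    rcases eq_or_lt_of_le (le_rep (e := e) ht) with h | h
    · simp [← h]
    · exact List.pairwise_iff_getElem.1 hl t (rep e l t) ht (rep_lt ht) h w
  refine ⟨fun w => ?_, h1⟩
  have h2 := rep_spec (e := e) ht
  rw [List.getD_eq_getElem l default ht, List.getD_eq_getElem l default (rep_lt ht), bucket,
    bucket] at h2
  have h3 := norm_sq_sub_le h1 w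
  have h4 : tr (l[t]).1 - tr (l[rep e l t]'(rep_lt ht)).1 ≤ e := by
    have a1 := Nat.lt_floor_add_one (tr (l[t]).1 / e)
    have a2 := Nat.floor_le (div_nonneg (tr_nonneg (l[rep e l t]'(rep_lt ht)).1) he.le)
    rw [h2] at a2
    rw [div_lt_iff₀ he] at a1
    rw [le_div_iff₀ he] at a2
    linarith
  nlinarith [mul_le_mul_of_nonneg_right h4 (sq_nonneg ‖w‖)]

lemma tr_mono {M N : Op d} (h : ∀ w, ‖N w‖ ≤ ‖M w‖) : tr N ≤ tr M :=
  Finset.sum_le_sum fun i _ => pow_le_pow_left₀ (norm_nonneg _) (h _) 2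

/-- The potential at a step is at most the potential at its representative, both seen after `P`,
provided `P` lifts along `Q`. -/
lemma G_rep {c : ℝ} (hc : 0 ≤ c) (he : 0 < e)
    (hl : l.Pairwise fun s t => ∀ w, ‖t.1 w‖ ≤ ‖s.1 w‖) (ht : t < l.length)
    {Mt Ml Q : Op d} {K : ℝ} (hMt : (l[t]).1 = Mt ∘ₗ Q)
    (hMl : (l[rep e l t]'(rep_lt ht)).1 = Ml ∘ₗ Q) {P : Op d}
    (hlift : ∀ y, ∃ w, Q w = P y ∧ ‖w‖ ≤ K * ‖y‖) (x : Sp d) :
    G c (Mt ∘ₗ P) x ≤ G c (Ml ∘ₗ P) x + c * (3 / 2 * (e * K ^ 2)) * ‖x‖ ^ 2 := by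
  obtain ⟨h1, h2⟩ := rep_le he hl ht
  refine G_le_of_le hc (by positivity) ?_ ?_ x
  · intro y
    obtain ⟨w, hw, hwn⟩ := hlift y
    have a1 := h1 w
    rw [hMt, hMl] at a1
    simp only [LinearMap.comp_apply, hw] at a1 ⊢
    have : ‖w‖ ^ 2 ≤ K ^ 2 * ‖y‖ ^ 2 := by
      rw [← mul_pow]; exact pow_le_pow_left₀ (norm_nonneg _) hwn 2
    nlinarith
  · refine tr_mono fun y => ?_
    obtain ⟨w, hw, _⟩ := hlift y
    have a2 := h2 w
    rw [hMt, hMl] at a2
    simpa only [LinearMap.comp_apply, hw] using a2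

end reps

lemma sum_range_getD {α : Type*} [Inhabited α] (f : α → ℝ) (l : List α) :
    ∑ i ∈ Finset.range l.length, f (l.getD i default) = (l.map f).sum := by
  induction l with
  | nil => simp
  | cons a l ih => simp [Finset.sum_range_succ', ← ih, add_comm]

lemma hits_card {η δ : ℝ} (hη : 0 < η) (hδ : 0 < δ) {l : List (Step d)} (h : Chain η l) :
    (((Finset.range l.length).filter fun i =>
      δ < ‖(l.getD i default).1.adjoint (l.getD i default).2‖).card : ℝ) ≤ d / (η * δ ^ 2) := by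
  set s := (Finset.range l.length).filter fun i =>
    δ < ‖(l.getD i default).1.adjoint (l.getD i default).2‖
  have h1 : (s.card : ℝ) * δ ^ 2 ≤ (l.map fun s => ‖s.1.adjoint s.2‖ ^ 2).sum := by
    calc (s.card : ℝ) * δ ^ 2
        = ∑ _i ∈ s, δ ^ 2 := by simp
      _ ≤ ∑ i ∈ s, ‖(l.getD i default).1.adjoint (l.getD i default).2‖ ^ 2 := by
          refine Finset.sum_le_sum fun i hi => pow_le_pow_left₀ hδ.le ?_ 2
          exact (Finset.mem_filter.1 hi).2.le
      _ ≤ ∑ i ∈ Finset.range l.length,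
            ‖(l.getD i default).1.adjoint (l.getD i default).2‖ ^ 2 :=
          Finset.sum_le_sum_of_subset_of_nonneg (Finset.filter_subset _ _)
            fun i _ _ => sq_nonneg _
      _ = _ := sum_range_getD (fun s : Step d => ‖s.1.adjoint s.2‖ ^ 2) l
  rw [le_div_iff₀ (by positivity)]
  nlinarith [h.hits, mul_le_mul_of_nonneg_left h1 hη.le]

end Vale.Agent.P262.Sigma
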