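import Mathlib

/-!
Parameters of the prefix signing construction in dimension `d`.
-/

namespace Vale.Agent.P262.Sigma.Cst

open Real

variable (d : ℕ)

noncomputable def D : ℝ := (d : ℝ) + 3
noncomputable def T : ℝ := 10 ^ 6 * D d
noncomputable def Lam : ℝ := Real.log (T d)
noncomputable def eta : ℝ := 1 / (10 ^ 5 * Lam d)
noncomputable def cc : ℝ := eta d / 60
noncomputable def eps : ℝ := 1 / (4 * D d ^ 2)
noncomputable def sig (k : ℕ) : ℝ := 4 / eta d * (1 + eps d) ^ k
noncomputable def theta : ℝ := 1 / T d ^ 20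
noncomputable def delta : ℝ := 1 / T d ^ 24
noncomputable def eta0 : ℝ := 1 / T d ^ 45
noncomputable def pp : ℝ := 1 / T d ^ 40
noncomputable def rr : ℝ := 12 * √(d * pp d / eta d)
noncomputable def KK : ℝ := 100 * Lam d
noncomputable def LL : ℝ := √(1700 * Lam d / eta d)
noncomputable def unit : ℝ := theta d * T d ^ 3 + rr d
noncomputable def rho (k : ℕ) : ℝ := 3 * ((d : ℝ) + 1 - k) * unit d
noncomputable def B (k : ℕ) : ℝ := (d : ℝ) + 1 + ((d : ℝ) + 1 - k) * (2 * KK d + 1)
noncomputable def mu0 : ℝ := rho d 0 ^ 2 / (2 * eps d) + 2 * pp d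
noncomputable def mm (k : ℕ) : ℝ := k * mu0 d

lemma three_le_D : 3 ≤ D d := by unfold D; linarith [(Nat.cast_nonneg d : (0:ℝ) ≤ d)]

lemma T_ge : 3 * 10 ^ 6 ≤ T d := by unfold T; nlinarith [three_le_D d]

lemma T_pos : 0 < T d := by linarith [T_ge d]

lemma one_le_T : 1 ≤ T d := by linarith [T_ge d]

lemma d_le_D : (d : ℝ) + 3 ≤ D d := le_rfl

lemma D_le_T : 10 ^ 6 * D d ≤ T d := le_rfl

lemma Lam_ge : 10 ≤ Lam d := by
  rw [Lam, Real.le_log_iff_exp_le (T_pos d)]
  have h := Real.exp_one_lt_d9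
  calc Real.exp 10 = Real.exp 1 ^ (10 : ℕ) := by rw [← Real.exp_nat_mul]; norm_num
    _ ≤ 3 ^ (10 : ℕ) := pow_le_pow_left₀ (exp_pos 1).le (by linarith) _
    _ ≤ 3 * 10 ^ 6 := by norm_num
    _ ≤ T d := T_ge d

lemma Lam_pos : 0 < Lam d := by linarith [Lam_ge d]

lemma Lam_le : Lam d ≤ 15 + D d := by
  have hD := three_le_D d
  rw [Lam, T, Real.log_mul (by norm_num) (by linarith)]
  have h1 : Real.log (10 ^ 6 : ℝ) ≤ 15 := by
    rw [Real.log_le_iff_le_exp (by norm_num)]
    have h := Real.exp_one_gt_d9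
    calc (10 : ℝ) ^ 6 ≤ (27 / 10) ^ (15 : ℕ) := by norm_num
      _ ≤ Real.exp 1 ^ (15 : ℕ) := pow_le_pow_left₀ (by norm_num) (by linarith) _
      _ = Real.exp 15 := by rw [← Real.exp_nat_mul]; norm_num
  have h2 := Real.log_le_sub_one_of_pos (show (0:ℝ) < D d by linarith)
  linarith

lemma Lam_bound : 10 ^ 5 * Lam d ≤ T d := by
  have := Lam_le d; have := D_le_T d; have := three_le_D d
  nlinarith

lemma eta_pos : 0 < eta d := by unfold eta; have := Lam_pos d; positivity

lemma inv_eta : 1 / eta d = 10 ^ 5 * Lam d := by rw [eta, one_div_one_div]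

lemma inv_eta_le : 1 / eta d ≤ T d := (inv_eta d).trans_le (Lam_bound d)

lemma eta_le : eta d ≤ 1 / 10 ^ 6 := by
  rw [eta]; refine one_div_le_one_div_of_le (by norm_num) ?_
  linarith [Lam_ge d]

lemma cc_pos : 0 < cc d := by unfold cc; linarith [eta_pos d]

lemma eps_pos : 0 < eps d := by unfold eps; have := three_le_D d; positivity

lemma eps_le : eps d ≤ 1 / 36 := by
  rw [eps]; refine one_div_le_one_div_of_le (by norm_num) ?_
  nlinarith [three_le_D d]

lemma sig_lb (k : ℕ) : 4 / eta d ≤ sig d k := by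
  refine le_mul_of_one_le_right ?_ (one_le_pow₀ (by linarith [eps_pos d]))
  have := eta_pos d; positivity

lemma one_le_sig (k : ℕ) : 1 ≤ sig d k := by
  refine le_trans ?_ (sig_lb d k)
  rw [le_div_iff₀ (eta_pos d)]; linarith [eta_le d]

lemma sig_pos (k : ℕ) : 0 < sig d k := by linarith [one_le_sig d k]

lemma sig_succ (k : ℕ) : sig d (k + 1) = sig d k * (1 + eps d) := by
  unfold sig; ring

lemma sig_le_succ (k : ℕ) : sig d k ≤ sig d (k + 1) := by
  rw [sig_succ]; exact le_mul_of_one_le_right (sig_pos d k).le (by linarith [eps_pos d])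

lemma sig_le (k : ℕ) (hk : k ≤ d + 1) : sig d k ≤ 8 / eta d := by
  have he := eps_pos d
  have h1 : (1 + eps d) ^ k ≤ 2 := by
    calc (1 + eps d) ^ k ≤ Real.exp (eps d) ^ k :=
          pow_le_pow_left₀ (by linarith) (by linarith [Real.add_one_le_exp (eps d)]) _
      _ = Real.exp (k * eps d) := (Real.exp_nat_mul _ _).symm
      _ ≤ Real.exp (1 / 2) := by
          refine Real.exp_le_exp.2 ?_
          have hk' : (k : ℝ) ≤ D d := by
            have : (k : ℝ) ≤ d + 1 := by exact_mod_cast hk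
            unfold D; linarith
          have hD := three_le_D d
          rw [eps, mul_one_div, div_le_iff₀ (by positivity)]
          nlinarith
      _ ≤ 2 := by
          rw [← Real.le_log_iff_exp_le (by norm_num)]
          linarith [Real.log_two_gt_d9]
  calc sig d k ≤ 4 / eta d * 2 :=
        mul_le_mul_of_nonneg_left h1 (div_nonneg (by norm_num) (eta_pos d).le)
    _ = 8 / eta d := by ring

lemma sig1_le (k : ℕ) (hk : k ≤ d + 1) : sig d k * (1 + eps d) ≤ 9 / eta d := by
  calc sig d k * (1 + eps d) ≤ 8 / eta d * (1 + 1 / 36) :=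
        mul_le_mul (sig_le d k hk) (by linarith [eps_le d]) (by linarith [eps_pos d])
          (div_nonneg (by norm_num) (eta_pos d).le)
    _ ≤ 8 / eta d * (9 / 8) :=
        mul_le_mul_of_nonneg_left (by norm_num) (div_nonneg (by norm_num) (eta_pos d).le)
    _ = 9 / eta d := by ring

lemma cc_sig (k : ℕ) (hk : k ≤ d + 1) : 2 * cc d * (sig d k * (1 + eps d)) ≤ 1 / 3 := by
  calc 2 * cc d * (sig d k * (1 + eps d)) ≤ 2 * cc d * (9 / eta d) :=
        mul_le_mul_of_nonneg_left (sig1_le d k hk) (by linarith [cc_pos d])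
    _ = 3 / 10 := by unfold cc; have := eta_pos d; field_simp; ring
    _ ≤ 1 / 3 := by norm_num

lemma LL_sq : LL d ^ 2 = 1700 * Lam d / eta d := by
  rw [LL, Real.sq_sqrt]; have := Lam_pos d; have := eta_pos d; positivity

lemma LL_nonneg : 0 ≤ LL d := Real.sqrt_nonneg _

lemma four_le_LL : 4 ≤ LL d := by
  refine Real.le_sqrt_of_sq_le ?_
  rw [le_div_iff₀ (eta_pos d)]
  nlinarith [Lam_ge d, eta_le d]

lemma two_LL_le : 2 * LL d + 3 ≤ 1 / (2 * eta d) := by
  have hη := eta_pos d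
  have h : LL d ≤ (1 / 7) / eta d := by
    rw [LL, Real.sqrt_le_iff]
    refine ⟨by positivity, ?_⟩
    have : eta d * Lam d = 1 / 10 ^ 5 := by
      rw [eta]; have := Lam_pos d; field_simp
    rw [div_pow, le_div_iff₀ (by positivity), div_mul_eq_mul_div, div_le_iff₀ hη]
    nlinarith
  rw [le_div_iff₀ (by positivity)]
  rw [le_div_iff₀ hη] at h
  nlinarith [eta_le d]

lemma theta_pos : 0 < theta d := by unfold theta; have := T_pos d; positivity

lemma theta_le : theta d ≤ 1 / 4 := by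
  rw [theta]; refine one_div_le_one_div_of_le (by norm_num) ?_
  calc (4 : ℝ) ≤ T d := by linarith [T_ge d]
    _ ≤ T d ^ 20 := le_self_pow₀ (one_le_T d) (by norm_num)

lemma delta_pos : 0 < delta d := by unfold delta; have := T_pos d; positivity

lemma eta0_pos : 0 < eta0 d := by unfold eta0; have := T_pos d; positivity

lemma pp_pos : 0 < pp d := by unfold pp; have := T_pos d; positivity

lemma pp_le : pp d ≤ 1 / 4 := by
  rw [pp]; refine one_div_le_one_div_of_le (by norm_num) ?_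
  calc (4 : ℝ) ≤ T d := by linarith [T_ge d]
    _ ≤ T d ^ 40 := le_self_pow₀ (one_le_T d) (by norm_num)

lemma rr_nonneg : 0 ≤ rr d := by unfold rr; positivity

lemma unit_pos : 0 < unit d := by
  unfold unit; have := theta_pos d; have := T_pos d; have := rr_nonneg d; positivity

lemma rr_le_pow : rr d ≤ 12 / T d ^ 19 := by
  have hT := T_pos d
  have h1 : √((d : ℝ) * pp d / eta d) ≤ 1 / T d ^ 19 := by
    rw [Real.sqrt_le_iff]
    refine ⟨by positivity, ?_⟩
    have hd : (d : ℝ) ≤ T d := by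
      have := D_le_T d; have := d_le_D d; have := three_le_D d
      linarith
    calc (d : ℝ) * pp d / eta d = d * pp d * (1 / eta d) := by ring
      _ ≤ T d * pp d * T d := mul_le_mul (mul_le_mul_of_nonneg_right hd (pp_pos d).le)
            (inv_eta_le d) (by have := eta_pos d; positivity) (by have := pp_pos d; positivity)
      _ = (1 / T d ^ 19) ^ 2 := by unfold pp; field_simp
  unfold rr
  rw [show (12 : ℝ) / T d ^ 19 = 12 * (1 / T d ^ 19) by ring]
  linarith

lemma unit_le : unit d ≤ 2 / T d ^ 17 := by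
  have hT := T_pos d
  have h1 : theta d * T d ^ 3 = 1 / T d ^ 17 := by unfold theta; field_simp
  have h2 : 12 / T d ^ 19 ≤ 1 / T d ^ 17 := by
    rw [div_le_div_iff₀ (by positivity) (by positivity)]
    have : 12 ≤ T d ^ 2 := by nlinarith [T_ge d]
    have := mul_le_mul_of_nonneg_left this (by positivity : 0 ≤ T d ^ 17)
    linarith [show T d ^ 19 = T d ^ 17 * T d ^ 2 by ring]
  rw [unit, h1, show (2 : ℝ) / T d ^ 17 = 1 / T d ^ 17 + 1 / T d ^ 17 by ring]
  linarith [rr_le_pow d]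

lemma rho_nonneg (k : ℕ) (hk : k ≤ d + 1) : 0 ≤ rho d k := by
  have : (k : ℝ) ≤ d + 1 := by exact_mod_cast hk
  exact mul_nonneg (by linarith) (unit_pos d).le

lemma rho_le_zero (k : ℕ) : rho d k ≤ rho d 0 := by
  unfold rho
  refine mul_le_mul_of_nonneg_right ?_ (unit_pos d).le
  simp only [Nat.cast_zero]
  linarith [(Nat.cast_nonneg k : (0:ℝ) ≤ k)]

lemma rho0_le : rho d 0 ≤ 1 / T d ^ 16 := by
  have hT := T_pos d
  have h1 := unit_le d
  have h2 : 6 * ((d : ℝ) + 1) ≤ T d := by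
    have := D_le_T d; have := d_le_D d; have := three_le_D d
    linarith
  calc rho d 0 ≤ 3 * ((d : ℝ) + 1) * (2 / T d ^ 17) := by
        rw [rho, Nat.cast_zero, sub_zero]
        exact mul_le_mul_of_nonneg_left h1 (by positivity)
    _ = 6 * ((d : ℝ) + 1) * (1 / T d ^ 17) := by ring
    _ ≤ T d * (1 / T d ^ 17) := mul_le_mul_of_nonneg_right h2 (by positivity)
    _ = 1 / T d ^ 16 := by field_simp

lemma rho_step (k : ℕ) (hk : k + 1 ≤ d + 1) :
    (rho d (k + 1) + theta d * T d ^ 3) * (1 + theta d ^ 2) + rr d ≤ rho d k := by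
  have h0 := rho_nonneg d (k + 1) hk
  have h1 := (rho_le_zero d (k + 1)).trans (rho0_le d)
  have hT := T_pos d
  have ht := theta_pos d
  have e1 : theta d * T d ^ 3 ≤ unit d := by unfold unit; linarith [rr_nonneg d]
  have e2 : theta d ^ 2 ≤ 1 / 16 := by nlinarith [theta_le d]
  have e3 : theta d ^ 2 * rho d (k + 1) ≤ unit d := by
    refine le_trans ?_ e1
    have h3 : rho d (k + 1) ≤ T d ^ 3 := h1.trans ((div_le_one (by positivity)).2
      (one_le_pow₀ (one_le_T d)) |>.trans (one_le_pow₀ (one_le_T d)))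
    calc theta d ^ 2 * rho d (k + 1) ≤ theta d ^ 2 * T d ^ 3 :=
          mul_le_mul_of_nonneg_left h3 (sq_nonneg _)
      _ = theta d * (theta d * T d ^ 3) := by ring
      _ ≤ 1 * (theta d * T d ^ 3) :=
          mul_le_mul_of_nonneg_right (by linarith [theta_le d]) (by positivity)
      _ = _ := one_mul _
  have e4 : theta d ^ 2 * (theta d * T d ^ 3) ≤ 1 / 16 * unit d :=
    mul_le_mul e2 e1 (by positivity) (by norm_num)
  have e5 : rho d k = rho d (k + 1) + 3 * unit d := by unfold rho; push_cast; ring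
  have e6 : rr d = unit d - theta d * T d ^ 3 := by unfold unit; ring
  nlinarith [rr_nonneg d, unit_pos d]

lemma leaf_rho : √(2 * eta d) * rho d 0 ≤ 1 / 2 := by
  have h1 : √(2 * eta d) ≤ 1 / 2 := by
    rw [Real.sqrt_le_iff]; constructor
    · norm_num
    · nlinarith [eta_le d]
  have h2 : rho d 0 ≤ 1 := (rho0_le d).trans ((div_le_one (pow_pos (T_pos d) _)).2
    (one_le_pow₀ (one_le_T d)))
  calc √(2 * eta d) * rho d 0 ≤ 1 / 2 * 1 :=
        mul_le_mul h1 h2 (rho_nonneg d 0 (by omega)) (by norm_num)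
    _ = 1 / 2 := mul_one _

lemma mu0_nonneg : 0 ≤ mu0 d := by
  unfold mu0; have := eps_pos d; have := pp_pos d; positivity

lemma eps_inv_le : 1 / eps d ≤ T d ^ 2 := by
  rw [eps, one_div_one_div, T, mul_pow]
  exact mul_le_mul_of_nonneg_right (by norm_num) (sq_nonneg _)

lemma mu0_le : mu0 d ≤ 3 / T d ^ 30 := by
  have hT := T_pos d
  have h1 : rho d 0 ^ 2 ≤ 1 / T d ^ 32 := by
    calc rho d 0 ^ 2 ≤ (1 / T d ^ 16) ^ 2 :=
          pow_le_pow_left₀ (rho_nonneg d 0 (by omega)) (rho0_le d) 2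
      _ = _ := by field_simp
  have h2 : rho d 0 ^ 2 / (2 * eps d) ≤ 1 / T d ^ 30 := by
    calc rho d 0 ^ 2 / (2 * eps d) = rho d 0 ^ 2 * (1 / eps d) / 2 := by ring
      _ ≤ 1 / T d ^ 32 * T d ^ 2 / 2 := by
          gcongr ?_ / 2
          exact mul_le_mul h1 (eps_inv_le d) (by have := eps_pos d; positivity) (by positivity)
      _ ≤ 1 / T d ^ 30 := by
          have : 0 < 1 / T d ^ 30 := by positivity
          rw [show 1 / T d ^ 32 * T d ^ 2 = 1 / T d ^ 30 by field_simp]
          linarith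
  have h3 : pp d ≤ 1 / T d ^ 30 := by
    unfold pp; gcongr
    · exact one_le_T d
    · norm_num
  rw [mu0, show (3 : ℝ) / T d ^ 30 = 3 * (1 / T d ^ 30) by ring]
  linarith

lemma mm_le (k : ℕ) (hk : k ≤ d + 1) : mm d k + 2 * mu0 d ≤ 1 := by
  have hT := T_pos d
  have hk' : (k : ℝ) + 2 ≤ D d := by
    have : (k : ℝ) ≤ d + 1 := by exact_mod_cast hk
    unfold D; linarith
  calc mm d k + 2 * mu0 d = ((k : ℝ) + 2) * mu0 d := by unfold mm; ring
    _ ≤ D d * (3 / T d ^ 30) :=
        mul_le_mul hk' (mu0_le d) (mu0_nonneg d) (by linarith [three_le_D d])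
    _ ≤ 1 := by
        rw [mul_div_assoc', div_le_one (by positivity)]
        calc D d * 3 ≤ T d := by linarith [D_le_T d, three_le_D d]
          _ ≤ T d ^ 30 := le_self_pow₀ (one_le_T d) (by norm_num)

lemma mm_nonneg (k : ℕ) : 0 ≤ mm d k := by unfold mm; have := mu0_nonneg d; positivity

lemma mm_succ (k : ℕ) : mm d (k + 1) = mm d k + mu0 d := by unfold mm; push_cast; ring

/-- The shift cost of one level. -/
lemma shift_cost (k : ℕ) {x : ℝ} (h0 : 0 ≤ x) (hx : x ≤ rho d 0) :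
    x ^ 2 / (2 * sig d k * eps d) + 2 * pp d ≤ mu0 d := by
  have := eps_pos d
  have := one_le_sig d k
  unfold mu0
  have h1 : x ^ 2 / (2 * sig d k * eps d) ≤ rho d 0 ^ 2 / (2 * eps d) := by
    gcongr
    nlinarith
  linarith

lemma small_a : 2 * pp d ≤ eps d ^ 5 / 64 := by
  have hT := T_pos d
  have h : 1 / eps d ≤ T d ^ 2 := eps_inv_le d
  have he := eps_pos d
  rw [one_div_le he (by positivity)] at h
  have h5 : (1 / T d ^ 2) ^ 5 ≤ eps d ^ 5 := pow_le_pow_left₀ (by positivity) h 5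
  have h2 : (128 : ℝ) ≤ T d ^ 30 := by
    calc (128 : ℝ) ≤ T d := by linarith [T_ge d]
      _ ≤ T d ^ 30 := le_self_pow₀ (one_le_T d) (by norm_num)
  calc 2 * pp d = 128 / T d ^ 40 / 64 := by unfold pp; ring
    _ ≤ T d ^ 30 / T d ^ 40 / 64 := by gcongr
    _ = (1 / T d ^ 2) ^ 5 / 64 := by field_simp
    _ ≤ eps d ^ 5 / 64 := by gcongr

lemma small_b (k : ℕ) : rr d / √(sig d k) ≤ eps d ^ 3 / 64 := by
  have hT := T_pos d
  have h := eps_inv_le d
  have he := eps_pos d
  rw [one_div_le he (by positivity)] at h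
  have h3 : (1 / T d ^ 2) ^ 3 ≤ eps d ^ 3 := pow_le_pow_left₀ (by positivity) h 3
  have h2 : (768 : ℝ) ≤ T d ^ 13 := by
    calc (768 : ℝ) ≤ T d := by linarith [T_ge d]
      _ ≤ T d ^ 13 := le_self_pow₀ (one_le_T d) (by norm_num)
  calc rr d / √(sig d k) ≤ rr d := by
        refine div_le_self (rr_nonneg d) ?_
        exact Real.one_le_sqrt.2 (one_le_sig d k)
    _ ≤ 12 / T d ^ 19 := rr_le_pow d
    _ = 768 / T d ^ 19 / 64 := by ring
    _ ≤ T d ^ 13 / T d ^ 19 / 64 := by gcongr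
    _ = (1 / T d ^ 2) ^ 3 / 64 := by field_simp
    _ ≤ eps d ^ 3 / 64 := by gcongr

/-- The bias of conditioning is smaller than the shift. -/
lemma bias_lt (k : ℕ) (hk : k ≤ d + 1) (hd : 0 < d) :
    2 * √(2 * sig d k * pp d) < rr d / √d := by
  have hd' : (0 : ℝ) < d := by exact_mod_cast hd
  have hη := eta_pos d
  have hp := pp_pos d
  have h1 : rr d / √d = 12 * √(pp d / eta d) := by
    rw [rr, mul_div_assoc, ← Real.sqrt_div (by positivity)]
    congr 2; field_simp
  have h2 : √(2 * sig d k * pp d) ≤ 4 * √(pp d / eta d) := by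
    rw [show (4 : ℝ) = √16 by rw [show (16:ℝ) = 4 ^ 2 by norm_num, Real.sqrt_sq (by norm_num)],
      ← Real.sqrt_mul (by norm_num)]
    refine Real.sqrt_le_sqrt ?_
    calc 2 * sig d k * pp d ≤ 2 * (8 / eta d) * pp d :=
          mul_le_mul_of_nonneg_right (by linarith [sig_le d k hk]) hp.le
      _ = _ := by ring
  have h3 : 0 < √(pp d / eta d) := Real.sqrt_pos.2 (by positivity)
  rw [h1]; linarith

lemma KK_nonneg : 0 ≤ KK d := by unfold KK; linarith [Lam_pos d]

lemma B_succ (k : ℕ) : B d k = B d (k + 1) + (2 * KK d + 1) := by unfold B; push_cast; ring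

lemma B_top : B d (d + 1) = (d : ℝ) + 1 := by unfold B; push_cast; ring

lemma B_nonneg (k : ℕ) (hk : k ≤ d + 1) : 0 ≤ B d k := by
  have : (k : ℝ) ≤ d + 1 := by exact_mod_cast hk
  unfold B; have := KK_nonneg d
  have : 0 ≤ ((d : ℝ) + 1 - k) * (2 * KK d + 1) := mul_nonneg (by linarith) (by linarith)
  positivity

lemma B_le_zero (k : ℕ) : B d k ≤ B d 0 := by
  unfold B; have := KK_nonneg d; have : (0:ℝ) ≤ k := k.cast_nonneg
  push_cast; nlinarith

lemma two_B0_le : 2 * B d 0 ≤ T d ^ 2 := by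
  have hD := three_le_D d
  have h1 : B d 0 ≤ D d * (200 * (15 + D d) + 2) := by
    have := Lam_le d; have := Lam_pos d
    unfold B KK; push_cast
    have : (d : ℝ) + 1 ≤ D d := by unfold D; linarith
    nlinarith [(Nat.cast_nonneg d : (0:ℝ) ≤ d)]
  have h2 : 200 * (15 + D d) + 2 ≤ 10 ^ 6 * D d := by linarith
  calc 2 * B d 0 ≤ 2 * (D d * (10 ^ 6 * D d)) := by
        have := mul_le_mul_of_nonneg_left h2 (by linarith : (0:ℝ) ≤ D d); linarith
    _ ≤ T d ^ 2 := by unfold T; nlinarith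

/-- A bound on the norm from a bound on the potential. -/
lemma norm_le {x : ℝ} (hx : 0 ≤ x) (h : cc d * x ^ 2 ≤ T d ^ 2) : x ≤ T d ^ 3 := by
  have hT := T_pos d
  refine (pow_le_pow_iff_left₀ hx (by positivity) two_ne_zero).1 ?_
  have h1 : x ^ 2 ≤ T d ^ 2 * (60 * (1 / eta d)) := by
    rw [show T d ^ 2 * (60 * (1 / eta d)) = T d ^ 2 / cc d by
      unfold cc; have := eta_pos d; field_simp]
    rwa [le_div_iff₀' (cc_pos d)]
  refine h1.trans ?_
  calc T d ^ 2 * (60 * (1 / eta d)) ≤ T d ^ 2 * (T d * T d) := by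
        refine mul_le_mul_of_nonneg_left ?_ (by positivity)
        exact mul_le_mul (by linarith [T_ge d]) (inv_eta_le d)
          (by have := eta_pos d; positivity) hT.le
    _ ≤ (T d ^ 3) ^ 2 := by
        nlinarith [mul_le_mul_of_nonneg_left (one_le_pow₀ (one_le_T d) (n := 2))
          (by positivity : 0 ≤ T d ^ 4)]

/-- The loss in passing to a bucket representative. -/
lemma tiny {x : ℝ} (h : cc d * x ^ 2 ≤ T d ^ 2) :
    cc d * (3 / 2 * (4 * eta0 d / theta d ^ 2)) * x ^ 2 ≤ 1 / 4 := by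
  have hT := T_pos d
  calc cc d * (3 / 2 * (4 * eta0 d / theta d ^ 2)) * x ^ 2
      = 6 / T d ^ 5 * (cc d * x ^ 2) := by unfold eta0 theta; field_simp; ring
    _ ≤ 6 / T d ^ 5 * T d ^ 2 := mul_le_mul_of_nonneg_left h (by positivity)
    _ = 6 / T d ^ 3 := by field_simp
    _ ≤ 1 / 4 := by
        rw [div_le_iff₀ (by positivity)]
        nlinarith [le_self_pow₀ (one_le_T d) (show 3 ≠ 0 by norm_num), T_ge d]

/-- The value at a negligible functional. -/
lemma negligible {x : ℝ} (hx : x ≤ T d ^ 3) : delta d / theta d * x ≤ 1 := by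
  have hT := T_pos d
  calc delta d / theta d * x ≤ delta d / theta d * T d ^ 3 :=
        mul_le_mul_of_nonneg_left hx (div_nonneg (delta_pos d).le (theta_pos d).le)
    _ = 1 / T d := by unfold delta theta; field_simp
    _ ≤ 1 := (div_le_one hT).2 (one_le_T d)

/-- The union bound at one node: `nb` buckets and `nh` hits, twice each. -/
lemma union_le {nb nh : ℝ} (hb : nb ≤ d / eta0 d + 1)
    (hh : nh ≤ d / (eta d * delta d ^ 2)) :
    2 * nb * Real.exp (1 - KK d) + 2 * nh * (2 * Real.exp (1 - LL d ^ 2 * eta d / 18)) ≤ pp d := by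
  have hT := T_pos d
  have hη := eta_pos d
  have e1 : ∀ x, 94 * Lam d ≤ x → Real.exp (1 - x) ≤ 3 / T d ^ 94 := by
    intro x hx
    calc Real.exp (1 - x) ≤ Real.exp (1 - (94 : ℕ) * Lam d) :=
          Real.exp_le_exp.2 (by push_cast; linarith)
      _ = Real.exp 1 / T d ^ 94 := by
          rw [Real.exp_sub, Real.exp_nat_mul, Lam, Real.exp_log hT]
      _ ≤ 3 / T d ^ 94 := by gcongr; linarith [Real.exp_one_lt_d9]
  have hK := e1 (KK d) (by unfold KK; linarith [Lam_pos d])
  have hL := e1 (LL d ^ 2 * eta d / 18) (by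
    rw [LL_sq, div_mul_cancel₀ _ hη.ne']; linarith [Lam_pos d])
  have hd : (d : ℝ) ≤ T d := by linarith [D_le_T d, d_le_D d, three_le_D d]
  have hb' : nb ≤ 2 * T d ^ 50 := by
    refine hb.trans ?_
    have h3 : (d : ℝ) / eta0 d ≤ T d ^ 46 := by
      rw [eta0, div_div_eq_mul_div, div_one, pow_succ' (T d) 45]
      exact mul_le_mul_of_nonneg_right hd (by positivity)
    have := pow_le_pow_right₀ (one_le_T d) (show 46 ≤ 50 by norm_num)
    have := one_le_pow₀ (one_le_T d) (n := 50)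
    linarith
  have hh' : nh ≤ T d ^ 50 := by
    refine hh.trans ?_
    calc (d : ℝ) / (eta d * delta d ^ 2) = d * (1 / eta d) * T d ^ 48 := by
          unfold delta; field_simp
      _ ≤ T d * T d * T d ^ 48 := by
          gcongr
          exact inv_eta_le d
      _ = T d ^ 50 := by ring
  calc 2 * nb * Real.exp (1 - KK d) + 2 * nh * (2 * Real.exp (1 - LL d ^ 2 * eta d / 18))
      ≤ 2 * (2 * T d ^ 50) * (3 / T d ^ 94) + 2 * T d ^ 50 * (2 * (3 / T d ^ 94)) := by
        gcongr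
    _ = 24 / T d ^ 44 := by field_simp; ring
    _ ≤ pp d := by
        rw [pp, div_le_div_iff₀ (by positivity) (by positivity)]
        have : 24 ≤ T d ^ 4 := by
          calc (24 : ℝ) ≤ T d := by linarith [T_ge d]
            _ ≤ T d ^ 4 := le_self_pow₀ (one_le_T d) (by norm_num)
        nlinarith [pow_pos hT 40]

/-- The final numerical bound. -/
lemma final (hd : 0 < d) {x : ℝ} (h : cc d * x ^ 2 ≤ B d 0) :
    x ≤ 2 * 10 ^ 6 * √d * Real.log (2 * d) := by
  have hd' : (1 : ℝ) ≤ d := by exact_mod_cast hd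
  have hl2 : Real.log 2 ≤ Real.log (2 * d) := Real.log_le_log (by norm_num) (by linarith)
  have hlog : 0.69 ≤ Real.log (2 * d) := by linarith [Real.log_two_gt_d9]
  have hL : Lam d ≤ 25 * Real.log (2 * d) := by
    have h1 : Lam d ≤ Real.log (2 * 10 ^ 6) + Real.log (2 * d) := by
      rw [← Real.log_mul (by norm_num) (by linarith), Lam]
      refine Real.log_le_log (T_pos d) ?_
      unfold T D; nlinarith
    have h2 : Real.log (2 * 10 ^ 6 : ℝ) ≤ 15 := by
      rw [Real.log_le_iff_le_exp (by norm_num)]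
      calc (2 * 10 ^ 6 : ℝ) ≤ (27 / 10) ^ (15 : ℕ) := by norm_num
        _ ≤ Real.exp 1 ^ (15 : ℕ) :=
            pow_le_pow_left₀ (by norm_num) (by linarith [Real.exp_one_gt_d9]) _
        _ = Real.exp 15 := by rw [← Real.exp_nat_mul]; norm_num
    linarith
  have hLp := Lam_ge d
  have hB : B d 0 ≤ 404 * d * Lam d := by
    unfold B KK; push_cast; nlinarith
  have h3 : x ^ 2 ≤ (2 * 10 ^ 6 * √d * Real.log (2 * d)) ^ 2 := by
    have h4 : x ^ 2 ≤ 60 * 10 ^ 5 * Lam d * (404 * d * Lam d) := by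
      calc x ^ 2 = 60 * 10 ^ 5 * Lam d * (cc d * x ^ 2) := by unfold cc eta; field_simp
        _ ≤ _ := mul_le_mul_of_nonneg_left (h.trans hB) (by positivity)
    rw [mul_pow, mul_pow, Real.sq_sqrt (by linarith)]
    have h5 : Lam d ^ 2 ≤ 625 * Real.log (2 * d) ^ 2 := by nlinarith
    nlinarith
  exact abs_le_of_sq_le_sq h3 (by positivity) |> (le_abs_self x).trans

end Vale.Agent.P262.Sigma.Cst
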