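import Vale.Agent.P262.Sigma.Defs

/-!
The exponential moment of the potential along one block.
-/

namespace Vale.Agent.P262.Sigma

open Real MeasureTheory
open scoped InnerProductSpace

lemma gauss_lin {p : ℝ} (hp : 0 < p) (b : ℝ) :
    Integrable (fun g : ℝ => exp (g * b - p * g ^ 2 / 2)) ∧
    ∫ g : ℝ, exp (g * b - p * g ^ 2 / 2) = exp (b ^ 2 / (2 * p)) * sqrt (2 * π / p) := by
  have e : (fun g : ℝ => exp (g * b - p * g ^ 2 / 2))
      = fun g => exp (b ^ 2 / (2 * p)) * exp (-(p / 2) * (g - b / p) ^ 2) := by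
    funext g; rw [← exp_add]; congr 1; field_simp; ring
  rw [e]
  refine ⟨((integrable_exp_neg_mul_sq (half_pos hp)).comp_sub_right (b / p)).const_mul _, ?_⟩
  rw [integral_const_mul, integral_sub_right_eq_self (fun x => exp (-(p / 2) * x ^ 2)) (b / p),
    integral_gaussian, div_div_eq_mul_div, mul_comm π 2]

lemma Law.integral_E {α : Type*} (L : Law α) (f : α → ℝ → ℝ) (hf : ∀ o, Integrable (f o)) :
    Integrable (fun g => L.E fun o => f o g) ∧
    ∫ g, L.E (fun o => f o g) = L.E fun o => ∫ g, f o g := by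
  unfold Law.E
  induction L.supp with
  | nil => simp
  | cons a l ih =>
    have h1 := (hf a.2).const_mul a.1
    simp only [List.map_cons, List.sum_cons]
    refine ⟨h1.add ih.1, ?_⟩
    rw [integral_add h1 ih.1, ih.2, integral_const_mul]

lemma inv_sqrt_one_sub_le {x : ℝ} (h0 : 0 ≤ x) (h : x ≤ 1/2) :
    sqrt (2 * π / (1 - x)) ≤ sqrt (2 * π) * exp x := by
  rw [← sqrt_sq (exp_pos x).le, ← sqrt_mul (by positivity)]
  refine sqrt_le_sqrt ?_
  rw [div_eq_mul_inv]
  refine mul_le_mul_of_nonneg_left ?_ (by positivity)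
  calc (1 - x)⁻¹ ≤ 2 * x + 1 := by
        rw [inv_le_iff_one_le_mul₀ (by linarith)]; nlinarith
    _ ≤ exp (2 * x) := Real.add_one_le_exp _
    _ = exp x ^ 2 := by rw [two_mul, exp_add, sq]

/-- Gaussian linearisation of a quadratic exponential moment along a `fop`-orthogonal family. -/
lemma quad_step {α ι : Type*} {d : ℕ} {σ m : ℝ} (hσ : 0 ≤ σ) {Φ : Op d} (hΦ : Contr Φ)
    (L : Law α) (X : α → Sp d) (z : Sp d) (u : ι → Sp d)
    (hu : ∀ i j, i ≠ j → ⟪u i, fop Φ (u j)⟫_ℝ = 0)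
    (hs : ∀ i, σ * fq Φ (u i) ≤ 1/3)
    (hX : ∀ θ, L.E (fun o => exp ⟪θ, X o⟫_ℝ) ≤ exp (m + σ/2 * fq Φ θ))
    (s : Finset ι) : ∀ θ : Sp d, (∀ i ∈ s, ⟪θ, fop Φ (u i)⟫_ℝ = 0) →
      L.E (fun o => exp (⟪θ, X o⟫_ℝ + ∑ i ∈ s, ⟪u i, z + X o⟫_ℝ ^ 2 / 2))
        ≤ exp (m + σ/2 * fq Φ θ + ∑ i ∈ s,
            (⟪u i, z⟫_ℝ ^ 2 / (2 * (1 - σ * fq Φ (u i))) + σ * fq Φ (u i))) := by
  classical
  induction s using Finset.induction with
  | empty => intro θ _; simpa using hX θ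
  | insert j s hj ih =>
    intro θ hθ
    set v := u j with hv
    set b := ⟪v, z⟫_ℝ with hb
    set S := fun o => ∑ i ∈ s, ⟪u i, z + X o⟫_ℝ ^ 2 / 2 with hS
    set K := ∑ i ∈ s, (⟪u i, z⟫_ℝ ^ 2 / (2 * (1 - σ * fq Φ (u i))) + σ * fq Φ (u i)) with hK
    set p := 1 - σ * fq Φ v with hp
    have hp0 : 0 < p := by have := hs j; rw [← hv] at this; linarith
    have hθv : ⟪θ, fop Φ v⟫_ℝ = 0 := hθ j (Finset.mem_insert_self j s)
    set f := fun o (g : ℝ) =>
      exp (⟪θ, X o⟫_ℝ + S o) * exp (g * ⟪v, z + X o⟫_ℝ - 1 * g ^ 2 / 2) with hf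
    have hfi : ∀ o, Integrable (f o) := fun o => (gauss_lin one_pos _).1.const_mul _
    have hfv : ∀ o, ∫ g, f o g
        = sqrt (2 * π) * exp (⟪θ, X o⟫_ℝ + (⟪v, z + X o⟫_ℝ ^ 2 / 2 + S o)) := by
      intro o
      rw [hf, integral_const_mul, (gauss_lin one_pos _).2, mul_one, div_one, exp_add, exp_add,
        exp_add]
      ring
    obtain ⟨hint, heq⟩ := L.integral_E f hfi
    have hbound : ∀ g : ℝ, L.E (fun o => f o g)
        ≤ exp (m + σ/2 * fq Φ θ + K) * exp (g * b - p * g ^ 2 / 2) := by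
      intro g
      have h0 : ∀ i ∈ s, ⟪θ + g • v, fop Φ (u i)⟫_ℝ = 0 := by
        intro i hi
        have hne : j ≠ i := fun e => hj (e ▸ hi)
        rw [inner_add_left, real_inner_smul_left, hθ i (Finset.mem_insert_of_mem hi), hu j i hne]
        ring
      have h1 := ih (θ + g • v) h0
      have hq : fq Φ (θ + g • v) = fq Φ θ + g ^ 2 * fq Φ v := by
        rw [fq_eq, fq_eq, fq_eq, map_add, map_smul, inner_add_left, inner_add_right,
          inner_add_right, real_inner_smul_left, real_inner_smul_left, real_inner_smul_right,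
          real_inner_smul_right, inner_fop_comm Φ v θ, hθv]
        ring
      have e : ∀ o, f o g = exp (g * b - g ^ 2 / 2)
          * exp (⟪θ + g • v, X o⟫_ℝ + S o) := by
        intro o
        simp only [hf]
        rw [← exp_add, ← exp_add, inner_add_left, real_inner_smul_left, inner_add_right, hb]
        congr 1; ring
      simp only [e, Law.E_const_mul]
      refine (mul_le_mul_of_nonneg_left h1 (exp_pos _).le).trans_eq ?_
      rw [← exp_add, ← exp_add, hq, hp]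
      congr 1; ring
    have hmono := integral_mono hint ((gauss_lin hp0 b).1.const_mul _) hbound
    rw [heq, integral_const_mul, (gauss_lin hp0 b).2] at hmono
    simp only [hfv, Law.E_const_mul] at hmono
    have hfq := fq_nonneg hΦ v
    have hsq := inv_sqrt_one_sub_le (mul_nonneg hσ hfq)
      (by have := hs j; rw [← hv] at this; linarith)
    rw [← hp] at hsq
    simp only [Finset.sum_insert hj]
    have h2 : sqrt (2 * π) * L.E (fun o => exp (⟪θ, X o⟫_ℝ + (⟪v, z + X o⟫_ℝ ^ 2 / 2 + S o)))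
        ≤ sqrt (2 * π) * (exp (m + σ/2 * fq Φ θ + K) * (exp (b ^ 2 / (2 * p)) * exp (σ * fq Φ v))) := by
      refine hmono.trans ((mul_le_mul_of_nonneg_left
        (mul_le_mul_of_nonneg_left hsq (exp_pos _).le) (exp_pos _).le).trans_eq ?_)
      ring
    refine (le_of_mul_le_mul_left h2 (by positivity)).trans_eq ?_
    rw [← exp_add, ← exp_add]
    congr 1; ring

/-- One block: exponential moment of the potential. -/
theorem quad_bound {α : Type*} {d : ℕ} {c σ m : ℝ} (hc : 0 ≤ c) (hσ : 0 ≤ σ)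
    (h2 : 2 * c * σ ≤ 1/3) {M Φ : Op d} (hM : Contr M) (hΦ : Contr Φ) (L : Law α) (X : α → Sp d)
    (a : Sp d) (hX : ∀ θ, L.E (fun o => exp ⟪θ, X o⟫_ℝ) ≤ exp (m + σ/2 * fq Φ θ)) :
    L.E (fun o => exp (G c M (Φ a + X o))) ≤ exp (m + G c (M ∘ₗ Φ) a) := by
  classical
  set e := eb M with he
  set f : Fin d → ℝ := fun i => 3 * ev M i / (ev M i + 2) with hf
  have hf0 : ∀ i, 0 ≤ f i := fun i => by
    have := ev_nonneg M i; rw [hf]; positivity
  have hf1 : ∀ i, f i ≤ 1 := fun i => by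
    have := ev_nonneg M i
    have := ev_le_one hM i
    rw [hf]; simp only; rw [div_le_one (by linarith)]; linarith
  have hf2 : ∀ i, f i ≤ 3/2 * ev M i := fun i => by
    have := ev_nonneg M i
    rw [hf]; simp only; rw [div_le_iff₀ (by linarith)]; nlinarith
  let S : Op d := ∑ i, sqrt (2 * c * f i) • ((innerₛₗ ℝ (e i)).smulRight (e i))
  have hS : ∀ x, S x = ∑ i, (sqrt (2 * c * f i) * ⟪e i, x⟫_ℝ) • e i := by
    intro x; simp [S, LinearMap.sum_apply, smul_smul]
  have hSi : ∀ x i, ⟪e i, S x⟫_ℝ = sqrt (2 * c * f i) * ⟪e i, x⟫_ℝ := fun x i => by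
    rw [hS]; exact e.orthonormal.inner_right_fintype _ i
  have hSsym : ∀ x y, ⟪S x, y⟫_ℝ = ⟪x, S y⟫_ℝ := by
    intro x y
    rw [← e.sum_inner_mul_inner (S x) y, ← e.sum_inner_mul_inner x (S y)]
    refine Finset.sum_congr rfl fun i _ => ?_
    rw [real_inner_comm (e i) (S x), hSi, hSi, real_inner_comm x (e i)]
    ring
  have hSn : ∀ x, ‖S x‖ ^ 2 = 2 * c * q M x := by
    intro x
    rw [← e.sum_sq_inner_right (S x), q, Finset.mul_sum]
    refine Finset.sum_congr rfl fun i _ => ?_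
    rw [hSi, mul_pow, sq_sqrt (mul_nonneg (by linarith) (hf0 i))]
    ring
  have hT : (S ∘ₗ fop Φ ∘ₗ S).IsSymmetric := by
    intro x y
    simp only [LinearMap.comp_apply]
    rw [hSsym, real_inner_comm, inner_fop_comm, ← hSsym]
  set B := hT.eigenvectorBasis finrank_euclideanSpace_fin with hB
  set u := fun j => S (B j) with hu
  have horth : ∀ i j, i ≠ j → ⟪u i, fop Φ (u j)⟫_ℝ = 0 := by
    intro i j hij
    simp only [hu]
    rw [hSsym]
    have := hT.apply_eigenvectorBasis finrank_euclideanSpace_fin j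
    simp only [LinearMap.comp_apply] at this
    rw [this, inner_smul_right]
    exact mul_eq_zero.2 (Or.inr (B.orthonormal.2 hij))
  have hpar : ∀ x, ∑ j, ⟪u j, x⟫_ℝ ^ 2 = 2 * c * q M x := by
    intro x
    simp only [hu, hSsym]
    rw [B.sum_sq_inner_right, hSn]
  have hus : ∀ j, σ * fq Φ (u j) ≤ 1/3 := by
    intro j
    have h1 : fq Φ (u j) ≤ 2 * c := by
      have h3 : q M (B j) ≤ 1 := by
        calc q M (B j) ≤ ∑ i, 1 * ⟪e i, B j⟫_ℝ ^ 2 :=
              Finset.sum_le_sum fun i _ => mul_le_mul_of_nonneg_right (hf1 i) (sq_nonneg _)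
          _ = 1 := by simp [e.sum_sq_inner_right, B.orthonormal.1 j]
      have h4 : ‖u j‖ ^ 2 ≤ 2 * c := by
        rw [hu, hSn]; nlinarith
      unfold fq
      nlinarith [sq_nonneg ‖Φ.adjoint (u j)‖]
    nlinarith [mul_le_mul_of_nonneg_left h1 hσ]
  have hstep := quad_step hσ hΦ L X (Φ a) u horth hus hX Finset.univ 0 (by simp)
  simp only [inner_zero_left, zero_add, ← Finset.sum_div, hpar,
    show fq Φ 0 = 0 by simp [fq], mul_zero, add_zero, Finset.sum_add_distrib] at hstep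
  -- the trace part
  have htr : ∑ j, σ * fq Φ (u j) ≤ tr M - tr (M ∘ₗ Φ) := by
    have hsum : ∀ A : Op d, ∑ j, ‖A (B j)‖ ^ 2 = ∑ i, ‖A (e i)‖ ^ 2 := fun A => by
      rw [← tr_eq, ← tr_eq]
    have h1 : ∑ j, fq Φ (u j) = ∑ i, 2 * c * f i * fq Φ (e i) := by
      simp only [fq, hu, Finset.sum_sub_distrib]
      rw [hsum S, show (∑ j, ‖Φ.adjoint (S (B j))‖ ^ 2) = ∑ j, ‖(Φ.adjoint ∘ₗ S) (B j)‖ ^ 2 from rfl,
        hsum (Φ.adjoint ∘ₗ S), ← Finset.sum_sub_distrib]
      refine Finset.sum_congr rfl fun i _ => ?_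
      have hSe : S (e i) = sqrt (2 * c * f i) • e i := by
        rw [hS, Finset.sum_eq_single i]
        · rw [real_inner_self_eq_norm_sq, e.orthonormal.1 i]; simp
        · intro k _ hk; rw [e.orthonormal.2 hk]; simp
        · simp
      rw [LinearMap.comp_apply, hSe, map_smul, norm_smul, norm_smul, mul_pow, mul_pow,
        Real.norm_eq_abs, sq_abs, sq_sqrt (mul_nonneg (by linarith) (hf0 i))]
      ring
    have h3 : tr (M ∘ₗ Φ) = ∑ i, ev M i * ‖Φ.adjoint (e i)‖ ^ 2 := by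
      rw [tr]
      simp only [LinearMap.comp_apply, norm_sq_apply M]
      rw [Finset.sum_comm]
      refine Finset.sum_congr rfl fun i _ => ?_
      rw [← Finset.mul_sum, ← (stdB d).sum_sq_inner_right (Φ.adjoint (e i))]
      congr 1
      refine Finset.sum_congr rfl fun j _ => ?_
      rw [real_inner_comm (Φ.adjoint (e i)), LinearMap.adjoint_inner_left]
    rw [← Finset.mul_sum, h1, tr_eq_sum_ev, h3, ← Finset.sum_sub_distrib, Finset.mul_sum]
    refine Finset.sum_le_sum fun i _ => ?_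
    have h4 := fq_nonneg hΦ (e i)
    have h5 : fq Φ (e i) = 1 - ‖Φ.adjoint (e i)‖ ^ 2 := by simp [fq, e.orthonormal.1 i]
    calc σ * (2 * c * f i * fq Φ (e i)) = 2 * c * σ * (f i * fq Φ (e i)) := by ring
      _ ≤ 1/3 * (3/2 * ev M i * fq Φ (e i)) :=
          mul_le_mul h2 (mul_le_mul_of_nonneg_right (hf2 i) h4) (mul_nonneg (hf0 i) h4) (by norm_num)
      _ ≤ ev M i * fq Φ (e i) := by nlinarith [mul_nonneg (ev_nonneg M i) h4]
      _ = _ := by rw [h5]; ring
  -- the quadratic part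
  have hquad : ∑ j, ⟪u j, Φ a⟫_ℝ ^ 2 / (2 * (1 - σ * fq Φ (u j))) ≤ c * q (M ∘ₗ Φ) a := by
    set z := Φ a with hz
    set g := fun j => ⟪u j, z⟫_ℝ / (1 - σ * fq Φ (u j)) with hg
    set ξ := ∑ j, g j • u j with hξ
    set w := σ • ξ with hw
    set Q := ∑ j, g j ^ 2 * fq Φ (u j) with hQ
    have hF : ∀ j, ⟪u j, fop Φ ξ⟫_ℝ = g j * fq Φ (u j) := by
      intro j
      rw [hξ, map_sum, inner_sum, Finset.sum_eq_single j]
      · rw [map_smul, inner_smul_right, fq_eq]
      · intro k _ hk; rw [map_smul, inner_smul_right, horth j k hk.symm, mul_zero]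
      · simp
    have hQ' : fq Φ ξ = Q := by
      rw [fq_eq, hQ]
      rw [show ⟪ξ, fop Φ ξ⟫_ℝ = ∑ j, ⟪g j • u j, fop Φ ξ⟫_ℝ from sum_inner _ _ _]
      refine Finset.sum_congr rfl fun j _ => ?_
      rw [real_inner_smul_left, hF]; ring
    have hpt : ∀ j, ⟪u j, z⟫_ℝ ^ 2 / (1 - σ * fq Φ (u j))
        ≤ ⟪u j, z + fop Φ w⟫_ℝ ^ 2 - σ * (g j ^ 2 * fq Φ (u j)) := by
      intro j
      have hp : 1 - σ * fq Φ (u j) ≠ 0 := by have := hus j; linarith
      have hb : ⟪u j, z⟫_ℝ = g j * (1 - σ * fq Φ (u j)) := (div_mul_cancel₀ _ hp).symm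
      rw [inner_add_right, hw, map_smul, inner_smul_right, hF, hb]
      rw [div_le_iff₀ (by have := hus j; linarith)]
      ring_nf
      nlinarith [sq_nonneg (g j * (σ * fq Φ (u j)))]
    have hsum := Finset.sum_le_sum fun j (_ : j ∈ Finset.univ) => hpt j
    rw [Finset.sum_sub_distrib, hpar, ← Finset.mul_sum, ← hQ] at hsum
    have hQ0 : 0 ≤ Q := hQ' ▸ fq_nonneg hΦ ξ
    have hwq : fq Φ w = σ ^ 2 * Q := by
      rw [← hQ', hw, fq, fq, map_smul, norm_smul, norm_smul, mul_pow, mul_pow, Real.norm_eq_abs,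
        sq_abs]
      ring
    have hkey : q M (z + fop Φ w) - 3 * fq Φ w ≤ q (M ∘ₗ Φ) a := by
      obtain ⟨w₀, hw₀, -⟩ := exists_split (M ∘ₗ Φ) a
      have h1 := q_le M (z + fop Φ w) (Φ w₀ + fop Φ w)
      rw [add_sub_add_right_eq_sub, hz, ← map_sub] at h1
      have h3 : ‖Φ w₀ + fop Φ w‖ ^ 2 ≤ fq Φ w + ‖w₀‖ ^ 2 := by
        have e1 : Φ w₀ + fop Φ w = w + Φ (w₀ - Φ.adjoint w) := by
          rw [fop_apply, map_sub]; abel
        have e2 := hΦ (w₀ - Φ.adjoint w)
        have e3 : ‖Φ (w₀ - Φ.adjoint w)‖ ^ 2 ≤ ‖w₀ - Φ.adjoint w‖ ^ 2 :=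
          pow_le_pow_left₀ (norm_nonneg _) e2 2
        rw [e1, norm_add_sq_real, ← LinearMap.adjoint_inner_left, inner_sub_right,
          real_inner_self_eq_norm_sq, fq]
        rw [norm_sub_sq_real, real_inner_comm (Φ.adjoint w) w₀] at e3
        linarith
      rw [hw₀, LinearMap.comp_apply]
      linarith
    have h6 : 2 * c * (3 * fq Φ w) ≤ σ * Q := by
      rw [hwq]
      nlinarith [mul_le_mul_of_nonneg_right h2 (mul_nonneg hσ hQ0)]
    have h7 := mul_le_mul_of_nonneg_left hkey (by linarith : (0:ℝ) ≤ 2 * c)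
    calc ∑ j, ⟪u j, z⟫_ℝ ^ 2 / (2 * (1 - σ * fq Φ (u j)))
        = (∑ j, ⟪u j, z⟫_ℝ ^ 2 / (1 - σ * fq Φ (u j))) / 2 := by
          rw [Finset.sum_div]
          exact Finset.sum_congr rfl fun j _ => by rw [div_div, mul_comm]
      _ ≤ c * q (M ∘ₗ Φ) a := by linarith
  have hfin : L.E (fun o => exp (G c M (Φ a + X o)))
      = exp ((d : ℝ) - tr M) * L.E (fun o => exp (2 * c * q M (Φ a + X o) / 2)) := by
    rw [← Law.E_const_mul]
    congr 1
    funext o
    rw [← exp_add, G]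
    congr 1; ring
  rw [hfin]
  refine (mul_le_mul_of_nonneg_left hstep (exp_pos _).le).trans ?_
  rw [← exp_add, exp_le_exp, G]
  linarith

end Vale.Agent.P262.Sigma
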