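import Mathlib
import Vale.Agent.P262.Sigma.Defs
import Vale.Agent.P262.Sigma.Const
import Vale.Agent.P262.Sigma.Blocks

/-!
The property `Spec k` of a block of level `k`, and its proof for single vectors.
-/

namespace Vale.Agent.P262.Sigma

open Real
open scoped InnerProductSpace

variable {d : ℕ}

/-- State before step `i`. -/
def pre (a : Sp d) (o : List (Sp d)) (i : ℕ) : Sp d := a + (o.take i).sum

/-- The norm `√⟨u, (I - ΦΦᵀ) u⟩`. -/
noncomputable def fn (Φ : Op d) (u : Sp d) : ℝ := √(fq Φ u)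

lemma fn_nonneg (Φ : Op d) (u : Sp d) : 0 ≤ fn Φ u := Real.sqrt_nonneg _

lemma fn_sq {Φ : Op d} (h : Contr Φ) (u : Sp d) : fn Φ u ^ 2 = fq Φ u :=
  Real.sq_sqrt (fq_nonneg h u)

lemma fq_smul (Φ : Op d) (r : ℝ) (u : Sp d) : fq Φ (r • u) = r ^ 2 * fq Φ u := by
  simp only [fq, map_smul, norm_smul, mul_pow, Real.norm_eq_abs, sq_abs]; ring

lemma fq_add (Φ : Op d) (x y : Sp d) :
    fq Φ (x + y) = fq Φ x + 2 * ⟪x, fop Φ y⟫_ℝ + fq Φ y := by
  simp only [fq, map_add, norm_add_sq_real, inner_fop]; ring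

lemma inner_fop_le {Φ : Op d} (h : Contr Φ) (x y : Sp d) :
    |⟪x, fop Φ y⟫_ℝ| ≤ fn Φ x * fn Φ y := by
  have hd : discrim (fq Φ y) (2 * ⟪x, fop Φ y⟫_ℝ) (fq Φ x) ≤ 0 := by
    refine discrim_le_zero fun t => ?_
    have := fq_nonneg h (x + t • y)
    rw [fq_add, fq_smul, map_smul, inner_smul_right] at this
    nlinarith
  rw [fn, fn, ← Real.sqrt_mul (fq_nonneg h x), ← Real.sqrt_sq_eq_abs]
  refine Real.sqrt_le_sqrt ?_
  unfold discrim at hd; nlinarith

/-- The mean target of a block. -/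
noncomputable def target (Φ : Op d) (a u : Sp d) : Sp d := Φ a + fop Φ u

/-- Admissible starting point. -/
def Adm (k : ℕ) (l : List (Step d)) (a : Sp d) : Prop :=
  ∀ s ∈ l, G (Cst.cc d) s.1 a ≤ Cst.B d k

/-- What holds surely from an admissible start. -/
structure Sure (b : Blk d) (fut : List (Step d)) (a : Sp d) (o : List (Sp d)) : Prop where
  valid : ∀ i < b.steps.length, |⟪(b.steps.getD i default).2, pre a o i⟫_ℝ| ≤ 1 / (2 * Cst.eta d) →
    o.getD i 0 = (b.steps.getD i default).2 ∨ o.getD i 0 = -(b.steps.getD i default).2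
  path : ∀ i < b.steps.length, Cst.cc d * ‖pre a o i‖ ^ 2 ≤ Cst.B d 0
  dev : ∀ i < b.steps.length,
    Cst.delta d < ‖(b.steps.getD i default).1.adjoint (b.steps.getD i default).2‖ →
    |⟪(b.steps.getD i default).2, pre a o i - (b.steps.getD i default).1 a⟫_ℝ| ≤ Cst.LL d
  small : ∀ i < b.steps.length,
    ‖(b.steps.getD i default).1.adjoint (b.steps.getD i default).2‖ ≤ Cst.delta d →
    |⟪(b.steps.getD i default).2, pre a o i⟫_ℝ| ≤ 2 * Cst.LL d + 2
  futg : (∀ X, (∀ s ∈ fut, G (Cst.cc d) (s.1 ∘ₗ b.op) a ≤ X) →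
      ∀ s ∈ fut, G (Cst.cc d) s.1 (a + o.sum) ≤ X + Cst.KK d + 1 / 4) ∨
    ∀ y, ∃ x, b.op x = y ∧ ‖x‖ ≤ 2 * ‖y‖
  futv : ∀ s ∈ fut, Cst.delta d < ‖s.1.adjoint s.2‖ →
    |⟪s.1.adjoint s.2, a + o.sum - b.op a⟫_ℝ| ≤ Cst.LL d

/-- The law used for one start. -/
structure Out (k : ℕ) (b : Blk d) (fut : List (Step d)) (a u : Sp d) (L : Law (List (Sp d))) :
    Prop where
  len : ∀ p ∈ L.supp, p.2.length = b.steps.length
  mean : ∀ h, L.E (fun o => ⟪h, a + o.sum - target b.op a u⟫_ℝ) = 0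
  mgf : ∀ θ, L.E (fun o => exp ⟪θ, a + o.sum - target b.op a u⟫_ℝ) ≤
    exp (Cst.sig d k / 2 * fq b.op θ)
  mid : ∀ i < b.steps.length, ∀ t : ℝ,
    L.E (fun o => exp (t * ⟪(b.steps.getD i default).2,
      pre a o i - (b.steps.getD i default).1 a⟫_ℝ)) ≤
    exp (Cst.mm d k + Cst.sig d k * (1 + Cst.eps d) / 2 * t ^ 2 *
      (‖(b.steps.getD i default).2‖ ^ 2 -
        ‖(b.steps.getD i default).1.adjoint (b.steps.getD i default).2‖ ^ 2))
  sure : Adm k b.steps a → ∀ p ∈ L.supp, Sure b fut a p.2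

/-- The property of a block of level `k`. -/
def Spec (k : ℕ) (b : Blk d) : Prop :=
  ∀ fut, Chain (Cst.eta d) fut → ∀ a u, fn b.op u ≤ Cst.rho d k → ∃ L, Out k b fut a u L

section leaf

/-- The walk operator of one vector. -/
noncomputable def stepOp (η : ℝ) (v : Sp d) : Op d :=
  1 - η • (innerₛₗ ℝ v).smulRight v

lemma stepOp_apply (η : ℝ) (v x : Sp d) : stepOp η v x = x - (η * ⟪v, x⟫_ℝ) • v := by
  simp [stepOp, smul_smul]

lemma stepOp_adjoint (η : ℝ) (v : Sp d) : (stepOp η v).adjoint = stepOp η v := by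
  refine (LinearMap.eq_adjoint_iff _ _).2 (fun x y => ?_) |>.symm
  simp only [stepOp_apply, inner_sub_left, inner_sub_right, inner_smul_left, inner_smul_right,
    real_inner_comm v x, starRingEnd_apply, star_trivial]
  ring

/-- The block of one vector. -/
noncomputable def leafBlk (v : Sp d) : Blk d := ⟨stepOp (Cst.eta d) v, [(1, v)], [v]⟩

lemma norm_stepOp_sq (η : ℝ) (v x : Sp d) :
    ‖x‖ ^ 2 - ‖stepOp η v x‖ ^ 2 = (2 * η - η ^ 2 * ‖v‖ ^ 2) * ⟪v, x⟫_ℝ ^ 2 := by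
  rw [stepOp_apply, norm_sub_sq_real, inner_smul_right, norm_smul, Real.norm_eq_abs, mul_pow,
    sq_abs, real_inner_comm x v]
  ring

lemma fop_stepOp (η : ℝ) (v x : Sp d) :
    fop (stepOp η v) x = ((2 * η - η ^ 2 * ‖v‖ ^ 2) * ⟪v, x⟫_ℝ) • v := by
  rw [fop_apply, stepOp_adjoint, stepOp_apply, stepOp_apply, inner_sub_right, inner_smul_right,
    real_inner_self_eq_norm_sq]
  module

lemma fq_stepOp (η : ℝ) (v x : Sp d) :
    fq (stepOp η v) x = (2 * η - η ^ 2 * ‖v‖ ^ 2) * ⟪v, x⟫_ℝ ^ 2 := by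
  rw [fq, stepOp_adjoint, norm_stepOp_sq]

lemma coef_bounds {v : Sp d} (hv : ‖v‖ ≤ 1) :
    Cst.eta d ≤ 2 * Cst.eta d - Cst.eta d ^ 2 * ‖v‖ ^ 2 ∧
    2 * Cst.eta d - Cst.eta d ^ 2 * ‖v‖ ^ 2 ≤ 2 * Cst.eta d := by
  have h1 := Cst.eta_pos d
  have h2 := Cst.eta_le d
  have h3 : ‖v‖ ^ 2 ≤ 1 := by nlinarith [norm_nonneg v]
  constructor <;> nlinarith [sq_nonneg ‖v‖]

lemma seg_leaf {v : Sp d} (hv : ‖v‖ ≤ 1) :
    Seg (Cst.eta d) (leafBlk v).op (leafBlk v).steps := by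
  have hc : Contr (stepOp (Cst.eta d) v) := fun x => by
    have h := norm_stepOp_sq (Cst.eta d) v x
    have := (coef_bounds hv).1
    have := Cst.eta_pos d
    refine (pow_le_pow_iff_left₀ (norm_nonneg _) (norm_nonneg _) two_ne_zero).1 ?_
    nlinarith [mul_nonneg (le_trans (Cst.eta_pos d).le (coef_bounds hv).1) (sq_nonneg ⟪v, x⟫_ℝ)]
  refine ⟨hc, ?_, ?_, ?_, ?_, ⟨v, [], rfl⟩, ?_⟩
  · simp [leafBlk, contr_one]
  · simpa [leafBlk] using hv
  · simp [leafBlk]
  · intro s hs w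
    simp only [leafBlk, List.mem_singleton] at hs
    subst hs; exact hc w
  · intro x
    simp only [leafBlk, energy, List.map_cons, List.map_nil, List.sum_cons, List.sum_nil,
      add_zero, Module.End.one_apply, norm_stepOp_sq]
    exact mul_le_mul_of_nonneg_right (coef_bounds hv).1 (sq_nonneg _)

lemma leaf_surj {v : Sp d} (hv : ‖v‖ ≤ 1) (y : Sp d) :
    ∃ x, (leafBlk v).op x = y ∧ ‖x‖ ≤ 2 * ‖y‖ := by
  have h1 := Cst.eta_pos d
  have h2 := Cst.eta_le d
  have h3 : ‖v‖ ^ 2 ≤ 1 := by nlinarith [norm_nonneg v]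
  have h4 : 1 / 2 ≤ 1 - Cst.eta d * ‖v‖ ^ 2 := by nlinarith
  refine ⟨y + (Cst.eta d * ⟪v, y⟫_ℝ / (1 - Cst.eta d * ‖v‖ ^ 2)) • v, ?_, ?_⟩
  · simp only [leafBlk, stepOp_apply, inner_add_right, inner_smul_right,
      real_inner_self_eq_norm_sq]
    rw [add_sub_assoc, ← sub_smul, add_eq_left]
    refine smul_eq_zero.2 (Or.inl ?_)
    have hne : 1 - Cst.eta d * ‖v‖ ^ 2 ≠ 0 := by linarith
    have hc := div_mul_cancel₀ (Cst.eta d * ⟪v, y⟫_ℝ) hne
    linear_combination hc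
  · refine (norm_add_le _ _).trans ?_
    rw [norm_smul, Real.norm_eq_abs, abs_div, abs_mul, abs_of_pos h1,
      abs_of_pos (by linarith : 0 < 1 - Cst.eta d * ‖v‖ ^ 2)]
    have h5 : |⟪v, y⟫_ℝ| ≤ ‖y‖ := (abs_real_inner_le_norm v y).trans
      (mul_le_of_le_one_left (norm_nonneg _) hv)
    have : Cst.eta d * |⟪v, y⟫_ℝ| / (1 - Cst.eta d * ‖v‖ ^ 2) * ‖v‖ ≤ ‖y‖ := by
      refine (mul_le_of_le_one_right (by positivity) hv).trans ?_
      rw [div_le_iff₀ (by linarith)]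
      nlinarith [mul_le_mul h2 h5 (abs_nonneg _) (by norm_num : (0:ℝ) ≤ 1 / 10 ^ 6),
        norm_nonneg y]
    linarith

/-- The law of a signed coin with mean `x`. -/
noncomputable def coin (v : Sp d) (x : ℝ) (hx : |x| ≤ 1) : Law (List (Sp d)) where
  supp := [((1 + x) / 2, [v]), ((1 - x) / 2, [-v])]
  nonneg := by
    intro p hp
    simp only [List.mem_cons, List.not_mem_nil, or_false] at hp
    rcases hp with rfl | rfl <;> linarith [abs_le.1 hx]
  total := by simp; ring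

end leaf

/-- Markov's inequality for two sided exponential moments. -/
lemma tail {α : Type*} (L : Law α) (X : α → ℝ) {m s l : ℝ} (hs : 0 < s) (hl : 0 ≤ l)
    (h : ∀ t, L.E (fun o => exp (t * X o)) ≤ exp (m + s / 2 * t ^ 2)) :
    L.P (fun o => l < |X o|) ≤ 2 * exp (m - l ^ 2 / (2 * s)) := by
  have ht : 0 ≤ l / s := by positivity
  calc L.P (fun o => l < |X o|)
      ≤ L.E (fun o => exp (l / s * X o) * exp (-(l / s * l)) +
          exp (-(l / s) * X o) * exp (-(l / s * l))) := by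
        refine L.E_mono' fun o => ?_
        rw [← exp_add, ← exp_add]
        unfold Law.ind
        split_ifs with ho
        · rcases lt_abs.1 ho with h1 | h1
          · have := Real.one_le_exp (show 0 ≤ l / s * X o + -(l / s * l) by nlinarith)
            linarith [exp_pos (-(l / s) * X o + -(l / s * l))]
          · have := Real.one_le_exp (show 0 ≤ -(l / s) * X o + -(l / s * l) by nlinarith)
            linarith [exp_pos (l / s * X o + -(l / s * l))]
        · positivity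
    _ ≤ exp (m + s / 2 * (l / s) ^ 2) * exp (-(l / s * l)) +
          exp (m + s / 2 * (-(l / s)) ^ 2) * exp (-(l / s * l)) := by
        rw [Law.E_add, Law.E_mul_const, Law.E_mul_const]
        gcongr <;> exact h _
    _ = 2 * exp (m - l ^ 2 / (2 * s)) := by
        rw [← exp_add, ← exp_add,
          show m + s / 2 * (l / s) ^ 2 + -(l / s * l) = m - l ^ 2 / (2 * s) by field_simp; ring,
          show m + s / 2 * (-(l / s)) ^ 2 + -(l / s * l) = m - l ^ 2 / (2 * s) by field_simp; ring]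
        ring

end Vale.Agent.P262.Sigma
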