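import Mathlib
import Vale.Agent.P262.Sigma.Defs
import Vale.Agent.P262.Sigma.Const
import Vale.Agent.P262.Sigma.Blocks
import Vale.Agent.P262.Sigma.Spec
import Vale.Agent.P262.Sigma.Quad

/-!
The law obtained by running the laws of consecutive children one after the other.
-/

namespace Vale.Agent.P262.Sigma

open Real
open scoped InnerProductSpace

variable {d : ℕ}

lemma fop_comp (P C : Op d) (u : Sp d) :
    fop (P ∘ₗ C) u = fop P u + P (fop C (P.adjoint u)) := by
  simp only [fop_apply, LinearMap.adjoint_comp, LinearMap.comp_apply, map_sub]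
  abel

lemma fq_comp (P C : Op d) (u : Sp d) : fq (P ∘ₗ C) u = fq P u + fq C (P.adjoint u) := by
  simp only [fq, LinearMap.adjoint_comp, LinearMap.comp_apply]; ring

/-- Replacing the centre `target` by the centre `Φ a` costs little. -/
lemma shift_mgf {α : Type*} {s e : ℝ} (hs : 0 < s) (he : 0 < e) {Φ : Op d} (hΦ : Contr Φ)
    (L : Law α) (X : α → Sp d) (u : Sp d)
    (h : ∀ θ, L.E (fun o => exp ⟪θ, X o - fop Φ u⟫_ℝ) ≤ exp (s / 2 * fq Φ θ)) (θ : Sp d) :
    L.E (fun o => exp ⟪θ, X o⟫_ℝ) ≤ exp (fq Φ u / (2 * s * e) + s * (1 + e) / 2 * fq Φ θ) := by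
  have h1 : ⟪θ, fop Φ u⟫_ℝ ≤ fq Φ u / (2 * s * e) + s * e / 2 * fq Φ θ := by
    have := (le_abs_self _).trans (inner_fop_le hΦ θ u)
    rw [← fn_sq hΦ u, ← fn_sq hΦ θ]
    generalize fn Φ θ = x, fn Φ u = y at this ⊢
    rw [div_add' _ _ _ (by positivity), le_div_iff₀ (by positivity)]
    nlinarith [sq_nonneg (s * e * x - y), mul_pos hs he]
  calc L.E (fun o => exp ⟪θ, X o⟫_ℝ)
      = L.E (fun o => exp ⟪θ, X o - fop Φ u⟫_ℝ) * exp ⟪θ, fop Φ u⟫_ℝ := by
        rw [← L.E_mul_const]; congr 1; funext o
        rw [← exp_add, inner_sub_right, sub_add_cancel]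
    _ ≤ exp (s / 2 * fq Φ θ) * exp (fq Φ u / (2 * s * e) + s * e / 2 * fq Φ θ) := by
        gcongr
        exact h θ
    _ = _ := by rw [← exp_add]; ring_nf

/-- The potential exceeds `thr` at the start of one of the later children. -/
def Exc : List (Blk d) → Sp d → ℝ → ℕ → List (Sp d) → Prop
  | [], _, _, _, _ => False
  | c :: cs, a, thr, j, o => c.steps.length ≤ j ∧
      (thr < G (Cst.cc d) ((ops cs).getD (j - c.steps.length) default).1
          (a + (o.take c.steps.length).sum) ∨
        Exc cs (a + (o.take c.steps.length).sum) thr (j - c.steps.length)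
          (o.drop c.steps.length))

/-- Every child but the last lifts through the product before it. -/
def GoodList : List (Blk d) → Op d → Prop
  | [], _ => True
  | c :: cs, Q => (cs ≠ [] → ∀ y, ∃ w, c.op (Q w) = c.op y ∧ ‖w‖ ≤ ‖y‖ / Cst.theta d) ∧
      GoodList cs (c.op ∘ₗ Q)

/-- What is needed to control the children surely. -/
structure Ctx (k : ℕ) (cs : List (Blk d)) (l : List (Step d)) (n : ℕ) (Q : Op d) (thr : ℕ → ℝ)
    (a : Sp d) (o : List (Sp d)) : Prop where
  good : GoodList cs Q
  dec : l.Pairwise fun s t => ∀ w, ‖t.1 w‖ ≤ ‖s.1 w‖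
  tail : l.drop n = (ops cs).map (shift Q)
  thr_le : ∀ j, j ∈ reps (Cst.eta0 d) l → thr j ≤ Cst.B d (k + 1) + Cst.KK d
  adm : Adm k (ops cs) a
  bucketed : ∀ j < (ops cs).length, n + j ∈ reps (Cst.eta0 d) l →
    G (Cst.cc d) ((ops cs).getD j default).1 a ≤ thr (n + j)
  no_exc : ∀ j < (ops cs).length, n + j ∈ reps (Cst.eta0 d) l → ¬ Exc cs a (thr (n + j)) j o
  near : ∀ s ∈ ops cs, Cst.delta d < ‖s.1.adjoint s.2‖ →
    ‖Q.adjoint (s.1.adjoint s.2)‖ ≤ Cst.delta d → |⟪s.1.adjoint s.2, a⟫_ℝ| ≤ Cst.LL d + 1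

/-- What holds surely along the children. -/
structure SureRaw (cs : List (Blk d)) (Q : Op d) (a : Sp d) (o : List (Sp d)) : Prop where
  valid : ∀ i < (ops cs).length,
    |⟪((ops cs).getD i default).2, pre a o i⟫_ℝ| ≤ 1 / (2 * Cst.eta d) →
    o.getD i 0 = ((ops cs).getD i default).2 ∨ o.getD i 0 = -((ops cs).getD i default).2
  path : ∀ i < (ops cs).length, Cst.cc d * ‖pre a o i‖ ^ 2 ≤ Cst.B d 0
  small : ∀ i < (ops cs).length,
    ‖Q.adjoint (((ops cs).getD i default).1.adjoint ((ops cs).getD i default).2)‖ ≤ Cst.delta d →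
    |⟪((ops cs).getD i default).2, pre a o i⟫_ℝ| ≤ 2 * Cst.LL d + 2

/-- Properties of the composed law. -/
structure RawOut (k : ℕ) (cs : List (Blk d)) (a u : Sp d) (L : Law (List (Sp d))) : Prop where
  len : ∀ p ∈ L.supp, p.2.length = (ops cs).length
  mean : ∀ h, L.E (fun o => ⟪h, a + o.sum - target (prod cs) a u⟫_ℝ) = 0
  mgf : ∀ θ, L.E (fun o => exp ⟪θ, a + o.sum - target (prod cs) a u⟫_ℝ) ≤
    exp (Cst.sig d k / 2 * fq (prod cs) θ)
  mid : ∀ i < (ops cs).length, ∀ t : ℝ,
    L.E (fun o => exp (t * ⟪((ops cs).getD i default).2,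
      pre a o i - ((ops cs).getD i default).1 a⟫_ℝ)) ≤
    exp (Cst.mm d k + fq (prod cs) u / (2 * Cst.sig d k * Cst.eps d) +
      Cst.sig d k * (1 + Cst.eps d) / 2 * t ^ 2 *
      (‖((ops cs).getD i default).2‖ ^ 2 -
        ‖((ops cs).getD i default).1.adjoint ((ops cs).getD i default).2‖ ^ 2))
  exc : ∀ j < (ops cs).length, ∀ thr, L.P (Exc cs a thr j) ≤
    exp (fq (prod cs) u / (2 * Cst.sig d k * Cst.eps d) +
      G (Cst.cc d) ((ops cs).getD j default).1 a - thr)
  sure : ∀ p ∈ L.supp, ∀ l n Q thr, Ctx k cs l n Q thr a p.2 → SureRaw cs Q a p.2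

lemma pre_append_left {a : Sp d} {o₁ o₂ : List (Sp d)} {i : ℕ} (h : i ≤ o₁.length) :
    pre a (o₁ ++ o₂) i = pre a o₁ i := by
  rw [pre, pre, List.take_append_of_le_length h]

lemma pre_append_right {a : Sp d} {o₁ o₂ : List (Sp d)} {i : ℕ} :
    pre a (o₁ ++ o₂) (o₁.length + i) = pre (a + o₁.sum) o₂ i := by
  rw [pre, pre, List.take_length_add_append, List.sum_append, add_assoc]

lemma getD_ops_left {c : Blk d} {cs : List (Blk d)} {i : ℕ} (h : i < c.steps.length) :
    (ops (c :: cs)).getD i default = c.steps.getD i default :=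
  List.getD_append _ _ _ _ h

lemma getD_ops_right {c : Blk d} {cs : List (Blk d)} {i : ℕ} (h : i < (ops cs).length) :
    (ops (c :: cs)).getD (c.steps.length + i) default = shift c.op ((ops cs).getD i default) := by
  rw [ops, List.getD_append_right _ _ _ _ (Nat.le_add_right _ _), Nat.add_sub_cancel_left,
    List.getD_eq_getElem _ _ (by simpa using h), List.getElem_map, List.getD_eq_getElem _ _ h]

lemma length_ops_cons (c : Blk d) (cs : List (Blk d)) :
    (ops (c :: cs)).length = c.steps.length + (ops cs).length := by simp [ops]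

lemma getD_mem {α : Type*} {l : List α} {i : ℕ} (h : i < l.length) (x : α) : l.getD i x ∈ l := by
  rw [List.getD_eq_getElem l x h]; exact List.getElem_mem h

/-- One child followed by the rest, surely. -/
lemma sure_cons {k : ℕ} {c : Blk d} {cs : List (Blk d)}
    (hseg : ∀ b ∈ c :: cs, Seg (Cst.eta d) b.op b.steps)
    {l : List (Step d)} {n : ℕ} {Q : Op d} {thr : ℕ → ℝ} {a : Sp d} {o₁ o₂ : List (Sp d)}
    (hlen : o₁.length = c.steps.length) (hS : Sure c (ops cs) a o₁)
    (C : Ctx k (c :: cs) l n Q thr a (o₁ ++ o₂))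
    (ih : ∀ n' Q', Ctx k cs l n' Q' thr (a + o₁.sum) o₂ → SureRaw cs Q' (a + o₁.sum) o₂) :
    SureRaw (c :: cs) Q a (o₁ ++ o₂) := by
  have hc := Cst.cc_pos d
  have hη := Cst.eta_pos d
  have hθ := Cst.theta_pos d
  set m := c.steps.length with hm
  set a₁ := a + o₁.sum with ha₁
  have hsegc := seg_ops (cs := cs) fun b hb => hseg b (List.mem_cons_of_mem _ hb)
  have htake : (o₁ ++ o₂).take m = o₁ := by
    rw [← hlen]; exact List.take_left
  have hdrop : (o₁ ++ o₂).drop m = o₂ := by
    rw [← hlen]; exact List.drop_left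
  have hlt : ∀ j < (ops cs).length, n + m + j < l.length := by
    intro j hj
    have h1 := congrArg List.length C.tail
    simp only [List.length_drop, List.length_map, length_ops_cons] at h1
    omega
  have hl : ∀ j (hj : j < (ops cs).length), l[n + m + j]'(hlt j hj) =
      shift (c.op ∘ₗ Q) ((ops cs).getD j default) := by
    intro j hj
    have h1 : (l.drop n).getD (m + j) default
        = ((ops (c :: cs)).map (shift Q)).getD (m + j) default := by rw [C.tail]
    rw [List.getD_eq_getElem _ _ (by rw [List.length_drop]; have := hlt j hj; omega),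
      List.getD_eq_getElem _ _ (by rw [List.length_map, length_ops_cons]; omega),
      List.getElem_drop, List.getElem_map] at h1
    have h2 := getD_ops_right (c := c) (cs := cs) hj
    rw [List.getD_eq_getElem _ _ (by rw [length_ops_cons]; omega)] at h2
    simp only [← Nat.add_assoc] at h1
    rw [h1, h2]; rfl
  -- representatives after this child
  have hrep : ∀ j (_ : j < (ops cs).length), ∃ j', ∃ _ : j' < (ops cs).length,
      rep (Cst.eta0 d) l (n + m + j) = n + m + j' ∧ n + m + j' ∈ reps (Cst.eta0 d) l := by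
    intro j hj
    have h1 := le_rep (e := Cst.eta0 d) (hlt j hj)
    have h2 := rep_lt (e := Cst.eta0 d) (hlt j hj)
    have h3 := congrArg List.length C.tail
    simp only [List.length_drop, List.length_map, length_ops_cons] at h3
    refine ⟨rep (Cst.eta0 d) l (n + m + j) - (n + m), by omega, by omega, ?_⟩
    rw [show n + m + (rep (Cst.eta0 d) l (n + m + j) - (n + m))
      = rep (Cst.eta0 d) l (n + m + j) by omega]
    exact rep_mem (hlt j hj)
  have hbound : ∀ j < (ops cs).length, n + m + j ∈ reps (Cst.eta0 d) l →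
      G (Cst.cc d) ((ops cs).getD j default).1 a₁ ≤ thr (n + m + j) ∧
      ¬ Exc cs a₁ (thr (n + m + j)) j o₂ := by
    intro j hj hr
    have h := C.no_exc (m + j) (by rw [length_ops_cons]; omega) (by rwa [← Nat.add_assoc])
    rw [Exc, ← hm, htake, hdrop, ← Nat.add_assoc, Nat.add_sub_cancel_left] at h
    simpa [Nat.le_add_right, not_or] using h
  have hnorm : ‖a‖ ≤ Cst.T d ^ 3 := by
    refine Cst.norm_le d (norm_nonneg _) ?_
    obtain ⟨v, rest, e⟩ := (seg_ops hseg).first
    have h := C.adm (1, v) (by rw [e]; exact List.mem_cons_self)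
    rw [G_one] at h
    linarith [Cst.two_B0_le d, Cst.B_le_zero d k, Cst.B_nonneg d 0 (by omega)]
  have hlift : cs ≠ [] → ∀ y, ∃ w, (c.op ∘ₗ Q) w = c.op y ∧ ‖w‖ ≤ 1 / Cst.theta d * ‖y‖ := by
    intro hne y
    obtain ⟨w, h1, h2⟩ := C.good.1 hne y
    exact ⟨w, h1, by rwa [one_div_mul_eq_div]⟩
  have hchildAdm : Adm k c.steps a := fun s hs =>
    C.adm s (by rw [ops]; exact List.mem_append_left _ hs)
  have hadm₁ : Adm k (ops cs) a₁ := by
    have hB := Cst.B_succ d k
    have hK := Cst.KK_nonneg d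
    rcases hS.futg with hg | hs
    · have h1 : ∀ s ∈ ops cs,
          G (Cst.cc d) (s.1 ∘ₗ c.op) a ≤ Cst.B d (k + 1) + Cst.KK d + 1 / 4 := by
        intro s hs
        obtain ⟨j, hj, rfl⟩ := List.getElem_of_mem hs
        obtain ⟨j', hj', he, hr⟩ := hrep j hj
        have hb := C.bucketed (m + j') (by rw [length_ops_cons]; omega) (by rwa [← Nat.add_assoc])
        rw [getD_ops_right hj', ← Nat.add_assoc, shift] at hb
        have ht := C.thr_le _ hr
        rcases eq_or_ne cs [] with hnil | hne
        · subst hnil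
          simp only [ops, List.length_singleton, Nat.lt_one_iff] at hj hj'
          subst hj hj'
          simp only [ops, List.getD_cons_zero, List.getElem_cons_zero] at hb ⊢
          linarith
        have hcmp := G_rep hc.le (Cst.eta0_pos d) C.dec (hlt j hj) (Mt := (ops cs)[j].1)
          (Ml := ((ops cs).getD j' default).1) (Q := c.op ∘ₗ Q)
          (by rw [hl j hj, List.getD_eq_getElem _ _ hj]; rfl)
          (by simp only [he]; rw [hl j' hj']; rfl) (P := c.op) (hlift hne) a
        have htiny := Cst.tiny d (x := ‖a‖) (by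
          obtain ⟨v, rest, e⟩ := (seg_ops hseg).first
          have h := C.adm (1, v) (by rw [e]; exact List.mem_cons_self)
          rw [G_one] at h
          linarith [Cst.two_B0_le d, Cst.B_le_zero d k, Cst.B_nonneg d 0 (by omega)])
        have h4 : Cst.cc d * (3 / 2 * (Cst.eta0 d * (1 / Cst.theta d) ^ 2)) * ‖a‖ ^ 2 ≤ 1 / 4 := by
          refine le_trans ?_ htiny
          have := Cst.eta0_pos d
          gcongr
          rw [one_div_pow, mul_one_div]
          gcongr
          linarith
        linarith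
      intro s hs'
      have := hg _ h1 s hs'
      linarith
    · rcases eq_or_ne cs [] with hnil | hne
      · subst hnil
        intro s hs'
        simp only [ops, List.mem_singleton] at hs'
        subst hs'
        obtain ⟨j', hj', he, hr⟩ := hrep 0 (by simp [ops])
        simp only [ops, List.length_singleton, Nat.lt_one_iff] at hj'
        subst hj'
        have hb := (hbound 0 (by simp [ops]) hr).1
        simp only [ops, List.getD_cons_zero] at hb
        have := C.thr_le _ hr
        linarith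
      have hl2 : ∀ y, ∃ w, (c.op ∘ₗ Q) w = (1 : Op d) y ∧ ‖w‖ ≤ 2 / Cst.theta d * ‖y‖ := by
        intro y
        obtain ⟨x, hx, hxn⟩ := hs y
        obtain ⟨w, hw, hwn⟩ := hlift hne x
        refine ⟨w, by rw [hw, hx]; rfl, hwn.trans ?_⟩
        rw [div_mul_eq_mul_div, div_mul_eq_mul_div, one_mul]
        gcongr
      have hcmp : ∀ j < (ops cs).length, G (Cst.cc d) ((ops cs).getD j default).1 a₁ ≤
          Cst.B d (k + 1) + Cst.KK d +
            Cst.cc d * (3 / 2 * (4 * Cst.eta0 d / Cst.theta d ^ 2)) * ‖a₁‖ ^ 2 := by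
        intro j hj
        obtain ⟨j', hj', he, hr⟩ := hrep j hj
        have h := G_rep hc.le (Cst.eta0_pos d) C.dec (hlt j hj)
          (Mt := ((ops cs).getD j default).1) (Ml := ((ops cs).getD j' default).1)
          (Q := c.op ∘ₗ Q) (by rw [hl j hj]; rfl) (by simp only [he]; rw [hl j' hj']; rfl)
          (P := 1) hl2 a₁
        rw [← Module.End.mul_eq_comp, ← Module.End.mul_eq_comp, mul_one, mul_one,
          div_pow] at h
        rw [show 4 * Cst.eta0 d / Cst.theta d ^ 2
          = Cst.eta0 d * (2 ^ 2 / Cst.theta d ^ 2) by ring]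
        linarith [(hbound j' hj' hr).1, C.thr_le _ hr]
      have hκ : 3 / 2 * (4 * Cst.eta0 d / Cst.theta d ^ 2) ≤ 1 / 2 := by
        have hT := Cst.T_pos d
        rw [show 3 / 2 * (4 * Cst.eta0 d / Cst.theta d ^ 2) = 6 / Cst.T d ^ 5 by
          unfold Cst.eta0 Cst.theta; field_simp; ring, div_le_iff₀ (by positivity)]
        nlinarith [le_self_pow₀ (Cst.one_le_T d) (show 5 ≠ 0 by norm_num), Cst.T_ge d]
      obtain ⟨v, rest, e⟩ := hsegc.first
      have h0 := hcmp 0 (by rw [e]; simp)
      rw [e, List.getD_cons_zero, G_one] at h0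
      have hn : Cst.cc d * ‖a₁‖ ^ 2 ≤ Cst.T d ^ 2 := by
        have : Cst.cc d * (3 / 2 * (4 * Cst.eta0 d / Cst.theta d ^ 2)) * ‖a₁‖ ^ 2
            ≤ 1 / 2 * (Cst.cc d * ‖a₁‖ ^ 2) := by
          nlinarith [mul_le_mul_of_nonneg_right hκ (mul_nonneg hc.le (sq_nonneg ‖a₁‖))]
        linarith [Cst.two_B0_le d, Cst.B_le_zero d k]
      intro s hs'
      obtain ⟨j, hj, rfl⟩ := List.getElem_of_mem hs'
      have := hcmp j hj
      rw [List.getD_eq_getElem _ _ hj] at this
      linarith [Cst.tiny d hn]
  have hctx : Ctx k cs l (n + m) (c.op ∘ₗ Q) thr a₁ o₂ := by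
    refine ⟨C.good.2, C.dec, ?_, C.thr_le, hadm₁, fun j hj hr => (hbound j hj hr).1,
      fun j hj hr => (hbound j hj hr).2, ?_⟩
    · rw [← List.drop_drop, C.tail, ops, List.map_append, List.drop_left' (by simp [hm]),
        List.map_map]
      rfl
    · intro s hs hbig hsm
      have hne : cs ≠ [] := by
        rintro rfl
        simp only [ops, List.mem_singleton] at hs
        subst hs
        simp at hbig
        linarith [Cst.delta_pos d]
      have h1 := hS.futv s hs hbig
      have h2 : ‖c.op.adjoint (s.1.adjoint s.2)‖ ≤ Cst.delta d / Cst.theta d := by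
        generalize s.1.adjoint s.2 = y at hsm ⊢
        obtain ⟨w, hw, hwn⟩ := hlift hne (c.op.adjoint y)
        rcases eq_or_lt_of_le (norm_nonneg (c.op.adjoint y)) with h0 | h0
        · rw [← h0]; exact div_nonneg (Cst.delta_pos d).le hθ.le
        refine le_of_mul_le_mul_left ?_ h0
        calc ‖c.op.adjoint y‖ * ‖c.op.adjoint y‖
            = ⟪c.op.adjoint y, c.op.adjoint y⟫_ℝ := (real_inner_self_eq_norm_mul_norm _).symm
          _ = ⟪(c.op ∘ₗ Q).adjoint y, w⟫_ℝ := by
              rw [LinearMap.adjoint_inner_left, LinearMap.adjoint_inner_left, hw]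
          _ ≤ ‖(c.op ∘ₗ Q).adjoint y‖ * ‖w‖ := real_inner_le_norm _ _
          _ ≤ Cst.delta d * (1 / Cst.theta d * ‖c.op.adjoint y‖) :=
              mul_le_mul hsm hwn (norm_nonneg _) (Cst.delta_pos d).le
          _ = _ := by ring
      have h3 : |⟪s.1.adjoint s.2, c.op a⟫_ℝ| ≤ 1 := by
        rw [← LinearMap.adjoint_inner_left]
        refine (abs_real_inner_le_norm _ _).trans ?_
        refine le_trans (mul_le_mul_of_nonneg_right h2 (norm_nonneg _)) ?_
        exact Cst.negligible d hnorm
      rw [inner_sub_right] at h1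
      have h4 := abs_sub_abs_le_abs_sub ⟪s.1.adjoint s.2, a₁⟫_ℝ ⟪s.1.adjoint s.2, c.op a⟫_ℝ
      linarith
  have R := ih _ _ hctx
  have hidx : ∀ i < (ops (c :: cs)).length,
      i < m ∨ ∃ j < (ops cs).length, i = m + j := by
    intro i hi
    rw [length_ops_cons, ← hm] at hi
    by_cases h : i < m
    · exact Or.inl h
    · exact Or.inr ⟨i - m, by omega, by omega⟩
  refine ⟨?_, ?_, ?_⟩
  · intro i hi
    rcases hidx i hi with h | ⟨j, hj, rfl⟩
    · rw [getD_ops_left h, pre_append_left (by omega), List.getD_append _ _ _ _ (by omega)]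
      exact hS.valid i h
    · rw [getD_ops_right hj, ← hlen, pre_append_right,
        List.getD_append_right _ _ _ _ (Nat.le_add_right _ _), Nat.add_sub_cancel_left]
      exact R.valid j hj
  · intro i hi
    rcases hidx i hi with h | ⟨j, hj, rfl⟩
    · rw [pre_append_left (by omega)]; exact hS.path i h
    · rw [← hlen, pre_append_right]; exact R.path j hj
  · intro i hi
    rcases hidx i hi with h | ⟨j, hj, rfl⟩
    · rw [getD_ops_left h, pre_append_left (by omega)]
      intro hsm
      by_cases hw : Cst.delta d < ‖(c.steps.getD i default).1.adjoint (c.steps.getD i default).2‖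
      · have h1 := hS.dev i h hw
        have h2 := C.near _ (by rw [ops]; exact List.mem_append_left _ (getD_mem h _)) hw hsm
        rw [inner_sub_right, ← LinearMap.adjoint_inner_left (c.steps.getD i default).1] at h1
        have h3 := abs_sub_abs_le_abs_sub ⟪(c.steps.getD i default).2, pre a o₁ i⟫_ℝ
          ⟪(c.steps.getD i default).1.adjoint (c.steps.getD i default).2, a⟫_ℝ
        linarith
      · exact hS.small i h (not_lt.1 hw)
    · rw [getD_ops_right hj, ← hlen, pre_append_right]
      intro hsm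
      refine R.small j hj ?_
      simpa [shift, LinearMap.adjoint_comp] using hsm

end Vale.Agent.P262.Sigma
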