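import Mathlib
import Vale.Agent.P262.Sigma.Defs
import Vale.Agent.P262.Sigma.Const
import Vale.Agent.P262.Sigma.Blocks
import Vale.Agent.P262.Sigma.Spec
import Vale.Agent.P262.Sigma.Quad
import Vale.Agent.P262.Sigma.Raw

/-!
Existence of the composed law of consecutive children.
-/

namespace Vale.Agent.P262.Sigma

open Real
open scoped InnerProductSpace

variable {d : ℕ}

lemma raw_nil {k : ℕ} (a u : Sp d) :
    RawOut k [] a u (Law.pure [(0 : Sp d)]) := by
  have hsum : ([(0 : Sp d)]).sum = 0 := by simp
  have htar : target (prod ([] : List (Blk d))) a u = a := by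
    simp [target, prod, fop_apply]
  refine ⟨?_, ?_, ?_, ?_, ?_, ?_⟩
  · simp [Law.pure, ops]
  · intro h; simp [Law.E_pure, htar]
  · intro θ
    rw [Law.E_pure, htar, hsum, add_zero, sub_self, inner_zero_right]
    refine exp_le_exp.2 ?_
    simp [prod, fq]
  · intro i hi t
    simp only [ops, List.length_singleton, Nat.lt_one_iff] at hi
    subst hi
    rw [Law.E_pure]
    refine exp_le_exp.2 ?_
    simp [ops, pre, prod, fq, Cst.mm_nonneg]
  · intro j _ thr
    rw [Law.P]
    refine le_trans (le_of_eq ?_) (exp_pos _).le
    simp [Law.E_pure, Law.ind, Exc]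
  · intro p hp l n Q thr C
    simp only [Law.pure, List.mem_singleton] at hp
    subst hp
    have h0 := C.adm (1, 0) (by simp [ops])
    rw [G_one] at h0
    refine ⟨?_, ?_, ?_⟩ <;> intro i hi <;>
      simp only [ops, List.length_singleton, Nat.lt_one_iff] at hi <;> subst hi
    · simp [ops]
    · simp only [pre, List.take_zero, List.sum_nil, add_zero]
      linarith [Cst.B_le_zero d k, Cst.LL_nonneg d]
    · intro _
      simp only [ops, List.getD_cons_zero, inner_zero_left, abs_zero]
      linarith [Cst.LL_nonneg d]

/-- Existence of the composed law. -/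
lemma raw_exists {k : ℕ} (hk : k + 1 ≤ d + 1) : ∀ {cs : List (Blk d)},
    (∀ c ∈ cs, Seg (Cst.eta d) c.op c.steps) → (∀ c ∈ cs, Spec k c) →
    ∀ a u, fn (prod cs) u ≤ Cst.rho d k → ∃ L, RawOut k cs a u L
  | [], _, _, a, u, _ => ⟨_, raw_nil a u⟩
  | c :: cs, hseg, hspec, a, u, hu => by
    have hη := Cst.eta_pos d
    have hs := Cst.sig_pos d k
    have he := Cst.eps_pos d
    have hsegc := hseg c List.mem_cons_self
    have hsegr := seg_ops (cs := cs) fun b hb => hseg b (List.mem_cons_of_mem _ hb)
    set u₁ := (prod cs).adjoint u with hu₁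
    have hfq : fq (prod (c :: cs)) u = fq (prod cs) u + fq c.op u₁ := by
      rw [prod, fq_comp]
    have hn1 := fq_nonneg hsegc.contr_op u₁
    have hn2 := fq_nonneg hsegr.contr_op u
    have hle1 : fn c.op u₁ ≤ Cst.rho d k :=
      le_trans (Real.sqrt_le_sqrt (by linarith)) hu
    have hle2 : fn (prod cs) u ≤ Cst.rho d k :=
      le_trans (Real.sqrt_le_sqrt (by linarith)) hu
    obtain ⟨L₁, h₁⟩ := hspec c List.mem_cons_self (ops cs) hsegr.chain a u₁ hle1
    choose K hK using fun a' => raw_exists hk (cs := cs)
      (fun b hb => hseg b (List.mem_cons_of_mem _ hb))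
      (fun b hb => hspec b (List.mem_cons_of_mem _ hb)) a' u hle2
    refine ⟨L₁.bind fun o₁ => (K (a + o₁.sum)).map fun o₂ => o₁ ++ o₂, ?_⟩
    have hEq : ∀ f : List (Sp d) → ℝ,
        (L₁.bind fun o₁ => (K (a + o₁.sum)).map fun o₂ => o₁ ++ o₂).E f =
          L₁.E fun o₁ => (K (a + o₁.sum)).E fun o₂ => f (o₁ ++ o₂) := by
      intro f; simp only [Law.E_bind, Law.E_map]
    have hsplit : ∀ o₁ o₂ : List (Sp d), a + (o₁ ++ o₂).sum - target (prod (c :: cs)) a u =
        (a + o₁.sum + o₂.sum - target (prod cs) (a + o₁.sum) u) +
          prod cs (a + o₁.sum - target c.op a u₁) := by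
      intro o₁ o₂
      simp only [target, prod, fop_comp, LinearMap.comp_apply, List.sum_append, map_sub, map_add,
        ← hu₁]
      abel
    have hshift : ∀ θ, L₁.E (fun o => exp ⟪θ, a + o.sum - c.op a⟫_ℝ) ≤
        exp (fq c.op u₁ / (2 * Cst.sig d k * Cst.eps d) +
          Cst.sig d k * (1 + Cst.eps d) / 2 * fq c.op θ) := by
      refine shift_mgf hs he hsegc.contr_op L₁ (fun o => a + o.sum - c.op a) u₁ fun θ => ?_
      refine le_trans (le_of_eq ?_) (h₁.mgf θ)
      refine L₁.E_congr fun p _ => ?_
      rw [target, sub_sub]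
    refine ⟨?_, ?_, ?_, ?_, ?_, ?_⟩
    · intro p hp
      obtain ⟨p₁, hp₁, q, hq, e⟩ := Law.mem_bind hp
      obtain ⟨p₂, hp₂, e₂⟩ := Law.mem_map hq
      rw [← e, ← e₂, List.length_append, h₁.len p₁ hp₁, (hK _).len p₂ hp₂, length_ops_cons]
    · intro h
      rw [hEq]
      simp only [hsplit, inner_add_right, ← LinearMap.adjoint_inner_left (prod cs), Law.E_add,
        (hK _).mean, Law.E_const, zero_add]
      exact h₁.mean _
    · intro θ
      rw [hEq]
      simp only [hsplit, inner_add_right, exp_add, ← LinearMap.adjoint_inner_left (prod cs),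
        Law.E_mul_const]
      rw [prod, fq_comp, mul_add, exp_add]
      calc L₁.E _ ≤ L₁.E fun o₁ => exp (Cst.sig d k / 2 * fq (prod cs) θ) *
            exp ⟪(prod cs).adjoint θ, a + o₁.sum - target c.op a u₁⟫_ℝ :=
            L₁.E_mono' fun o₁ => mul_le_mul_of_nonneg_right ((hK _).mgf θ) (exp_pos _).le
        _ ≤ _ := by
            rw [Law.E_const_mul]
            exact mul_le_mul_of_nonneg_left (h₁.mgf _) (exp_pos _).le
    · intro i hi t
      rw [hEq, hfq]
      by_cases him : i < c.steps.length
      · rw [getD_ops_left him]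
        calc L₁.E _ = L₁.E fun o₁ => exp (t * ⟪(c.steps.getD i default).2,
              pre a o₁ i - (c.steps.getD i default).1 a⟫_ℝ) := by
              refine L₁.E_congr fun p hp => ?_
              rw [show (fun o₂ : List (Sp d) => exp (t * ⟪(c.steps.getD i default).2,
                pre a (p.2 ++ o₂) i - (c.steps.getD i default).1 a⟫_ℝ)) = fun _ =>
                  exp (t * ⟪(c.steps.getD i default).2,
                    pre a p.2 i - (c.steps.getD i default).1 a⟫_ℝ) from
                funext fun o₂ => by rw [pre_append_left (by rw [h₁.len p hp]; omega)],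
                Law.E_const]
          _ ≤ _ := h₁.mid i him t
          _ ≤ _ := by
              refine exp_le_exp.2 (add_le_add (le_add_of_nonneg_right ?_) le_rfl)
              positivity
      · obtain ⟨j, hj, rfl⟩ : ∃ j < (ops cs).length, i = c.steps.length + j :=
          ⟨i - c.steps.length, by rw [length_ops_cons] at hi; omega, by omega⟩
        rw [getD_ops_right hj]
        set v := ((ops cs).getD j default).2 with hv
        set M := ((ops cs).getD j default).1 with hM
        set A := Cst.sig d k * (1 + Cst.eps d) / 2 * t ^ 2 with hA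
        calc L₁.E _ = L₁.E fun o₁ => (K (a + o₁.sum)).E (fun o₂ =>
              exp (t * ⟪v, pre (a + o₁.sum) o₂ j - M (a + o₁.sum)⟫_ℝ)) *
              exp ⟪t • M.adjoint v, a + o₁.sum - c.op a⟫_ℝ := by
              refine L₁.E_congr fun p hp => ?_
              rw [← Law.E_mul_const]
              refine (K _).E_congr fun q _ => ?_
              rw [← exp_add, ← h₁.len p hp, pre_append_right]
              congr 1
              simp only [shift, LinearMap.comp_apply, inner_smul_left, LinearMap.adjoint_inner_left,
                inner_sub_right, starRingEnd_apply, star_trivial, ← hv, ← hM]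
              ring
          _ ≤ L₁.E fun o₁ => exp (Cst.mm d k + fq (prod cs) u / (2 * Cst.sig d k * Cst.eps d) +
                A * (‖v‖ ^ 2 - ‖M.adjoint v‖ ^ 2)) *
                exp ⟪t • M.adjoint v, a + o₁.sum - c.op a⟫_ℝ :=
              L₁.E_mono' fun o₁ => mul_le_mul_of_nonneg_right ((hK _).mid j hj t) (exp_pos _).le
          _ ≤ exp (Cst.mm d k + fq (prod cs) u / (2 * Cst.sig d k * Cst.eps d) +
                A * (‖v‖ ^ 2 - ‖M.adjoint v‖ ^ 2)) *
                exp (fq c.op u₁ / (2 * Cst.sig d k * Cst.eps d) +
                  Cst.sig d k * (1 + Cst.eps d) / 2 * fq c.op (t • M.adjoint v)) := by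
              rw [Law.E_const_mul]
              exact mul_le_mul_of_nonneg_left (hshift _) (exp_pos _).le
          _ = _ := by
              rw [← exp_add]
              congr 1
              simp only [shift, fq, map_smul, norm_smul, mul_pow, Real.norm_eq_abs, sq_abs,
                LinearMap.adjoint_comp, LinearMap.comp_apply, ← hv, ← hM, hA]
              ring
    · intro j hj thr
      rw [Law.P, hEq, hfq]
      by_cases hjm : j < c.steps.length
      · refine le_trans (le_of_eq ?_) (exp_pos _).le
        simp [Law.ind, Exc, not_le.2 hjm, Law.E_const]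
      · obtain ⟨i, hi, rfl⟩ : ∃ i < (ops cs).length, j = c.steps.length + i :=
          ⟨j - c.steps.length, by rw [length_ops_cons] at hj; omega, by omega⟩
        rw [getD_ops_right hi]
        set N := ((ops cs).getD i default).1 with hN
        have hNc : Contr N := hsegr.contr _ (getD_mem hi _)
        set w := fq (prod cs) u / (2 * Cst.sig d k * Cst.eps d) with hw
        have hw0 : 0 ≤ w := by positivity
        calc L₁.E _ ≤ L₁.E fun o₁ => exp (w - thr) *
              exp (G (Cst.cc d) N (c.op a + (a + o₁.sum - c.op a))) := by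
              refine L₁.E_mono fun p hp => ?_
              rw [← exp_add, add_sub_cancel]
              set a₁ := a + p.2.sum with ha₁
              have hiff : ∀ o₂, Exc (c :: cs) a thr (c.steps.length + i) (p.2 ++ o₂) ↔
                  (thr < G (Cst.cc d) N a₁ ∨ Exc cs a₁ thr i o₂) := by
                intro o₂
                rw [Exc, ← h₁.len p hp, List.take_left, List.drop_left, Nat.add_sub_cancel_left]
                simp [ha₁, hN]
              by_cases hb : thr < G (Cst.cc d) N a₁
              · refine le_trans ?_ (Real.one_le_exp (by linarith))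
                refine le_trans ((K a₁).E_mono' fun o₂ => ?_) ((K a₁).E_const 1).le
                unfold Law.ind; split_ifs <;> norm_num
              · calc (K a₁).E (fun o₂ => Law.ind (Exc (c :: cs) a thr (c.steps.length + i))
                      (p.2 ++ o₂)) ≤ (K a₁).P (Exc cs a₁ thr i) :=
                      (K a₁).E_mono' fun o₂ => by
                        simp only [Law.ind]
                        by_cases hx : Exc cs a₁ thr i o₂
                        · rw [if_pos hx]; split_ifs <;> norm_num
                        · rw [if_neg hx, if_neg (by rw [hiff]; tauto)]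
                  _ ≤ _ := ((hK a₁).exc i hi thr).trans (exp_le_exp.2 (by linarith))
          _ ≤ exp (w - thr) * exp (fq c.op u₁ / (2 * Cst.sig d k * Cst.eps d) +
                G (Cst.cc d) (N ∘ₗ c.op) a) := by
              rw [Law.E_const_mul]
              exact mul_le_mul_of_nonneg_left (quad_bound (Cst.cc_pos d).le
                (by positivity) (Cst.cc_sig d k (by omega)) hNc hsegc.contr_op L₁ _ a hshift)
                (exp_pos _).le
          _ = _ := by
              rw [← exp_add, hw]
              simp only [shift, ← hN]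
              ring_nf
    · intro p hp l n Q thr C
      obtain ⟨p₁, hp₁, q, hq, e⟩ := Law.mem_bind hp
      obtain ⟨p₂, hp₂, e₂⟩ := Law.mem_map hq
      rw [← e, ← e₂] at C ⊢
      refine sure_cons hseg (h₁.len p₁ hp₁) (h₁.sure (fun s hs => C.adm s ?_) p₁ hp₁) C
        fun n' Q' C' => (hK _).sure p₂ hp₂ l n' Q' thr C'
      rw [ops]; exact List.mem_append_left _ hs

end Vale.Agent.P262.Sigma
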