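import Vale.Agent.P262.Sigma.Defs

/-!
Scalar sub-gaussian lemmas: recentring, the two-point bound, second moments.
-/

namespace Vale.Agent.P262.Sigma

open Real

lemma cosh_mul_sub_one_le {u : ℝ} (z : ℝ) (hu : |u| ≤ 1) :
    cosh (u * z) - 1 ≤ u ^ 2 * (cosh z - 1) := by
  have h1 := (Real.hasSum_cosh (u * z)).sub (hasSum_ite_eq (0 : ℕ) (1 : ℝ))
  have h2 := ((Real.hasSum_cosh z).sub (hasSum_ite_eq (0 : ℕ) (1 : ℝ))).mul_left (u ^ 2)
  refine hasSum_le (fun n => ?_) h1 h2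
  rcases n with _ | n
  · simp
  · simp only [Nat.succ_ne_zero, if_false, sub_zero]
    have hu2 : u ^ 2 ≤ 1 := by nlinarith [sq_abs u, abs_nonneg u]
    have hp : (u ^ 2) ^ n ≤ 1 := pow_le_one₀ (sq_nonneg u) hu2
    rw [mul_pow, ← mul_div_assoc]
    refine div_le_div_of_nonneg_right (mul_le_mul_of_nonneg_right ?_
      ((even_two_mul (n + 1)).pow_nonneg z)) (Nat.cast_nonneg _)
    rw [Nat.mul_add, mul_one, pow_add, pow_mul]
    exact mul_le_of_le_one_left (sq_nonneg u) hp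

lemma abs_sinh_mul_sub_le {u : ℝ} (z : ℝ) (hu : |u| ≤ 1) :
    |sinh (u * z) - u * z| ≤ |u| ^ 3 * (sinh |z| - |z|) := by
  have h1 := (Real.hasSum_sinh (u * z)).sub (hasSum_ite_eq (0 : ℕ) (u * z))
  have h2 := ((Real.hasSum_sinh |z|).sub (hasSum_ite_eq (0 : ℕ) |z|)).mul_left (|u| ^ 3)
  have h3 : ∀ n : ℕ, |((u * z) ^ (2 * n + 1) / ((2 * n + 1).factorial : ℝ)
      - if n = 0 then u * z else 0)| ≤ |u| ^ 3 *
      (|z| ^ (2 * n + 1) / ((2 * n + 1).factorial : ℝ) - if n = 0 then |z| else 0) := by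
    intro n
    rcases n with _ | n
    · simp
    · simp only [Nat.succ_ne_zero, if_false, sub_zero]
      rw [abs_div, abs_pow, abs_mul, Nat.abs_cast, mul_pow, ← mul_div_assoc]
      exact div_le_div_of_nonneg_right (mul_le_mul_of_nonneg_right
        (pow_le_pow_of_le_one (abs_nonneg u) hu (by omega)) (by positivity)) (Nat.cast_nonneg _)
  rw [abs_le]
  constructor
  · have := hasSum_le (fun n => (abs_le.1 (h3 n)).1) h2.neg h1
    linarith
  · exact hasSum_le (fun n => (abs_le.1 (h3 n)).2) h1 h2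

lemma exp_mul_sub_le {u : ℝ} (z : ℝ) (hu : |u| ≤ 1) :
    exp (u * z) - 1 - u * z ≤ u ^ 2 * (1 + 2 * |u|) * (cosh z - 1) := by
  have h1 := cosh_mul_sub_one_le z hu
  have h2 := le_of_abs_le (abs_sinh_mul_sub_le z hu)
  have h3 : sinh |z| - |z| ≤ 2 * (cosh z - 1) := by
    rw [← Real.cosh_abs z, Real.sinh_eq, Real.cosh_eq]
    have := Real.add_one_le_exp (-|z|)
    have := Real.add_one_le_exp |z|
    linarith [exp_pos (-|z|)]
  have h4 := mul_le_mul_of_nonneg_left h3 (by positivity : (0 : ℝ) ≤ |u| ^ 3)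
  have h5 := Real.cosh_add_sinh (u * z)
  have h6 : |u| ^ 3 = u ^ 2 * |u| := by rw [pow_succ, sq_abs]
  rw [h6] at h2 h4
  linarith

/-- The case of unit variance. -/
lemma recenter_one {α : Type*} (L : Law α) (Z : α → ℝ) {ε a b : ℝ} (hε : 0 < ε) (hε1 : ε ≤ 1/4)
    (ha : 0 ≤ a) (ha1 : a ≤ ε^5/64) (hb : 0 ≤ b) (hb1 : b ≤ ε^3/64) (hZ : L.E Z = 0)
    (h : ∀ s, L.E (fun o => exp (s * Z o)) ≤ exp (a + b * |s| + s^2/2)) (s : ℝ) :
    L.E (fun o => exp (s * Z o)) ≤ exp ((1+ε) * s^2/2) := by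
  rcases le_or_gt (ε ^ 2 / 4) |s| with hs | hs
  · refine (h s).trans (exp_le_exp.2 ?_)
    have h1 : b * |s| ≤ ε ^ 3 / 64 * |s| := mul_le_mul_of_nonneg_right hb1 (abs_nonneg s)
    have h2 : ε * (ε ^ 2 / 4) * |s| ≤ ε * |s| * |s| := by
      gcongr
    have h3 : ε * (ε ^ 2 / 4) * (ε ^ 2 / 4) ≤ ε * |s| * |s| := by
      gcongr
    have h4 : s ^ 2 = |s| * |s| := by rw [← sq_abs]; ring
    have h5 : 0 ≤ ε ^ 3 * |s| := by positivity
    nlinarith
  · set u := s / ε with hu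
    have hu1 : |u| ≤ ε / 4 := by
      rw [hu, abs_div, abs_of_pos hε, div_le_iff₀ hε]; nlinarith
    have key : ∀ o, exp (s * Z o)
        ≤ 1 + s * Z o + u ^ 2 * (1 + 2 * |u|) * (cosh (ε * Z o) - 1) := by
      intro o
      have h0 := exp_mul_sub_le (ε * Z o) (hu1.trans (by linarith : ε / 4 ≤ 1))
      have h1 : u * (ε * Z o) = s * Z o := by rw [hu]; field_simp
      rw [h1] at h0
      linarith
    set A := a + b * ε + ε ^ 2 / 2 with hA
    have hC : L.E (fun o => cosh (ε * Z o)) ≤ exp A := by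
      have e1 := h ε
      have e2 := h (-ε)
      rw [abs_of_pos hε] at e1
      rw [abs_neg, abs_of_pos hε, neg_sq] at e2
      have e3 : (fun o => cosh (ε * Z o))
          = fun o => 2⁻¹ * (exp (ε * Z o) + exp (-ε * Z o)) := by
        funext o; rw [Real.cosh_eq]; ring_nf
      rw [e3, Law.E_const_mul, Law.E_add]
      linarith
    have hA0 : 0 ≤ A := by positivity
    have hA1 : A ≤ ε ^ 2 / 2 * (1 + ε / 16) := by
      have h1 : b * ε ≤ ε ^ 3 / 64 * ε := mul_le_mul_of_nonneg_right hb1 hε.le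
      have h2 : ε ^ 5 ≤ ε ^ 3 := pow_le_pow_of_le_one hε.le (by linarith) (by norm_num)
      have h3 : ε ^ 3 * ε ≤ ε ^ 3 * 1 := mul_le_mul_of_nonneg_left (by linarith) (by positivity)
      linarith
    have hA2 : A ≤ ε / 4 := by
      have : ε ^ 2 / 2 * (1 + ε / 16) ≤ ε ^ 2 / 2 * 2 :=
        mul_le_mul_of_nonneg_left (by linarith) (by positivity)
      nlinarith
    have hA3 : exp A - 1 ≤ A * (1 + ε / 4) := by
      have := le_of_abs_le (Real.abs_exp_sub_one_sub_id_le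
        (show |A| ≤ 1 by rw [abs_of_nonneg hA0]; linarith))
      nlinarith [mul_le_mul_of_nonneg_left hA2 hA0]
    have hfac : (1 + ε / 2) * ((1 + ε / 16) * (1 + ε / 4)) ≤ 1 + ε := by
      have : ε * ε ≤ ε / 4 := by nlinarith
      nlinarith
    have hk : u ^ 2 * (1 + 2 * |u|) * (exp A - 1) ≤ (1 + ε) * s ^ 2 / 2 := by
      calc u ^ 2 * (1 + 2 * |u|) * (exp A - 1)
          ≤ u ^ 2 * (1 + 2 * |u|) * (A * (1 + ε / 4)) :=
            mul_le_mul_of_nonneg_left hA3 (by positivity)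
        _ ≤ u ^ 2 * (1 + ε / 2) * (ε ^ 2 / 2 * (1 + ε / 16) * (1 + ε / 4)) := by
            gcongr; linarith
        _ = u ^ 2 * ε ^ 2 / 2 * ((1 + ε / 2) * ((1 + ε / 16) * (1 + ε / 4))) := by ring
        _ ≤ u ^ 2 * ε ^ 2 / 2 * (1 + ε) := mul_le_mul_of_nonneg_left hfac (by positivity)
        _ = (1 + ε) * s ^ 2 / 2 := by rw [hu]; field_simp
    calc L.E (fun o => exp (s * Z o))
        ≤ L.E (fun o => 1 + s * Z o + u ^ 2 * (1 + 2 * |u|) * (cosh (ε * Z o) - 1)) := L.E_mono' key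
      _ = 1 + u ^ 2 * (1 + 2 * |u|) * (L.E (fun o => cosh (ε * Z o)) - 1) := by
          simp only [Law.E_add, Law.E_const_mul, Law.E_sub, Law.E_const, hZ, mul_zero, add_zero]
      _ ≤ 1 + u ^ 2 * (1 + 2 * |u|) * (exp A - 1) := by gcongr
      _ ≤ 1 + (1 + ε) * s ^ 2 / 2 := by linarith
      _ ≤ exp ((1+ε) * s^2/2) := by linarith [Real.add_one_le_exp ((1+ε) * s^2/2)]

/-- Recentring a nearly sub-gaussian centred variable. -/
theorem recenter {α : Type*} (L : Law α) (Y : α → ℝ) {ε a b v : ℝ} (hε : 0 < ε) (hε1 : ε ≤ 1/4)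
    (hv : 0 ≤ v) (ha : 0 ≤ a) (ha1 : a ≤ ε^5/64) (hb : 0 ≤ b) (hb1 : b ≤ ε^3/64) (hY : L.E Y = 0)
    (h : ∀ t, L.E (fun o => exp (t * Y o)) ≤ exp (a + b * |t| * sqrt v + v * t^2/2)) (t : ℝ) :
    L.E (fun o => exp (t * Y o)) ≤ exp ((1+ε) * v * t^2/2) := by
  have main : ∀ δ : ℝ, 0 < δ →
      L.E (fun o => exp (t * Y o)) ≤ exp ((1+ε) * (v + δ) * t^2/2) := by
    intro δ hδ
    set r := sqrt (v + δ) with hr
    have hvd : 0 < v + δ := by linarith
    have hr0 : 0 < r := sqrt_pos.2 hvd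
    have hr2 : r ^ 2 = v + δ := sq_sqrt hvd.le
    have hZ : L.E (fun o => r⁻¹ * Y o) = 0 := by rw [Law.E_const_mul, hY, mul_zero]
    have hs : ∀ s, L.E (fun o => exp (s * (r⁻¹ * Y o))) ≤ exp (a + b * |s| + s^2/2) := by
      intro s
      simp only [← mul_assoc]
      refine (h (s * r⁻¹)).trans (exp_le_exp.2 ?_)
      have hsv : sqrt v ≤ r := sqrt_le_sqrt (by linarith)
      have h1 : b * |s * r⁻¹| * sqrt v ≤ b * |s| := by
        rw [abs_mul, abs_of_pos (inv_pos.2 hr0)]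
        calc b * (|s| * r⁻¹) * sqrt v ≤ b * (|s| * r⁻¹) * r := by gcongr
          _ = b * |s| := by field_simp
      have h2 : v * (s * r⁻¹) ^ 2 ≤ s ^ 2 := by
        calc v * (s * r⁻¹) ^ 2 ≤ r ^ 2 * (s * r⁻¹) ^ 2 := by rw [hr2]; gcongr; linarith
          _ = s ^ 2 := by field_simp
      linarith
    have := recenter_one L (fun o => r⁻¹ * Y o) hε hε1 ha ha1 hb hb1 hZ hs (t * r)
    have e : ∀ o, t * r * (r⁻¹ * Y o) = t * Y o := fun o => by field_simp
    simp only [e] at this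
    rwa [mul_pow, hr2, show (1+ε) * (t ^ 2 * (v + δ)) / 2 = (1+ε) * (v + δ) * t^2/2 by ring] at this
  have hc : Continuous fun δ : ℝ => exp ((1+ε) * (v + δ) * t^2/2) := by fun_prop
  have hlim : Filter.Tendsto (fun δ : ℝ => exp ((1+ε) * (v + δ) * t^2/2))
      (nhdsWithin 0 (Set.Ioi 0)) (nhds (exp ((1+ε) * v * t^2/2))) := by
    simpa using (hc.tendsto 0).mono_left nhdsWithin_le_nhds
  exact ge_of_tendsto hlim (eventually_nhdsWithin_of_forall fun δ hδ => main δ hδ)

/-- Two-point mean-zero variable with values `1 - x`, `-1 - x`. -/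
theorem twopoint (x t : ℝ) (hx : |x| ≤ 1) :
    (1+x)/2 * exp (t*(1-x)) + (1-x)/2 * exp (t*(-1-x)) ≤ exp (2*t^2) := by
  have hc := Real.cosh_pos t
  have e : (1+x)/2 * exp (t*(1-x)) + (1-x)/2 * exp (t*(-1-x))
      = exp (-(t*x)) * (cosh t * (1 + x * (sinh t / cosh t))) := by
    rw [mul_add, mul_one, mul_comm x, ← mul_assoc (cosh t), mul_div_cancel₀ _ hc.ne',
      Real.cosh_eq, Real.sinh_eq, show t*(1-x) = -(t*x) + t by ring,
      show t*(-1-x) = -(t*x) + -t by ring, exp_add, exp_add]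
    ring
  have hr : |sinh t / cosh t - t| ≤ 3/2 * t ^ 2 := by
    have key : ∀ r : ℝ, 0 ≤ r → 0 ≤ r - sinh r / cosh r ∧ r - sinh r / cosh r ≤ 3/2 * r ^ 2 := by
      intro r hr
      have hc := Real.cosh_pos r
      have hs : r ≤ sinh r := Real.self_le_sinh_iff.2 hr
      have hs' : sinh r ≤ r * cosh r := by
        have := mul_le_mul_of_nonneg_left (Real.one_le_cosh r) hr
        have h1 := (Real.hasSum_sinh r)
        have h2 := (Real.hasSum_cosh r).mul_left r
        refine hasSum_le (fun n => ?_) h1 h2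
        rw [← mul_div_assoc, ← pow_succ']
        gcongr
        omega
      constructor
      · rw [sub_nonneg, div_le_iff₀ hc]; exact hs'
      · rcases le_or_gt 1 r with h | h
        · nlinarith [div_nonneg (hr.trans hs) hc.le, mul_le_mul_of_nonneg_left h hr]
        · have h1 : r * cosh r - sinh r ≤ 3/2 * r ^ 2 * cosh r := by
            have h2 : cosh r - 1 ≤ r ^ 2 * cosh r := by
              have h3 := Real.cosh_le_exp_half_sq r
              have h4 := Real.add_one_le_exp (-(r ^ 2 / 2))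
              have h5 : cosh r * exp (-(r ^ 2 / 2)) ≤ 1 := by
                rw [exp_neg, ← div_eq_mul_inv, div_le_one (exp_pos _)]; exact h3
              nlinarith [mul_le_mul_of_nonneg_left h4 hc.le]
            nlinarith [mul_le_mul_of_nonneg_left h2 hr,
              mul_le_mul_of_nonneg_right (mul_le_mul_of_nonneg_left h.le (sq_nonneg r)) hc.le]
          rw [show r - sinh r / cosh r = (r * cosh r - sinh r) / cosh r by field_simp,
            div_le_iff₀ hc]
          exact h1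
    rcases le_total 0 t with h | h
    · obtain ⟨h1, h2⟩ := key t h
      rw [abs_sub_comm, abs_of_nonneg h1]; exact h2
    · obtain ⟨h1, h2⟩ := key (-t) (by linarith)
      rw [Real.sinh_neg, Real.cosh_neg, neg_div, sub_neg_eq_add] at h1 h2
      rw [abs_of_nonneg (by linarith)]
      linarith [neg_sq t]
  rw [e]
  have h1 : cosh t * (1 + x * (sinh t / cosh t)) ≤ exp (t^2/2) * exp (x * (sinh t / cosh t)) :=
    (mul_le_mul_of_nonneg_left (by linarith [Real.add_one_le_exp (x * (sinh t / cosh t))]) hc.le).trans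
      (mul_le_mul_of_nonneg_right (Real.cosh_le_exp_half_sq t) (exp_pos _).le)
  refine (mul_le_mul_of_nonneg_left h1 (exp_pos _).le).trans ?_
  rw [← exp_add, ← exp_add, exp_le_exp]
  have h2 : x * (sinh t / cosh t - t) ≤ 3/2 * t ^ 2 := by
    refine (le_abs_self _).trans ?_
    rw [abs_mul]
    calc |x| * |sinh t / cosh t - t| ≤ 1 * (3/2 * t ^ 2) := by gcongr
      _ = 3/2 * t ^ 2 := one_mul _
  linarith

/-- A sub-gaussian variable has second moment at most twice its parameter. -/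
theorem second_moment {α : Type*} (L : Law α) (Y : α → ℝ) {v : ℝ} (hv : 0 ≤ v)
    (h : ∀ t, L.E (fun o => exp (t * Y o)) ≤ exp (v*t^2/2)) :
    L.E (fun o => (Y o)^2) ≤ 2*v := by
  set t := (sqrt (v + 1))⁻¹ with ht
  have ht2 : t ^ 2 = (v + 1)⁻¹ := by rw [ht, inv_pow, sq_sqrt (by linarith)]
  have key : ∀ y : ℝ, y ^ 2 ≤ (v + 1) * (exp (t * y) + exp (-t * y) - 2) := by
    intro y
    have h1 := le_hasSum (Real.hasSum_cosh (t * y)) 1
    have h2 : 1 + (t * y) ^ 2 / 2 ≤ cosh (t * y) := by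
      have := sum_le_hasSum {0, 1} (fun n _ => by
        rw [pow_mul]; positivity) (Real.hasSum_cosh (t * y))
      simpa using this
    rw [Real.cosh_eq, mul_pow, ht2, ← neg_mul] at h2
    field_simp at h2 ⊢
    linarith
  refine (L.E_mono' fun o => key (Y o)).trans ?_
  simp only [Law.E_const_mul, Law.E_sub, Law.E_add, Law.E_const]
  have e1 := h t
  have e2 := h (-t)
  rw [neg_sq] at e2
  rw [ht2] at e1 e2
  set A := v * (v + 1)⁻¹ / 2 with hA
  have hA1 : A ≤ 1 := by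
    rw [hA, div_le_one (by norm_num), ← div_eq_mul_inv, div_le_iff₀ (by linarith)]; linarith
  have hA0 : 0 ≤ A := by positivity
  have hE := le_of_abs_le (Real.abs_exp_sub_one_sub_id_le
        (show |A| ≤ 1 by rw [abs_of_nonneg hA0]; exact hA1))
  have h4 : exp A - 1 ≤ 2 * A := by nlinarith
  have h5 : (v + 1) * (2 * (exp A - 1)) ≤ (v + 1) * (4 * A) :=
    mul_le_mul_of_nonneg_left (by linarith) (by linarith)
  have h6 : (v + 1) * (4 * A) = 2 * v := by rw [hA]; field_simp; ring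
  calc _ ≤ (v + 1) * (2 * (exp A - 1)) := by gcongr; linarith
    _ ≤ 2 * v := h5.trans_eq h6

end Vale.Agent.P262.Sigma
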