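import Mathlib
import Vale.Agent.P262.Sigma.Defs
import Vale.Agent.P262.Sigma.Scalar

/-!
Conditioning and mixtures of finite laws.
-/

namespace Vale.Agent.P262.Sigma

open Real
open scoped InnerProductSpace

variable {α : Type*} {d : ℕ}

namespace Law

open Classical in
/-- Conditioning on the complement of `A`. -/
noncomputable def cond (L : Law α) (A : α → Prop) (h : L.P A < 1) : Law α where
  supp := (L.supp.filter fun p => decide (¬ A p.2)).map fun p => (p.1 / (1 - L.P A), p.2)
  nonneg := by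
    intro p hp
    obtain ⟨q, hq, rfl⟩ := List.mem_map.1 hp
    exact div_nonneg (L.nonneg q (List.mem_filter.1 hq).1) (by linarith)
  total := by
    have h1 : ∀ l : List (ℝ × α), ((l.filter fun p => decide (¬ A p.2)).map
        fun p => p.1 / (1 - L.P A)).sum
        = ((l.map fun p => p.1).sum - (l.map fun p => p.1 * ind A p.2).sum) / (1 - L.P A) := by
      intro l
      induction l with
      | nil => simp
      | cons q l ih =>
        by_cases hq : A q.2
        · rw [List.filter_cons_of_neg (by simp [hq]), ih]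
          simp [ind, hq]
        · rw [List.filter_cons_of_pos (by simp [hq]), List.map_cons, List.sum_cons, ih]
          simp [ind, hq]; ring
    rw [List.map_map]
    simp only [Function.comp_def]
    rw [h1, show (L.supp.map fun p => p.1) = L.supp.map Prod.fst from rfl, L.total]
    exact div_self (by linarith : (0:ℝ) < 1 - L.P A).ne'

variable (L : Law α) {A : α → Prop} (h : L.P A < 1)

lemma E_cond (f : α → ℝ) :
    (L.cond A h).E f = (L.E f - L.E fun x => f x * ind A x) / (1 - L.P A) := by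
  classical
  have h1 : ∀ l : List (ℝ × α), ((l.filter fun p => decide (¬ A p.2)).map
      fun p => p.1 / (1 - L.P A) * f p.2).sum
      = ((l.map fun p => p.1 * f p.2).sum - (l.map fun p => p.1 * (f p.2 * ind A p.2)).sum) /
          (1 - L.P A) := by
    intro l
    induction l with
    | nil => simp
    | cons q l ih =>
      by_cases hq : A q.2
      · rw [List.filter_cons_of_neg (by simp [hq]), ih]
        simp [ind, hq]
      · rw [List.filter_cons_of_pos (by simp [hq]), List.map_cons, List.sum_cons, ih]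
        simp [ind, hq]; ring
  simp only [E, cond, List.map_map, Function.comp_def]
  exact h1 L.supp

lemma mem_cond {p : ℝ × α} (hp : p ∈ (L.cond A h).supp) :
    ∃ q ∈ L.supp, q.2 = p.2 ∧ ¬ A p.2 := by
  simp only [cond, List.mem_map] at hp
  obtain ⟨q, hq, rfl⟩ := hp
  classical
  rw [List.mem_filter] at hq
  exact ⟨q, hq.1, rfl, by simpa using hq.2⟩

lemma E_cond_le {p : ℝ} (hp : L.P A ≤ p) (hp1 : p ≤ 1 / 4) {f : α → ℝ} (hf : ∀ x, 0 ≤ f x) :
    (L.cond A h).E f ≤ Real.exp (2 * p) * L.E f := by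
  have h0 := L.P_nonneg A
  have hE := L.E_nonneg hf
  have h1 : 0 ≤ L.E fun x => f x * ind A x := L.E_nonneg fun x => mul_nonneg (hf x) (ind_nonneg A x)
  rw [E_cond, div_le_iff₀ (by linarith)]
  have h2 : 1 ≤ Real.exp (2 * p) * (1 - L.P A) := by
    nlinarith [Real.add_one_le_exp (2 * p)]
  nlinarith [mul_le_mul_of_nonneg_left h2 hE]

lemma abs_E_cond_le {v p : ℝ} (hv : 0 ≤ v) (hp : L.P A ≤ p) (hp1 : p ≤ 1 / 4) {Y : α → ℝ}
    (hY : L.E Y = 0) (h2 : L.E (fun x => Y x ^ 2) ≤ v) :
    |(L.cond A h).E Y| ≤ 2 * √(v * p) := by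
  have h0 := L.P_nonneg A
  set w := L.E fun x => Y x * ind A x with hw
  have hd : discrim (L.P A) (2 * w) (L.E fun x => Y x ^ 2) ≤ 0 := by
    refine discrim_le_zero fun t => ?_
    have h3 := L.E_nonneg (f := fun x => (Y x + t * ind A x) ^ 2) fun x => sq_nonneg _
    have h4 : (fun x => (Y x + t * ind A x) ^ 2) =
        fun x => Y x ^ 2 + (2 * t * (Y x * ind A x) + t * t * ind A x) := by
      funext x; unfold ind; split_ifs <;> ring
    rw [h4, E_add, E_add, E_const_mul, E_const_mul, ← hw] at h3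
    rw [P] at *
    linarith
  have h5 : |w| ≤ √(v * p) := by
    refine Real.abs_le_sqrt ?_
    unfold discrim at hd
    nlinarith [mul_le_mul h2 hp h0 hv]
  rw [E_cond, hY, ← hw, zero_sub, abs_div, abs_neg, abs_of_pos (a := 1 - L.P A) (by linarith),
    div_le_iff₀ (by linarith)]
  nlinarith [Real.sqrt_nonneg (v * p)]

/-- The vector mean. -/
noncomputable def vmean (X : α → Sp d) : Sp d := ∑ j, L.E (fun x => ⟪stdB d j, X x⟫_ℝ) • stdB d j

lemma inner_vmean (X : α → Sp d) (v : Sp d) :
    ⟪v, L.vmean X⟫_ℝ = L.E fun x => ⟪v, X x⟫_ℝ := by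
  rw [vmean, inner_sum]
  have e : (fun x => ⟪v, X x⟫_ℝ) = fun x => ∑ j, ⟪v, stdB d j⟫_ℝ * ⟪stdB d j, X x⟫_ℝ :=
    funext fun x => ((stdB d).sum_inner_mul_inner v (X x)).symm
  rw [e, E_sum]
  simp only [inner_smul_right, E_const_mul, mul_comm]

/-- The law of an index drawn with weights `w`. -/
noncomputable def ofWeights {ι : Type*} [Fintype ι] (w : ι → ℝ) (h0 : ∀ i, 0 ≤ w i)
    (h1 : ∑ i, w i = 1) : Law ι where
  supp := (Finset.univ : Finset ι).toList.map fun i => (w i, i)
  nonneg := by simp [h0]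
  total := by simpa [List.map_map, Function.comp_def, Finset.sum_toList] using h1

lemma E_ofWeights {ι : Type*} [Fintype ι] (w : ι → ℝ) (h0 : ∀ i, 0 ≤ w i) (h1 : ∑ i, w i = 1)
    (f : ι → ℝ) : (ofWeights w h0 h1).E f = ∑ i, w i * f i := by
  simp [E, ofWeights, List.map_map, Function.comp_def]

end Law

/-- Vectors that no functional makes all positive have `0` in their convex hull. -/
lemma exists_weights {ι : Type*} [Fintype ι] [DecidableEq ι] (z : ι → Sp d)
    (hz : ∀ v : Sp d, ∃ i, ⟪v, z i⟫_ℝ ≤ 0) :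
    ∃ w : ι → ℝ, (∀ i, 0 ≤ w i) ∧ ∑ i, w i = 1 ∧ ∑ i, w i • z i = 0 := by
  let F : (ι → ℝ) →ₗ[ℝ] Sp d := ∑ i, (LinearMap.proj i).smulRight (z i)
  have hF : ∀ w, F w = ∑ i, w i • z i := fun w => by simp [F, LinearMap.sum_apply]
  by_contra hcon
  have h0 : (0 : Sp d) ∉ F '' stdSimplex ℝ ι := by
    rintro ⟨w, hw, he⟩
    exact hcon ⟨w, hw.1, hw.2, by rw [← hF, he]⟩
  have hc : Convex ℝ (F '' stdSimplex ℝ ι) := (convex_stdSimplex ℝ ι).linear_image F
  have hk : IsClosed (F '' stdSimplex ℝ ι) :=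
    ((isCompact_stdSimplex ℝ ι).image F.continuous_of_finiteDimensional).isClosed
  obtain ⟨f, u, h1, h2⟩ := geometric_hahn_banach_point_closed hc hk h0
  obtain ⟨i, hi⟩ := hz ((InnerProductSpace.toDual ℝ (Sp d)).symm f)
  have h3 := h2 (F (Pi.single i 1)) ⟨_, single_mem_stdSimplex ℝ i, rfl⟩
  rw [InnerProductSpace.toDual_symm_apply] at hi
  have h4 : F (Pi.single i 1) = z i := by simp [hF, Pi.single_apply, ite_smul]
  rw [map_zero] at h1
  rw [h4] at h3
  linarith

end Vale.Agent.P262.Sigma
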