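import Mathlib
import Vale.Agent.P262.Sigma.Defs
import Vale.Agent.P262.Sigma.Blocks

/-!
Removing the almost killed directions of a product of blocks.
-/

namespace Vale.Agent.P262.Sigma

open Real
open scoped InnerProductSpace

variable {d : ℕ}

/-- Orthogonal projection off the eigenvectors of `ΦΦᵀ` indexed by `S`. -/
noncomputable def killP (Φ : Op d) (S : Finset (Fin d)) : Op d :=
  1 - ∑ i ∈ S, (innerₛₗ ℝ (eb Φ.adjoint i)).smulRight (eb Φ.adjoint i)

/-- The block made of consecutive children. -/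
noncomputable def nodeBlk (cs : List (Blk d)) (S : Finset (Fin d)) : Blk d :=
  ⟨killP (prod cs) S ∘ₗ prod cs, ops cs, cs.flatMap fun c => c.leaves⟩

lemma killP_empty (Φ : Op d) : killP Φ ∅ = 1 := by simp [killP]

lemma inner_killP (Φ : Op d) (S : Finset (Fin d)) (i : Fin d) (x : Sp d) :
    ⟪eb Φ.adjoint i, killP Φ S x⟫_ℝ = if i ∈ S then 0 else ⟪eb Φ.adjoint i, x⟫_ℝ := by
  classical
  have ho := orthonormal_iff_ite.1 (eb Φ.adjoint).orthonormal i
  simp [killP, inner_sub_right, inner_sum, inner_smul_right, ho]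
  split_ifs <;> simp

lemma contr_killP (Φ : Op d) (S : Finset (Fin d)) : Contr (killP Φ S) := by
  intro x
  refine (pow_le_pow_iff_left₀ (norm_nonneg _) (norm_nonneg _) two_ne_zero).1 ?_
  rw [← (eb Φ.adjoint).sum_sq_inner_right, ← (eb Φ.adjoint).sum_sq_inner_right]
  refine Finset.sum_le_sum fun i _ => ?_
  rw [inner_killP]; split_ifs <;> simp [sq_nonneg]

lemma inner_apply_eq (Φ : Op d) (i : Fin d) (y : Sp d) :
    ⟪eb Φ.adjoint i, Φ (Φ.adjoint y)⟫_ℝ = ev Φ.adjoint i * ⟪eb Φ.adjoint i, y⟫_ℝ := by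
  have h := (exists_eigen Φ.adjoint).choose_spec
  rw [← LinearMap.adjoint_inner_left, ← (eb Φ.adjoint).sum_repr' y, map_sum, inner_sum,
    Finset.sum_eq_single i, (eb Φ.adjoint).sum_repr']
  · simp [inner_smul_right, ev]; ring
  · intro j _ hji
    rw [map_smul, inner_smul_right]
    simp [eb, h i j hji.symm]
  · simp

lemma seg_node {η : ℝ} {cs : List (Blk d)} (h : ∀ c ∈ cs, Seg η c.op c.steps)
    (S : Finset (Fin d)) : Seg η (nodeBlk cs S).op (nodeBlk cs S).steps :=
  (seg_ops h).kill (contr_killP _ _)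

end Vale.Agent.P262.Sigma
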