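import Mathlib
import Vale.Agent.P262.Sigma.Raw
import Vale.Agent.P262.Sigma.Kill

/-!
The hierarchy of blocks over a sequence of vectors and the extraction of signs from it.
-/

namespace Vale.Agent.P262.Sigma

open Real
open scoped InnerProductSpace

variable {d : ℕ}

/-- An output with the right signs gives signs for the leaves, with the same prefix sums. -/
def Ext (b : Blk d) : Prop :=
  ∀ o : List (Sp d), o.length = b.steps.length →
    (∀ i < b.steps.length,
      o.getD i 0 = (b.steps.getD i default).2 ∨ o.getD i 0 = -(b.steps.getD i default).2) →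
    ∃ w : List (Sp d), List.Forall₂ (fun v x => x = v ∨ x = -v) b.leaves w ∧ w.sum = o.sum ∧
      ∀ k, ∃ i ≤ o.length, (w.take k).sum = (o.take i).sum

/-- The same for consecutive blocks, avoiding the last index. -/
lemma ext_ops : ∀ {cs : List (Blk d)}, (∀ c ∈ cs, Ext c) → ∀ o : List (Sp d),
    o.length = (ops cs).length →
    (∀ i < (ops cs).length,
      o.getD i 0 = ((ops cs).getD i default).2 ∨ o.getD i 0 = -((ops cs).getD i default).2) →
    ∃ w : List (Sp d), List.Forall₂ (fun v x => x = v ∨ x = -v)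
      (cs.flatMap fun c => c.leaves) w ∧ w.sum = o.sum ∧
      ∀ k, ∃ i < o.length, (w.take k).sum = (o.take i).sum
  | [], _, o, hl, hv => by
    obtain ⟨x, rfl⟩ := List.length_eq_one_iff.1 (show o.length = 1 by simpa [ops] using hl)
    have hx : x = 0 := by simpa [ops] using hv 0 (by simp [ops])
    subst hx
    exact ⟨[], by simp, by simp, fun k => ⟨0, by simp, by simp⟩⟩
  | c :: cs, hE, o, hl, hv => by
    rw [length_ops_cons] at hl
    set m := c.steps.length with hm
    have h1 : (o.take m).length = m := by rw [List.length_take]; omega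
    have h2 : (o.drop m).length = (ops cs).length := by rw [List.length_drop]; omega
    obtain ⟨w₁, hw₁, hs₁, hp₁⟩ := hE c (List.mem_cons_self) (o.take m) h1 fun i hi => by
      have h := hv i (by rw [length_ops_cons]; omega)
      rw [getD_ops_left hi] at h
      rwa [List.getD_eq_getElem?_getD, List.getElem?_take_of_lt hi, ← List.getD_eq_getElem?_getD]
    obtain ⟨w₂, hw₂, hs₂, hp₂⟩ := ext_ops (cs := cs) (fun b hb => hE b (List.mem_cons_of_mem _ hb))
      (o.drop m) h2 fun i hi => by
      have h := hv (m + i) (by rw [length_ops_cons]; omega)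
      rw [getD_ops_right hi] at h
      rw [List.getD_eq_getElem?_getD, List.getElem?_drop, ← List.getD_eq_getElem?_getD]
      exact h
    refine ⟨w₁ ++ w₂, ?_, ?_, fun k => ?_⟩
    · rw [List.flatMap_cons]; exact List.rel_append hw₁ hw₂
    · rw [List.sum_append, hs₁, hs₂, ← List.sum_append, List.take_append_drop]
    · rcases le_or_gt k w₁.length with hk | hk
      · obtain ⟨i, hi, e⟩ := hp₁ k
        obtain ⟨j, hj, -⟩ := hp₂ 0
        refine ⟨i, by omega, ?_⟩
        rw [List.take_append_of_le_length hk, e, List.take_take, min_eq_left (by omega)]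
      · obtain ⟨j, hj, e⟩ := hp₂ (k - w₁.length)
        refine ⟨m + j, by omega, ?_⟩
        rw [List.take_append, List.take_of_length_le hk.le, List.sum_append, e, hs₁,
          List.take_add, List.sum_append]

lemma ext_node {cs : List (Blk d)} (hE : ∀ c ∈ cs, Ext c) (S : Finset (Fin d)) :
    Ext (nodeBlk cs S) := by
  intro o hl hv
  obtain ⟨w, h1, h2, h3⟩ := ext_ops hE o hl hv
  exact ⟨w, h1, h2, fun k => let ⟨i, hi, e⟩ := h3 k; ⟨i, hi.le, e⟩⟩

lemma ext_leaf (v : Sp d) : Ext (leafBlk v) := by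
  intro o hl hv
  obtain ⟨x, rfl⟩ := List.length_eq_one_iff.1 (show o.length = 1 by simpa [leafBlk] using hl)
  refine ⟨[x], ?_, rfl, fun k => ⟨min k 1, by simp, ?_⟩⟩
  · simpa [leafBlk] using hv 0 (by simp [leafBlk])
  · rcases k with _ | k <;> simp

/-- A usable block of level `k`. -/
structure Usable (k : ℕ) (b : Blk d) : Prop where
  seg : Seg (Cst.eta d) b.op b.steps
  spec : Spec k b
  ext : Ext b

/-- A usable block of level `k` that has killed `k` directions. -/
def Complete (k : ℕ) (b : Blk d) : Prop :=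
  Usable k b ∧ Module.finrank ℝ (LinearMap.range b.op) ≤ d - k

/-- Every child lifts through the product before it. -/
def GoodFull : List (Blk d) → Op d → Prop
  | [], _ => True
  | c :: cs, Q => (∀ y, ∃ w, c.op (Q w) = c.op y ∧ ‖w‖ ≤ ‖y‖ / Cst.theta d) ∧
      GoodFull cs (c.op ∘ₗ Q)

lemma GoodFull.goodList : ∀ {cs : List (Blk d)} {Q : Op d}, GoodFull cs Q → GoodList cs Q
  | [], _, _ => trivial
  | _ :: _, _, h => ⟨fun _ => h.1, GoodFull.goodList h.2⟩

lemma GoodFull.goodList_concat : ∀ {cs : List (Blk d)} {Q : Op d}, GoodFull cs Q →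
    ∀ c, GoodList (cs ++ [c]) Q
  | [], _, _, _ => ⟨fun h => absurd rfl h, trivial⟩
  | _ :: _, _, h, c => ⟨fun _ => h.1, GoodFull.goodList_concat h.2 c⟩

lemma GoodFull.concat : ∀ {cs : List (Blk d)} {Q : Op d}, GoodFull cs Q → ∀ {c : Blk d},
    (∀ y, ∃ w, c.op ((prod cs ∘ₗ Q) w) = c.op y ∧ ‖w‖ ≤ ‖y‖ / Cst.theta d) →
    GoodFull (cs ++ [c]) Q
  | [], _, _, _, hl => ⟨hl, trivial⟩
  | _ :: _, _, h, _, hl => ⟨h.1, GoodFull.concat h.2 hl⟩

lemma prod_concat : ∀ (cs : List (Blk d)) (c : Blk d), prod (cs ++ [c]) = c.op ∘ₗ prod cs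
  | [], c => rfl
  | b :: cs, c => by
    rw [List.cons_append, prod, prod, prod_concat cs c, LinearMap.comp_assoc]

/-- The directions in which `ΦΦᵀ` is at most `θ²`. -/
noncomputable def smallSet (Φ : Op d) : Finset (Fin d) :=
  Finset.univ.filter fun i => ev Φ.adjoint i ≤ Cst.theta d ^ 2

lemma apply_eb (Φ : Op d) (i : Fin d) :
    Φ (Φ.adjoint (eb Φ.adjoint i)) = ev Φ.adjoint i • eb Φ.adjoint i := by
  classical
  conv_lhs => rw [← (eb Φ.adjoint).sum_repr' (Φ (Φ.adjoint (eb Φ.adjoint i)))]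
  rw [Finset.sum_eq_single i]
  · rw [inner_apply_eq, real_inner_self_eq_norm_sq, (eb Φ.adjoint).orthonormal.1 i]; simp
  · intro j _ hj
    rw [inner_apply_eq, (eb Φ.adjoint).orthonormal.2 hj]; simp
  · simp

/-- If few directions are small, a child of small rank lifts through the product. -/
lemma lift_of_few {C Q : Op d} {k : ℕ} (hC : Contr C)
    (hr : Module.finrank ℝ (LinearMap.range C) ≤ d - k) (hS : (smallSet (C ∘ₗ Q)).card ≤ k)
    (y : Sp d) : ∃ w, C (Q w) = C y ∧ ‖w‖ ≤ ‖y‖ / Cst.theta d := by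
  classical
  set Φ := C ∘ₗ Q with hΦ
  set e := eb Φ.adjoint with he
  set Big := (smallSet Φ)ᶜ with hBig
  have hθ := Cst.theta_pos d
  have hbig : ∀ i ∈ Big, Cst.theta d ^ 2 < ev Φ.adjoint i := fun i hi => by
    simpa [hBig, smallSet] using hi
  have hpos : ∀ i ∈ Big, 0 < ev Φ.adjoint i := fun i hi =>
    lt_of_le_of_lt (sq_nonneg _) (hbig i hi)
  set W := Submodule.span ℝ (Set.range fun i : Big => e i) with hW
  have hsub : W ≤ LinearMap.range C := by
    rw [hW, Submodule.span_le]
    rintro _ ⟨⟨i, hi⟩, rfl⟩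
    refine ⟨(ev Φ.adjoint i)⁻¹ • Q (Φ.adjoint (e i)), ?_⟩
    rw [map_smul, show C (Q (Φ.adjoint (e i))) = Φ (Φ.adjoint (e i)) from rfl, he, apply_eb,
      inv_smul_smul₀ (hpos i hi).ne']
  have hWd : Module.finrank ℝ W = Big.card := by
    rw [hW, finrank_span_eq_card (b := fun i : Big => e i)
      (e.orthonormal.linearIndependent.comp _ Subtype.val_injective), Fintype.card_coe]
  have heq : W = LinearMap.range C := Submodule.eq_of_le_of_finrank_le hsub (by
    rw [hWd, hBig, Finset.card_compl, Fintype.card_fin]; omega)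
  have hzero : ∀ i ∉ Big, ⟪e i, C y⟫_ℝ = 0 := by
    intro i hi
    have hy : C y ∈ W := heq ▸ LinearMap.mem_range_self C y
    refine Submodule.span_induction (p := fun x _ => ⟪e i, x⟫_ℝ = 0) ?_ (by simp)
      (fun x z _ _ hx hz => by rw [inner_add_right, hx, hz, add_zero])
      (fun r x _ hx => by rw [inner_smul_right, hx, mul_zero]) hy
    rintro _ ⟨⟨j, hj⟩, rfl⟩
    exact e.orthonormal.2 fun h => hi (h ▸ hj)
  set v : Sp d := ∑ i ∈ Big, (⟪e i, C y⟫_ℝ / ev Φ.adjoint i) • e i with hv
  refine ⟨Φ.adjoint v, ?_, ?_⟩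
  · rw [show C (Q (Φ.adjoint v)) = Φ (Φ.adjoint v) from rfl]
    conv_rhs => rw [← e.sum_repr' (C y), ← Finset.sum_subset (Finset.subset_univ Big)
      (fun i _ hi => by rw [hzero i hi, zero_smul])]
    rw [hv, map_sum, map_sum]
    refine Finset.sum_congr rfl fun i hi => ?_
    rw [map_smul, map_smul, he, apply_eb, smul_smul, div_mul_cancel₀ _ (hpos i hi).ne']
  · refine (pow_le_pow_iff_left₀ (norm_nonneg _) (by positivity) two_ne_zero).1 ?_
    rw [norm_sq_apply]
    calc ∑ i, ev Φ.adjoint i * ⟪e i, v⟫_ℝ ^ 2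
        = ∑ i ∈ Big, ⟪e i, C y⟫_ℝ ^ 2 / ev Φ.adjoint i := by
          rw [← Finset.sum_subset (Finset.subset_univ Big) (fun i _ hi => ?_)]
          · refine Finset.sum_congr rfl fun i hi => ?_
            rw [hv, e.orthonormal.inner_right_sum _ hi]
            field_simp [(hpos i hi).ne']
          · rw [hv, inner_sum, Finset.sum_eq_zero (fun j hj => ?_)]
            · simp
            · rw [inner_smul_right, e.orthonormal.2 fun h : i = j => hi (h ▸ hj), mul_zero]
      _ ≤ ∑ i ∈ Big, ⟪e i, C y⟫_ℝ ^ 2 / Cst.theta d ^ 2 := Finset.sum_le_sum fun i hi =>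
          div_le_div_of_nonneg_left (sq_nonneg _) (by positivity) (hbig i hi).le
      _ ≤ ∑ i, ⟪e i, C y⟫_ℝ ^ 2 / Cst.theta d ^ 2 :=
          Finset.sum_le_sum_of_subset_of_nonneg (Finset.subset_univ _)
            fun i _ _ => by positivity
      _ = ‖C y‖ ^ 2 / Cst.theta d ^ 2 := by rw [← Finset.sum_div, e.sum_sq_inner_right]
      _ ≤ (‖y‖ / Cst.theta d) ^ 2 := by
          rw [div_pow]; gcongr; exact hC y

/-- Killing the small directions bounds the rank. -/
lemma finrank_kill {Φ : Op d} (S : Finset (Fin d)) :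
    Module.finrank ℝ (LinearMap.range (killP Φ S ∘ₗ Φ)) ≤ d - S.card := by
  classical
  set e := eb Φ.adjoint
  have hle : LinearMap.range (killP Φ S ∘ₗ Φ)
      ≤ Submodule.span ℝ (↑(Sᶜ.image fun i => e i) : Set (Sp d)) := by
    rintro _ ⟨x, rfl⟩
    rw [← e.sum_repr' ((killP Φ S ∘ₗ Φ) x)]
    refine Submodule.sum_mem _ fun i _ => ?_
    rw [LinearMap.comp_apply, inner_killP]
    split_ifs with h
    · simp
    · exact Submodule.smul_mem _ _ (Submodule.subset_span
        (Finset.mem_image_of_mem _ (Finset.mem_compl.2 h)))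
  refine (Submodule.finrank_mono hle).trans ((finrank_span_finset_le_card _).trans ?_)
  refine Finset.card_image_le.trans ?_
  rw [Finset.card_compl, Fintype.card_fin]

/-- The statement of the single vector step. -/
def LeafSpec (d : ℕ) : Prop := ∀ v : Sp d, ‖v‖ ≤ 1 → Spec 0 (leafBlk v)

/-- The statement of the node step. -/
def NodeSpec (d : ℕ) : Prop := ∀ (k : ℕ), k + 1 ≤ d + 1 → ∀ (cs : List (Blk d)), cs ≠ [] →
  (∀ c ∈ cs, Seg (Cst.eta d) c.op c.steps) → (∀ c ∈ cs, Spec k c) → GoodList cs 1 →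
  ∀ S : Finset (Fin d), (∀ i ∈ S, ev (prod cs).adjoint i ≤ Cst.theta d ^ 2) →
    Spec (k + 1) (nodeBlk cs S)

lemma usable_node {k : ℕ} (HN : NodeSpec d) (hk : k + 1 ≤ d + 1) {cs : List (Blk d)}
    (hne : cs ≠ []) (hcs : ∀ c ∈ cs, Usable k c) (hgood : GoodList cs 1) {S : Finset (Fin d)}
    (hS : ∀ i ∈ S, ev (prod cs).adjoint i ≤ Cst.theta d ^ 2) :
    Usable (k + 1) (nodeBlk cs S) :=
  ⟨seg_node (fun c hc => (hcs c hc).seg) S,
    HN k hk cs hne (fun c hc => (hcs c hc).seg) (fun c hc => (hcs c hc).spec) hgood S hS,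
    ext_node (fun c hc => (hcs c hc).ext) S⟩

/-- Grouping complete blocks of level `k` into complete blocks of level `k + 1`. -/
lemma scan {k : ℕ} (HN : NodeSpec d) (hk : k + 1 ≤ d + 1) :
    ∀ (cs : List (Blk d)), (∀ c ∈ cs, Complete k c) →
    ∀ (acc : List (Blk d)), (∀ c ∈ acc, Complete k c) → GoodFull acc 1 →
    ∃ (out acc' : List (Blk d)), (∀ b ∈ out, Complete (k + 1) b) ∧
      (∀ c ∈ acc', Complete k c) ∧ GoodFull acc' 1 ∧
      (out.flatMap fun c => c.leaves) ++ (acc'.flatMap fun c => c.leaves)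
        = (acc.flatMap fun c => c.leaves) ++ (cs.flatMap fun c => c.leaves)
  | [], _, acc, hacc, hgood => ⟨[], acc, by simp, hacc, hgood, by simp⟩
  | c :: cs, hcs, acc, hacc, hgood => by
    have hc := hcs c (List.mem_cons_self)
    have hcs' : ∀ b ∈ cs, Complete k b := fun b hb => hcs b (List.mem_cons_of_mem _ hb)
    have hall : ∀ b ∈ acc ++ [c], Complete k b := by
      intro b hb
      rcases List.mem_append.1 hb with h | h
      · exact hacc b h
      · rw [List.mem_singleton.1 h]; exact hc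
    set S := smallSet (prod (acc ++ [c])) with hSdef
    by_cases hS : k + 1 ≤ S.card
    · obtain ⟨out, acc', h1, h2, h3, h4⟩ := scan HN hk cs hcs' [] (by simp) trivial
      have hnode : Complete (k + 1) (nodeBlk (acc ++ [c]) S) :=
        ⟨usable_node HN hk (by simp) (fun b hb => (hall b hb).1) (hgood.goodList_concat c)
          (fun i hi => (Finset.mem_filter.1 hi).2),
          (finrank_kill S).trans (by omega)⟩
      refine ⟨nodeBlk (acc ++ [c]) S :: out, acc', ?_, h2, h3, ?_⟩
      · intro b hb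
        rcases List.mem_cons.1 hb with rfl | h
        · exact hnode
        · exact h1 b h
      · simp only [List.flatMap_cons, List.append_assoc, h4]
        simp [nodeBlk]
    · rw [hSdef, prod_concat] at hS
      obtain ⟨out, acc', h1, h2, h3, h4⟩ := scan HN hk cs hcs' (acc ++ [c]) hall
        (hgood.concat (c := c) fun y => by
          obtain ⟨w, hw, hn⟩ := lift_of_few (C := c.op) (Q := prod acc) hc.1.seg.contr_op hc.2
            (by omega) y
          exact ⟨w, hw, hn⟩)
      exact ⟨out, acc', h1, h2, h3, by simpa using h4⟩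

lemma leftover {k : ℕ} (HN : NodeSpec d) (hk : k + 1 ≤ d + 1) {acc : List (Blk d)}
    (hacc : ∀ c ∈ acc, Complete k c) (hgood : GoodFull acc 1) {rest : Option (Blk d)}
    (hrest : ∀ b ∈ rest.toList, Usable k b) :
    ∃ r : Option (Blk d), (∀ b ∈ r.toList, Usable (k + 1) b ∧ ∃ cs, b = nodeBlk cs ∅ ∧
      ∀ c ∈ cs, Ext c) ∧
      (r.toList.flatMap fun c => c.leaves)
        = (acc.flatMap fun c => c.leaves) ++ (rest.toList.flatMap fun c => c.leaves) := by
  rcases eq_or_ne (acc ++ rest.toList) [] with h | h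
  · refine ⟨none, by simp, ?_⟩
    rw [← List.flatMap_append, h]; simp
  · have hU : ∀ c ∈ acc ++ rest.toList, Usable k c := by
      intro c hc
      rcases List.mem_append.1 hc with hc | hc
      exacts [(hacc c hc).1, hrest c hc]
    have hg : GoodList (acc ++ rest.toList) 1 := by
      cases rest with
      | none => simpa using hgood.goodList
      | some b => exact hgood.goodList_concat b
    refine ⟨some (nodeBlk (acc ++ rest.toList) ∅), ?_, by simp [nodeBlk]⟩
    intro b hb
    rw [Option.toList_some, List.mem_singleton] at hb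
    subst hb
    exact ⟨usable_node HN hk h hU hg (by simp), _, rfl, fun c hc => (hU c hc).ext⟩

/-- The hierarchy. -/
lemma hierarchy (HL : LeafSpec d) (HN : NodeSpec d) {vs : List (Sp d)} (hvs : ∀ v ∈ vs, ‖v‖ ≤ 1) :
    ∀ k ≤ d, ∃ (bs : List (Blk d)) (rest : Option (Blk d)),
      (∀ b ∈ bs, Complete k b) ∧ (∀ b ∈ rest.toList, Usable k b) ∧
      (bs.flatMap fun c => c.leaves) ++ (rest.toList.flatMap fun c => c.leaves) = vs := by
  intro k
  induction k with
  | zero =>
    intro _
    refine ⟨vs.map leafBlk, none, ?_, by simp, ?_⟩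
    · intro b hb
      obtain ⟨v, hv, rfl⟩ := List.mem_map.1 hb
      refine ⟨⟨seg_leaf (hvs v hv), HL v (hvs v hv), ext_leaf v⟩, ?_⟩
      exact (Submodule.finrank_le _).trans (by rw [finrank_euclideanSpace_fin]; simp)
    · simp [leafBlk, List.flatMap_map]
  | succ k ih =>
    intro hk
    obtain ⟨bs, rest, h1, h2, h3⟩ := ih (by omega)
    obtain ⟨out, acc, g1, g2, g3, g4⟩ := scan HN (by omega) bs h1 [] (by simp) trivial
    obtain ⟨r, r1, r2⟩ := leftover HN (by omega) g2 g3 h2
    refine ⟨out, r, g1, fun b hb => (r1 b hb).1, ?_⟩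
    rw [r2, ← List.append_assoc, g4]
    simpa using h3

/-- The top block. -/
lemma exists_root (HL : LeafSpec d) (HN : NodeSpec d) {vs : List (Sp d)}
    (hvs : ∀ v ∈ vs, ‖v‖ ≤ 1) (hne : vs ≠ []) :
    ∃ cs : List (Blk d), (∀ c ∈ cs, Ext c) ∧ (cs.flatMap fun c => c.leaves) = vs ∧
      Spec (d + 1) (nodeBlk cs ∅) := by
  obtain ⟨bs, rest, h1, h2, h3⟩ := hierarchy HL HN hvs d le_rfl
  have hzero : ∀ b ∈ bs, b.op = 0 := by
    intro b hb
    have h := (h1 b hb).2
    rw [Nat.sub_self, Nat.le_zero, Submodule.finrank_eq_zero, LinearMap.range_eq_bot] at h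
    exact h
  have hgood : ∀ (l : List (Blk d)) (Q : Op d), (∀ b ∈ l, b.op = 0) → GoodFull l Q := by
    intro l
    induction l with
    | nil => intros; trivial
    | cons b l ih =>
      intro Q hl
      refine ⟨fun y => ⟨0, by simp [hl b (List.mem_cons_self)], ?_⟩,
        ih _ fun c hc => hl c (List.mem_cons_of_mem _ hc)⟩
      have := Cst.theta_pos d
      rw [norm_zero]; positivity
  obtain ⟨r, r1, r2⟩ := leftover HN le_rfl h1 (hgood bs 1 hzero) h2
  rw [h3] at r2
  cases r with
  | none => simp at r2; exact absurd r2 hne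
  | some b =>
    obtain ⟨hb, cs, rfl, hE⟩ := r1 b (by simp)
    exact ⟨cs, hE, by simpa [nodeBlk] using r2, hb.spec⟩

end Vale.Agent.P262.Sigma
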