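import Mathlib
import Vale.Agent.P262.Sigma.Defs
import Vale.Agent.P262.Sigma.Const
import Vale.Agent.P262.Sigma.Blocks
import Vale.Agent.P262.Sigma.Spec
import Vale.Agent.P262.Sigma.Kill

/-!
The shifts used at a node: one that moves the mean onto the killed one, and small perturbations.
-/

namespace Vale.Agent.P262.Sigma

open Real
open scoped InnerProductSpace

variable {d : ℕ}

lemma inner_fop_eb (Φ : Op d) (i : Fin d) (u : Sp d) :
    ⟪eb Φ.adjoint i, fop Φ u⟫_ℝ = (1 - ev Φ.adjoint i) * ⟪eb Φ.adjoint i, u⟫_ℝ := by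
  rw [fop_apply, inner_sub_right, inner_apply_eq]; ring

lemma fq_eb (Φ : Op d) (u : Sp d) :
    fq Φ u = ∑ i, (1 - ev Φ.adjoint i) * ⟪eb Φ.adjoint i, u⟫_ℝ ^ 2 := by
  rw [fq, norm_sq_apply, ← (eb Φ.adjoint).sum_sq_inner_right u, ← Finset.sum_sub_distrib]
  exact Finset.sum_congr rfl fun i _ => by ring

lemma killP_symm (Φ : Op d) (S : Finset (Fin d)) : (killP Φ S).adjoint = killP Φ S := by
  refine ((LinearMap.eq_adjoint_iff _ _).2 fun x y => ?_).symm
  rw [← (eb Φ.adjoint).sum_inner_mul_inner (killP Φ S x) y,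
    ← (eb Φ.adjoint).sum_inner_mul_inner x (killP Φ S y)]
  refine Finset.sum_congr rfl fun i _ => ?_
  rw [real_inner_comm (eb Φ.adjoint i) (killP Φ S x), real_inner_comm (eb Φ.adjoint i) x,
    inner_killP, inner_killP]
  split_ifs <;> simp

/-- The eigenvalue of `I - PΦΦᵀP`. -/
noncomputable def gk (Φ : Op d) (S : Finset (Fin d)) (i : Fin d) : ℝ :=
  if i ∈ S then 1 else 1 - ev Φ.adjoint i

lemma inner_fop_kill (Φ : Op d) (S : Finset (Fin d)) (i : Fin d) (u : Sp d) :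
    ⟪eb Φ.adjoint i, fop (killP Φ S ∘ₗ Φ) u⟫_ℝ = gk Φ S i * ⟪eb Φ.adjoint i, u⟫_ℝ := by
  rw [fop_apply, inner_sub_right, LinearMap.adjoint_comp, LinearMap.comp_apply,
    LinearMap.comp_apply, killP_symm, inner_killP, inner_apply_eq, inner_killP, gk]
  split_ifs <;> ring

lemma fq_kill (Φ : Op d) (S : Finset (Fin d)) (u : Sp d) :
    fq (killP Φ S ∘ₗ Φ) u = ∑ i, gk Φ S i * ⟪eb Φ.adjoint i, u⟫_ℝ ^ 2 := by
  rw [fq_eq, ← (eb Φ.adjoint).sum_inner_mul_inner]
  refine Finset.sum_congr rfl fun i _ => ?_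
  rw [inner_fop_kill, real_inner_comm u (eb Φ.adjoint i)]; ring

lemma fq_le_kill (Φ : Op d) (S : Finset (Fin d)) (u : Sp d) :
    fq Φ u ≤ fq (killP Φ S ∘ₗ Φ) u := by
  rw [fq_eb, fq_kill]
  refine Finset.sum_le_sum fun i _ => mul_le_mul_of_nonneg_right ?_ (sq_nonneg _)
  unfold gk; split_ifs
  · linarith [ev_nonneg Φ.adjoint i]
  · exact le_rfl

lemma fn_le_kill (Φ : Op d) (S : Finset (Fin d)) (u : Sp d) :
    fn Φ u ≤ fn (killP Φ S ∘ₗ Φ) u := Real.sqrt_le_sqrt (fq_le_kill Φ S u)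

lemma fn_add_le {Φ : Op d} (h : Contr Φ) (x y : Sp d) : fn Φ (x + y) ≤ fn Φ x + fn Φ y := by
  rw [fn, Real.sqrt_le_iff]
  refine ⟨add_nonneg (fn_nonneg _ _) (fn_nonneg _ _), ?_⟩
  rw [fq_add, add_sq, fn_sq h, fn_sq h]
  linarith [(abs_le.1 (inner_fop_le h x y)).2]

lemma fn_neg (Φ : Op d) (x : Sp d) : fn Φ (-x) = fn Φ x := by
  simp [fn, fq]

/-- The shift that kills the mean in the directions of `S`. -/
lemma exists_base {Φ : Op d} (hΦ : Contr Φ) {S : Finset (Fin d)} {θ R : ℝ} (hθ0 : 0 ≤ θ)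
    (hθ : θ ≤ 1 / 4) (hS : ∀ i ∈ S, ev Φ.adjoint i ≤ θ ^ 2) (a u : Sp d) (ha : ‖a‖ ≤ R) :
    ∃ u₀, target Φ a u₀ = target (killP Φ S ∘ₗ Φ) a u ∧
      fn Φ u₀ ≤ (1 + θ ^ 2) * (fn (killP Φ S ∘ₗ Φ) u + θ * R) := by
  classical
  set b := eb Φ.adjoint with hb
  set g : Fin d → ℝ := fun i => 1 - ev Φ.adjoint i with hg
  have hg1 : ∀ i ∈ S, 1 - θ ^ 2 ≤ g i := fun i hi => by simp only [hg]; linarith [hS i hi]
  have hg0 : ∀ i, 0 ≤ g i := fun i => by
    simp only [hg]; linarith [ev_le_one hΦ.adjoint i]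
  set co : Fin d → ℝ := fun i => if i ∈ S then (⟪b i, u⟫_ℝ - ⟪b i, Φ a⟫_ℝ) / g i else ⟪b i, u⟫_ℝ
    with hco
  have hin : ∀ i, ⟪b i, ∑ j, co j • b j⟫_ℝ = co i := fun i =>
    b.orthonormal.inner_right_fintype _ i
  have hθ2 : θ ^ 2 ≤ 1 / 16 := by nlinarith
  refine ⟨∑ j, co j • b j, ?_, ?_⟩
  · refine b.repr.injective ?_
    ext i
    rw [b.repr_apply_apply, b.repr_apply_apply, target, target, inner_add_right, inner_add_right,
      hb, inner_fop_eb, inner_fop_kill, LinearMap.comp_apply, inner_killP, ← hb, hin, gk]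
    simp only [hco]
    split_ifs with hi
    · have : g i ≠ 0 := by linarith [hg1 i hi]
      simp only [hg] at this ⊢
      field_simp; ring
    · ring
  set yA : Sp d := ∑ j, (√(gk Φ S j) * ⟪b j, u⟫_ℝ) • b j with hA
  set yB : Sp d := ∑ j, (if j ∈ S then ⟪b j, Φ a⟫_ℝ else 0) • b j with hB
  have hgk : ∀ i, 0 ≤ gk Φ S i := fun i => by
    unfold gk; split_ifs
    · norm_num
    · exact hg0 i
  have h1 : ‖yA‖ = fn (killP Φ S ∘ₗ Φ) u := by
    rw [fn, fq_kill, ← Real.sqrt_sq (norm_nonneg yA), ← b.sum_sq_inner_right yA]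
    congr 1
    refine Finset.sum_congr rfl fun i _ => ?_
    rw [hA, b.orthonormal.inner_right_fintype, mul_pow, Real.sq_sqrt (hgk i)]
  have h2 : ‖yB‖ ≤ θ * R := by
    have e1 : ‖yB‖ ^ 2 = ⟪Φ.adjoint yB, a⟫_ℝ := by
      rw [LinearMap.adjoint_inner_left, ← b.sum_inner_mul_inner yB (Φ a),
        ← b.sum_sq_inner_right yB]
      refine Finset.sum_congr rfl fun i _ => ?_
      rw [real_inner_comm (b i) yB, hB, b.orthonormal.inner_right_fintype]
      split_ifs <;> ring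
    have e2 : ‖Φ.adjoint yB‖ ≤ θ * ‖yB‖ := by
      refine (pow_le_pow_iff_left₀ (norm_nonneg _) (by positivity) two_ne_zero).1 ?_
      rw [norm_sq_apply, mul_pow, ← b.sum_sq_inner_right yB, Finset.mul_sum]
      refine Finset.sum_le_sum fun i _ => ?_
      rw [← hb, hB, b.orthonormal.inner_right_fintype]
      split_ifs with hi
      · exact mul_le_mul_of_nonneg_right (hS i hi) (sq_nonneg _)
      · simp
    rcases eq_or_lt_of_le (norm_nonneg yB) with h | h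
    · rw [← h]; exact mul_nonneg hθ0 ((norm_nonneg a).trans ha)
    refine le_of_mul_le_mul_left ?_ h
    calc ‖yB‖ * ‖yB‖ = ⟪Φ.adjoint yB, a⟫_ℝ := by rw [← e1, sq]
      _ ≤ ‖Φ.adjoint yB‖ * ‖a‖ := real_inner_le_norm _ _
      _ ≤ θ * ‖yB‖ * R := mul_le_mul e2 ha (norm_nonneg _) (by positivity)
      _ = _ := by ring
  calc fn Φ (∑ j, co j • b j) ≤ (1 + θ ^ 2) * ‖yA - yB‖ := by
        rw [fn, Real.sqrt_le_iff]
        refine ⟨by positivity, ?_⟩
        rw [fq_eb, mul_pow, ← b.sum_sq_inner_right (yA - yB), Finset.mul_sum]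
        refine Finset.sum_le_sum fun i _ => ?_
        rw [← hb, hin, inner_sub_right, hA, hB, b.orthonormal.inner_right_fintype,
          b.orthonormal.inner_right_fintype, gk]
        simp only [hco]
        split_ifs with hi
        · have hgi := hg1 i hi
          have : 0 < g i := by linarith
          rw [Real.sqrt_one, one_mul, div_pow,
            show (1 - ev Φ.adjoint i) = g i from rfl, mul_div_assoc', div_le_iff₀ (by positivity)]
          have h3 : 1 ≤ (1 + θ ^ 2) ^ 2 * g i := by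
            refine le_trans ?_ (mul_le_mul_of_nonneg_left hgi (sq_nonneg _))
            nlinarith [mul_le_mul_of_nonneg_left hθ2 (sq_nonneg θ),
              mul_le_mul_of_nonneg_left hθ2 (by positivity : 0 ≤ θ ^ 4)]
          nlinarith [mul_le_mul_of_nonneg_left h3
            (mul_nonneg this.le (sq_nonneg (⟪b i, u⟫_ℝ - ⟪b i, Φ a⟫_ℝ)))]
        · rw [sub_zero, mul_pow, Real.sq_sqrt (hg0 i)]
          exact le_mul_of_one_le_left (mul_nonneg (hg0 i) (sq_nonneg _))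
            (one_le_pow₀ (by nlinarith))
    _ ≤ _ := by
        gcongr
        exact (norm_sub_le _ _).trans (by linarith)

/-- Small shifts along the eigenvectors of `ΦΦᵀ`. -/
noncomputable def pert (Φ : Op d) (r : ℝ) : Option (Fin d × Bool) → Sp d
  | none => 0
  | some (j, s) => ((if s then r else -r) / √(1 - ev Φ.adjoint j)) • eb Φ.adjoint j

lemma fn_pert {Φ : Op d} (hΦ : Contr Φ) {r : ℝ} (hr : 0 ≤ r) :
    ∀ i, fn Φ (pert Φ r i) ≤ r
  | none => by simpa [pert, fn, fq] using hr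
  | some (j, s) => by
    have hg : 0 ≤ 1 - ev Φ.adjoint j := by linarith [ev_le_one hΦ.adjoint j]
    rw [fn, Real.sqrt_le_iff]
    refine ⟨hr, ?_⟩
    rw [pert, fq_smul, fq_eq, inner_fop_eb, real_inner_self_eq_norm_sq,
      (eb Φ.adjoint).orthonormal.1 j, div_pow, Real.sq_sqrt hg]
    rcases eq_or_lt_of_le hg with h | h
    · rw [← h]; simp [sq_nonneg]
    · field_simp
      cases s <;> simp

/-- Some perturbation pushes a given functional down. -/
lemma exists_pert {Φ : Op d} (hΦ : Contr Φ) {r : ℝ} (hr : 0 ≤ r) (h : Sp d) :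
    fn Φ h = 0 ∨ (0 < d ∧ ∃ i, ⟪h, fop Φ (pert Φ r i)⟫_ℝ ≤ -(r / √d * fn Φ h)) := by
  rcases eq_or_ne (fn Φ h) 0 with h0 | h0
  · exact Or.inl h0
  refine Or.inr ?_
  set g : Fin d → ℝ := fun j => 1 - ev Φ.adjoint j with hg
  have hg0 : ∀ j, 0 ≤ g j := fun j => by simp only [hg]; linarith [ev_le_one hΦ.adjoint j]
  have hne : Nonempty (Fin d) := by
    by_contra hd
    rw [not_nonempty_iff] at hd
    exact h0 (by simp [fn, fq_eb])
  refine ⟨Fin.pos_iff_nonempty.2 hne, ?_⟩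
  obtain ⟨j, _, hj⟩ := Finset.exists_max_image Finset.univ
    (fun j => g j * ⟪eb Φ.adjoint j, h⟫_ℝ ^ 2) Finset.univ_nonempty
  have hd : (0 : ℝ) < d := by exact_mod_cast Fin.pos_iff_nonempty.2 hne
  have h1 : fn Φ h ≤ √d * (√(g j) * |⟪eb Φ.adjoint j, h⟫_ℝ|) := by
    rw [fn, Real.sqrt_le_iff]
    refine ⟨by positivity, ?_⟩
    rw [fq_eb, mul_pow, mul_pow, Real.sq_sqrt hd.le, Real.sq_sqrt (hg0 j), sq_abs]
    calc _ ≤ ∑ _i : Fin d, g j * ⟪eb Φ.adjoint j, h⟫_ℝ ^ 2 :=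
          Finset.sum_le_sum fun i hi => hj i hi
      _ = _ := by simp
  have key : ∀ s, ⟪h, fop Φ (pert Φ r (some (j, s)))⟫_ℝ
      = (if s then r else -r) * (√(g j) * ⟪eb Φ.adjoint j, h⟫_ℝ) := by
    intro s
    rw [pert, map_smul, inner_smul_right, inner_fop_comm, ← inner_fop_comm, inner_fop_comm,
      real_inner_comm, show ⟪fop Φ h, eb Φ.adjoint j⟫_ℝ = ⟪eb Φ.adjoint j, fop Φ h⟫_ℝ from
        real_inner_comm _ _, inner_fop_eb]
    have e : g j / √(g j) = √(g j) := Real.div_sqrt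
    simp only [hg] at e ⊢
    rw [← mul_assoc, ← mul_assoc, div_mul_eq_mul_div, mul_div_assoc, e]
  have h2 : r / √d * fn Φ h ≤ r * (√(g j) * |⟪eb Φ.adjoint j, h⟫_ℝ|) := by
    rw [div_mul_eq_mul_div, div_le_iff₀ (Real.sqrt_pos.2 hd)]
    linarith [mul_le_mul_of_nonneg_left h1 hr]
  rcases le_total 0 ⟪eb Φ.adjoint j, h⟫_ℝ with hs | hs
  · refine ⟨some (j, false), ?_⟩
    rw [key, if_neg (by simp)]
    rw [abs_of_nonneg hs] at h2
    linarith
  · refine ⟨some (j, true), ?_⟩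
    rw [key, if_pos rfl]
    rw [abs_of_nonpos hs] at h2
    linarith

end Vale.Agent.P262.Sigma
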