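import Mathlib
import Vale.Agent.P262.Sigma.Defs
import Vale.Agent.P262.Sigma.Const
import Vale.Agent.P262.Sigma.Blocks
import Vale.Agent.P262.Sigma.Spec
import Vale.Agent.P262.Sigma.Scalar

/-!
`Spec 0` for the block of a single vector.
-/

namespace Vale.Agent.P262.Sigma

open Real
open scoped InnerProductSpace

variable {d : ℕ}

lemma leaf_small {v : Sp d} (hv : ‖v‖ ≤ 1) {u : Sp d}
    (hu : fn (leafBlk v).op u ≤ Cst.rho d 0) :
    |(2 * Cst.eta d - Cst.eta d ^ 2 * ‖v‖ ^ 2) * ⟪v, u⟫_ℝ| ≤ 1 / 2 := by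
  obtain ⟨h1, h2⟩ := coef_bounds hv
  have hη := Cst.eta_pos d
  set κ := 2 * Cst.eta d - Cst.eta d ^ 2 * ‖v‖ ^ 2
  calc |κ * ⟪v, u⟫_ℝ| = √κ * fn (leafBlk v).op u := by
        rw [fn, leafBlk, fq_stepOp, ← Real.sqrt_mul (by linarith),
          show κ * (κ * ⟪v, u⟫_ℝ ^ 2) = (κ * ⟪v, u⟫_ℝ) ^ 2 by ring, Real.sqrt_sq_eq_abs]
    _ ≤ √(2 * Cst.eta d) * Cst.rho d 0 :=
        mul_le_mul (Real.sqrt_le_sqrt h2) hu (fn_nonneg _ _) (Real.sqrt_nonneg _)
    _ ≤ 1 / 2 := Cst.leaf_rho d

lemma leaf_mid_sure {v : Sp d} (hv : ‖v‖ ≤ 1) {fut : List (Step d)}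
    (hfut : Chain (Cst.eta d) fut) {a : Sp d} {y : ℝ}
    (hy : |y + Cst.eta d * ⟪v, a⟫_ℝ| ≤ 3)
    (hvalid : |⟪v, a⟫_ℝ| ≤ 1 / (2 * Cst.eta d) → y = 1 ∨ y = -1)
    (hA : Adm 0 (leafBlk v).steps a) : Sure (leafBlk v) fut a [y • v] := by
  have hn : Cst.cc d * ‖a‖ ^ 2 ≤ Cst.B d 0 := by
    have h := hA (1, v) (by simp [leafBlk])
    rwa [G_one] at h
  refine ⟨?_, ?_, ?_, ?_, Or.inr (leaf_surj hv), ?_⟩
  · intro i hi h
    simp only [leafBlk, List.length_singleton, Nat.lt_one_iff] at hi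
    subst hi
    simp only [leafBlk, List.getD_cons_zero, pre, List.take_zero, List.sum_nil, add_zero] at h ⊢
    rcases hvalid h with rfl | rfl <;> simp
  · intro i hi
    simp only [leafBlk, List.length_singleton, Nat.lt_one_iff] at hi
    subst hi
    simpa [pre] using hn
  · intro i hi _
    simp only [leafBlk, List.length_singleton, Nat.lt_one_iff] at hi
    subst hi
    simp [leafBlk, pre, Cst.LL_nonneg]
  · intro i hi h
    simp only [leafBlk, List.length_singleton, Nat.lt_one_iff] at hi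
    subst hi
    simp only [leafBlk, List.getD_cons_zero, pre, List.take_zero, List.sum_nil, add_zero] at h ⊢
    rw [show LinearMap.adjoint (1 : Op d) = 1 from LinearMap.adjoint_id, Module.End.one_apply] at h
    have hδ := Cst.delta_pos d
    have hθ := Cst.theta_pos d
    have hna : ‖a‖ ≤ Cst.T d ^ 3 := Cst.norm_le d (norm_nonneg _) (by
      linarith [Cst.two_B0_le d, Cst.B_nonneg d 0 (by omega)])
    have : |⟪v, a⟫_ℝ| ≤ 1 := by
      refine (abs_real_inner_le_norm v a).trans ?_
      refine le_trans (mul_le_mul_of_nonneg_right (h.trans ?_) (norm_nonneg _))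
        (Cst.negligible d hna)
      rw [le_div_iff₀ hθ]; nlinarith [Cst.theta_le d]
    linarith [Cst.LL_nonneg d]
  · intro s hs _
    have e : a + [y • v].sum - (leafBlk v).op a = (y + Cst.eta d * ⟪v, a⟫_ℝ) • v := by
      simp only [leafBlk, stepOp_apply, List.sum_singleton]; module
    rw [e, inner_smul_right, abs_mul]
    have h1 : |⟪s.1.adjoint s.2, v⟫_ℝ| ≤ 1 :=
      (abs_real_inner_le_norm _ _).trans (mul_le_one₀
        (((hfut.contr s hs).adjoint _).trans (hfut.vec s hs)) (norm_nonneg _) hv)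
    calc |y + Cst.eta d * ⟪v, a⟫_ℝ| * |⟪s.1.adjoint s.2, v⟫_ℝ| ≤ 3 * 1 :=
          mul_le_mul hy h1 (abs_nonneg _) (by norm_num)
      _ ≤ Cst.LL d := by linarith [Cst.four_le_LL d]

/-- A single vector. -/
theorem leaf_spec {v : Sp d} (hv : ‖v‖ ≤ 1) : Spec 0 (leafBlk v) := by
  intro fut hfut a u hu
  have hη := Cst.eta_pos d
  obtain ⟨hκ, _⟩ := coef_bounds hv
  have hsm := leaf_small hv hu
  set κ := 2 * Cst.eta d - Cst.eta d ^ 2 * ‖v‖ ^ 2 with hκd
  set x := -(Cst.eta d * ⟪v, a⟫_ℝ) + κ * ⟪v, u⟫_ℝ with hx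
  have htar : target (leafBlk v).op a u = a + x • v := by
    simp only [target, leafBlk, fop_stepOp, stepOp_apply, ← hκd, hx]; module
  have hmid : ∀ L : Law (List (Sp d)), ∀ i < (leafBlk v).steps.length, ∀ t : ℝ,
      L.E (fun o => exp (t * ⟪((leafBlk v).steps.getD i default).2,
        pre a o i - ((leafBlk v).steps.getD i default).1 a⟫_ℝ)) ≤
      exp (Cst.mm d 0 + Cst.sig d 0 * (1 + Cst.eps d) / 2 * t ^ 2 *
        (‖((leafBlk v).steps.getD i default).2‖ ^ 2 -
          ‖((leafBlk v).steps.getD i default).1.adjoint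
            ((leafBlk v).steps.getD i default).2‖ ^ 2)) := by
    intro L i hi t
    simp only [leafBlk, List.length_singleton, Nat.lt_one_iff] at hi
    subst hi
    simp [leafBlk, pre, Cst.mm, Law.E_const]
  by_cases h1 : |x| ≤ 1
  · refine ⟨coin v x h1, ?_, ?_, ?_, hmid _, ?_⟩
    · intro p hp
      simp only [coin, List.mem_cons, List.not_mem_nil, or_false] at hp
      rcases hp with rfl | rfl <;> simp [leafBlk]
    · intro h
      simp [Law.E, coin, htar, inner_smul_right, inner_sub_right,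
        inner_neg_right]
      ring
    · intro θ
      have e : ∀ y : ℝ, ⟪θ, a + y • v - (a + x • v)⟫_ℝ = ⟪θ, v⟫_ℝ * (y - x) := fun y => by
        rw [add_sub_add_left_eq_sub, ← sub_smul, inner_smul_right]; ring
      have e1 := e 1
      have e2 := e (-1)
      rw [one_smul] at e1
      rw [neg_one_smul] at e2
      simp only [Law.E, coin, List.map_cons, List.map_nil, List.sum_cons, List.sum_nil, add_zero,
        htar, e1, e2]
      refine (twopoint x ⟪θ, v⟫_ℝ h1).trans (exp_le_exp.2 ?_)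
      rw [leafBlk, fq_stepOp, ← hκd, real_inner_comm θ v, Cst.sig, pow_zero, mul_one]
      rw [show 4 / Cst.eta d / 2 * (κ * ⟪θ, v⟫_ℝ ^ 2) = 2 * ⟪θ, v⟫_ℝ ^ 2 * (κ / Cst.eta d) by
        ring]
      exact le_mul_of_one_le_right (by positivity) (by rwa [le_div_iff₀ hη, one_mul])
    · intro hA p hp
      simp only [coin, List.mem_cons, List.not_mem_nil, or_false] at hp
      have hx' := abs_le.1 h1
      have hs' := abs_le.1 hsm
      rcases hp with rfl | rfl
      · have := leaf_mid_sure hv hfut (y := 1) (by rw [abs_le]; constructor <;> linarith)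
          (fun _ => Or.inl rfl) hA
        simpa using this
      · have := leaf_mid_sure hv hfut (y := -1) (by rw [abs_le]; constructor <;> linarith)
          (fun _ => Or.inr rfl) hA
        simpa using this
  · refine ⟨Law.pure [x • v], ?_, ?_, ?_, hmid _, ?_⟩
    · simp [Law.pure, leafBlk]
    · intro h; simp [Law.E_pure, htar]
    · intro θ
      rw [Law.E_pure, htar, List.sum_singleton, sub_self, inner_zero_right]
      refine exp_le_exp.2 ?_
      rw [leafBlk, fq_stepOp, ← hκd]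
      have := Cst.sig_pos d 0
      have : 0 ≤ κ := by linarith
      positivity
    · intro hA p hp
      simp only [Law.pure, List.mem_singleton] at hp
      subst hp
      refine leaf_mid_sure hv hfut ?_ (fun h => absurd ?_ h1) hA
      · rw [hx, neg_add_eq_sub, sub_add_cancel]
        linarith
      · rw [abs_le] at h hsm ⊢
        have h' : |Cst.eta d * ⟪v, a⟫_ℝ| ≤ 1 / 2 := by
          rw [abs_mul, abs_of_pos hη]
          calc Cst.eta d * |⟪v, a⟫_ℝ| ≤ Cst.eta d * (1 / (2 * Cst.eta d)) :=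
                mul_le_mul_of_nonneg_left (abs_le.2 h) hη.le
            _ = 1 / 2 := by field_simp
        rw [abs_le] at h'
        rw [hx]; constructor <;> linarith

end Vale.Agent.P262.Sigma
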