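import Mathlib
import Vale.Agent.P262.Sigma.Defs
import Vale.Agent.P262.Sigma.Const
import Vale.Agent.P262.Sigma.Blocks
import Vale.Agent.P262.Sigma.Spec
import Vale.Agent.P262.Sigma.Quad
import Vale.Agent.P262.Sigma.Scalar
import Vale.Agent.P262.Sigma.Raw
import Vale.Agent.P262.Sigma.Kill
import Vale.Agent.P262.Sigma.Compose
import Vale.Agent.P262.Sigma.Cond
import Vale.Agent.P262.Sigma.Geom

/-!
A node built from children of level `k` has level `k + 1`.
-/

namespace Vale.Agent.P262.Sigma

open Real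
open scoped InnerProductSpace

variable {d : ℕ}

lemma target_eq_shift (Φ : Op d) (a u v : Sp d) :
    target Φ a (u + v) = target Φ a u + fop Φ v := by
  simp only [target, map_add]; abel

/-- The law with deterministic path along the means. -/
lemma out_virtual {k : ℕ} {b : Blk d} (hseg : Seg (Cst.eta d) b.op b.steps) (fut : List (Step d))
    (a u : Sp d) (hA : ¬ Adm k b.steps a) : ∃ L, Out k b fut a u L := by
  set n := b.steps.length with hn
  set T := target b.op a u with hT
  set nx : ℕ → Sp d := fun i => if i < n then (b.steps.getD i default).1 a else T with hnx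
  refine ⟨Law.pure ((List.range n).map fun i => nx (i + 1) - nx i), ?_⟩
  have hsum : ∀ i ≤ n, (((List.range n).map fun i => nx (i + 1) - nx i).take i).sum
      = nx i - nx 0 := by
    intro i hi
    rw [← List.map_take, List.take_range, min_eq_left hi]
    clear hi
    induction i with
    | zero => simp
    | succ i ih => rw [List.range_succ, List.map_append, List.sum_append, ih]; simp
  have h0 : nx 0 = a := by
    have hp := hseg.length_pos
    simp only [hnx, hn, if_pos hp, List.getD_eq_getElem _ _ hp, hseg.first_op,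
      Module.End.one_apply]
  have hfin : a + ((List.range n).map fun i => nx (i + 1) - nx i).sum = T := by
    have h := hsum n le_rfl
    rw [List.take_of_length_le (by simp), h0] at h
    rw [h]; simp [hnx]
  refine ⟨?_, ?_, ?_, ?_, fun h => absurd h hA⟩
  · simp [Law.pure, hn]
  · intro h; simp [Law.E_pure, hfin, hT]
  · intro θ
    rw [Law.E_pure, hfin, hT, sub_self, inner_zero_right]
    exact exp_le_exp.2 (mul_nonneg (by linarith [Cst.sig_pos d k]) (fq_nonneg hseg.contr_op θ))
  · intro i hi t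
    rw [Law.E_pure, pre, hsum i hi.le, h0, add_sub_cancel]
    simp only [hnx, hn, if_pos hi, sub_self, inner_zero_right, mul_zero]
    refine exp_le_exp.2 (add_nonneg (Cst.mm_nonneg d k) (mul_nonneg ?_ ?_))
    · have := Cst.sig_pos d k; have := Cst.eps_pos d; positivity
    · have h := (hseg.contr _ (getD_mem hi default)).adjoint (b.steps.getD i default).2
      nlinarith [norm_nonneg ((b.steps.getD i default).1.adjoint (b.steps.getD i default).2)]

lemma ops_pos : ∀ cs : List (Blk d), 0 < (ops cs).length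
  | [] => by simp [ops]
  | c :: cs => by
    have := ops_pos cs
    rw [length_ops_cons]; omega

lemma ops_last : ∀ cs : List (Blk d), ((ops cs).getD ((ops cs).length - 1) default).2 = 0
  | [] => by simp [ops]
  | c :: cs => by
    have hpos := ops_pos cs
    have h := ops_last cs
    rw [length_ops_cons, show c.steps.length + (ops cs).length - 1
      = c.steps.length + ((ops cs).length - 1) by omega, getD_ops_right (by omega)]
    exact h

lemma shift_one (s : Step d) : shift 1 s = s := by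
  simp [shift, Module.End.one_eq_id]

/-- The events that are removed at a node. -/
def Bad (cs : List (Blk d)) (op : Op d) (fut : List (Step d)) (a : Sp d) (o : List (Sp d)) : Prop :=
  (∃ j ∈ reps (Cst.eta0 d) (ops cs),
    Exc cs a (G (Cst.cc d) ((ops cs).getD j default).1 a + Cst.KK d) j o) ∨
  (∃ j ∈ reps (Cst.eta0 d) fut,
    G (Cst.cc d) ((fut.getD j default).1 ∘ₗ op) a + Cst.KK d <
      G (Cst.cc d) (fut.getD j default).1 (a + o.sum)) ∨
  (∃ i ∈ (Finset.range (ops cs).length).filter fun i =>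
      Cst.delta d < ‖((ops cs).getD i default).1.adjoint ((ops cs).getD i default).2‖,
    Cst.LL d < |⟪((ops cs).getD i default).2,
      pre a o i - ((ops cs).getD i default).1 a⟫_ℝ|) ∨
  (∃ i ∈ (Finset.range fut.length).filter fun i =>
      Cst.delta d < ‖(fut.getD i default).1.adjoint (fut.getD i default).2‖,
    Cst.LL d < |⟪(fut.getD i default).1.adjoint (fut.getD i default).2, a + o.sum - op a⟫_ℝ|)

lemma sure_node {k : ℕ} {cs : List (Blk d)}
    (hseg : ∀ c ∈ cs, Seg (Cst.eta d) c.op c.steps) (hgood : GoodList cs 1) (S : Finset (Fin d))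
    {fut : List (Step d)} (hfut : Chain (Cst.eta d) fut) {a u : Sp d}
    (hA : Adm (k + 1) (ops cs) a) {L : Law (List (Sp d))} (hL : RawOut k cs a u L)
    {p : ℝ × List (Sp d)} (hp : p ∈ L.supp)
    (hbad : ¬ Bad cs (nodeBlk cs S).op fut a p.2) : Sure (nodeBlk cs S) fut a p.2 := by
  classical
  simp only [Bad, not_or, not_exists, not_and, not_lt] at hbad
  obtain ⟨hb1, hb2, hb3, hb4⟩ := hbad
  have hB := Cst.B_succ d k
  have hK := Cst.KK_nonneg d
  have hctx : Ctx k cs (ops cs) 0 1
      (fun j => G (Cst.cc d) ((ops cs).getD j default).1 a + Cst.KK d) a p.2 := by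
    refine ⟨hgood, (seg_ops hseg).dec, ?_, ?_, ?_, ?_, ?_, ?_⟩
    · rw [List.drop_zero]
      conv_lhs => rw [← List.map_id (ops cs)]
      exact List.map_congr_left fun s _ => (shift_one s).symm
    · intro j hj
      obtain ⟨t, ht, rfl⟩ := Finset.mem_image.1 hj
      have := hA _ (getD_mem (rep_lt (e := Cst.eta0 d) (Finset.mem_range.1 ht)) default)
      linarith
    · intro s hs
      linarith [hA s hs]
    · intro j _ _
      simp only [zero_add]
      linarith
    · intro j _ hr
      rw [zero_add] at hr ⊢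
      exact hb1 j hr
    · intro s _ h1 h2
      rw [show LinearMap.adjoint (1 : Op d) = 1 from LinearMap.adjoint_id,
        Module.End.one_apply] at h2
      linarith
  have R := hL.sure p hp _ _ _ _ hctx
  have hlen := hL.len p hp
  have hpos := (seg_ops hseg).length_pos
  have hlast : a + p.2.sum = pre a p.2 ((ops cs).length - 1) := by
    have h := R.valid ((ops cs).length - 1) (by omega) (by
      rw [ops_last, inner_zero_left, abs_zero]; have := Cst.eta_pos d; positivity)
    rw [ops_last, neg_zero, or_self] at h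
    have e : p.2 = p.2.take ((ops cs).length - 1) ++ [p.2.getD ((ops cs).length - 1) 0] := by
      rw [List.getD_eq_getElem _ _ (by omega), List.take_append_getElem,
        List.take_of_length_le (by omega)]
    rw [pre]
    conv_lhs => rw [e]
    rw [List.sum_append, h]; simp
  refine ⟨R.valid, R.path, ?_, ?_, Or.inl ?_, ?_⟩
  · intro i hi hd
    exact hb3 i (Finset.mem_filter.2 ⟨Finset.mem_range.2 hi, hd⟩)
  · intro i hi hd
    refine R.small i hi ?_
    rw [show LinearMap.adjoint (1 : Op d) = 1 from LinearMap.adjoint_id, Module.End.one_apply]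
    exact hd
  · intro X hX s hs
    obtain ⟨t, ht, rfl⟩ := List.getElem_of_mem hs
    have hr := rep_mem (e := Cst.eta0 d) ht
    have hlt := rep_lt (e := Cst.eta0 d) ht
    have h1 := hb2 _ hr
    rw [List.getD_eq_getElem _ _ hlt] at h1
    have h2 := hX _ (List.getElem_mem hlt)
    have hn : Cst.cc d * ‖a + p.2.sum‖ ^ 2 ≤ Cst.T d ^ 2 := by
      rw [hlast]
      linarith [R.path _ (by omega : (ops cs).length - 1 < (ops cs).length), Cst.two_B0_le d,
        Cst.B_nonneg d 0 (by omega)]
    have h3 := G_rep (Cst.cc_pos d).le (Cst.eta0_pos d) hfut.dec ht (Mt := fut[t].1)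
      (Ml := (fut[rep (Cst.eta0 d) fut t]'hlt).1) (Q := 1) (K := 1)
      (by rw [← Module.End.mul_eq_comp, mul_one]) (by rw [← Module.End.mul_eq_comp, mul_one])
      (P := 1) (fun y => ⟨y, rfl, by simp⟩) (a + p.2.sum)
    rw [← Module.End.mul_eq_comp, ← Module.End.mul_eq_comp, mul_one, mul_one] at h3
    have h4 : Cst.cc d * (3 / 2 * (Cst.eta0 d * 1 ^ 2)) * ‖a + p.2.sum‖ ^ 2 ≤ 1 / 4 := by
      refine le_trans ?_ (Cst.tiny d hn)
      have := Cst.cc_pos d; have := Cst.eta0_pos d; have := Cst.theta_pos d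
      gcongr
      rw [one_pow, mul_one, le_div_iff₀ (by positivity)]
      have h5 : Cst.theta d ^ 2 ≤ 4 := by nlinarith [Cst.theta_le d]
      nlinarith [mul_le_mul_of_nonneg_left h5 (Cst.eta0_pos d).le]
    linarith
  · intro s hs hd
    obtain ⟨t, ht, rfl⟩ := List.getElem_of_mem hs
    have h := hb4 t (Finset.mem_filter.2 ⟨Finset.mem_range.2 ht, by
      rwa [List.getD_eq_getElem _ _ ht]⟩)
    rwa [List.getD_eq_getElem _ _ ht] at h

lemma prob_bad {k : ℕ} (hk : k + 1 ≤ d + 1) {cs : List (Blk d)}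
    (hseg : ∀ c ∈ cs, Seg (Cst.eta d) c.op c.steps) (S : Finset (Fin d))
    {fut : List (Step d)} (hfut : Chain (Cst.eta d) fut) {a u v D : Sp d}
    {L : Law (List (Sp d))} (hL : RawOut k cs a v L) (hv : fn (prod cs) v ≤ Cst.rho d k)
    (hu : fn (nodeBlk cs S).op u + Cst.rr d ≤ Cst.rho d k)
    (htar : target (prod cs) a v = target (nodeBlk cs S).op a u + D)
    (hD : ∀ θ, |⟪θ, D⟫_ℝ| ≤ Cst.rr d * fn (nodeBlk cs S).op θ) :
    L.P (Bad cs (nodeBlk cs S).op fut a) ≤ Cst.pp d := by
  classical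
  set Φ := prod cs with hΦ
  set op := (nodeBlk cs S).op with hop
  set σ := Cst.sig d k * (1 + Cst.eps d) with hσ
  have hs := Cst.sig_pos d k
  have he := Cst.eps_pos d
  have hη := Cst.eta_pos d
  have hσ9 : σ ≤ 9 / Cst.eta d := Cst.sig1_le d k (by omega)
  have hsN := seg_node hseg S
  have hsR := seg_ops hseg
  have hρ := Cst.rho_le_zero d k
  have hmm := Cst.mm_le d k (by omega)
  have hm0 := Cst.mm_nonneg d k
  have hμ := Cst.mu0_nonneg d
  have hp0 := Cst.pp_pos d
  have hcost : fq Φ v / (2 * Cst.sig d k * Cst.eps d) ≤ Cst.mu0 d := by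
    rw [← fn_sq hsR.contr_op v]
    linarith [Cst.shift_cost d k (fn_nonneg Φ v) (hv.trans hρ)]
  set q' := (fn op u + Cst.rr d) ^ 2 / (2 * Cst.sig d k * Cst.eps d) with hq'
  have hq : q' ≤ Cst.mu0 d := by
    linarith [Cst.shift_cost d k (add_nonneg (fn_nonneg op u) (Cst.rr_nonneg d)) (hu.trans hρ)]
  have hmgf : ∀ θ, L.E (fun o => exp ⟪θ, a + o.sum - op a⟫_ℝ) ≤ exp (q' + σ / 2 * fq op θ) := by
    intro θ
    have e : ∀ o : List (Sp d), ⟪θ, a + o.sum - op a⟫_ℝ =
        ⟪θ, a + o.sum - target Φ a v⟫_ℝ + (⟪θ, fop op u⟫_ℝ + ⟪θ, D⟫_ℝ) := by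
      intro o
      rw [← inner_add_right, ← inner_add_right, htar, target]
      congr 1; abel
    simp only [e, exp_add]
    rw [Law.E_mul_const]
    have h1 : ⟪θ, fop op u⟫_ℝ + ⟪θ, D⟫_ℝ ≤ q' + Cst.sig d k * Cst.eps d / 2 * fq op θ := by
      have h2 := (le_abs_self _).trans (inner_fop_le hsN.contr_op θ u)
      have h3 := (le_abs_self _).trans (hD θ)
      rw [← fn_sq hsN.contr_op θ, hq']
      generalize fn op θ = x, fn op u = y at h2 h3 ⊢
      rw [div_add' _ _ _ (by positivity), le_div_iff₀ (by positivity)]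
      nlinarith [sq_nonneg (Cst.sig d k * Cst.eps d * x - (y + Cst.rr d)), mul_pos hs he]
    calc L.E _ * _ ≤ exp (Cst.sig d k / 2 * fq Φ θ) *
          exp (q' + Cst.sig d k * Cst.eps d / 2 * fq op θ) := by
          rw [← exp_add (⟪θ, fop op u⟫_ℝ)]
          exact mul_le_mul (hL.mgf θ) (exp_le_exp.2 h1) (exp_pos _).le (exp_pos _).le
      _ ≤ _ := by
          rw [← exp_add, ← exp_add]
          refine exp_le_exp.2 ?_
          have h4 : Cst.sig d k / 2 * fq Φ θ ≤ Cst.sig d k / 2 * fq op θ :=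
            mul_le_mul_of_nonneg_left (fq_le_kill Φ S θ) (by linarith)
          rw [hσ]; linarith
  have hE1 : ∀ j ∈ reps (Cst.eta0 d) (ops cs), L.P (fun o => Exc cs a
      (G (Cst.cc d) ((ops cs).getD j default).1 a + Cst.KK d) j o) ≤ exp (1 - Cst.KK d) := by
    intro j hj
    obtain ⟨t, ht, rfl⟩ := Finset.mem_image.1 hj
    refine (hL.exc _ (rep_lt (Finset.mem_range.1 ht)) _).trans (exp_le_exp.2 ?_)
    linarith
  have hE2 : ∀ j ∈ reps (Cst.eta0 d) fut, L.P (fun o =>
      G (Cst.cc d) ((fut.getD j default).1 ∘ₗ op) a + Cst.KK d <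
        G (Cst.cc d) (fut.getD j default).1 (a + o.sum)) ≤ exp (1 - Cst.KK d) := by
    intro j hj
    obtain ⟨t, ht, rfl⟩ := Finset.mem_image.1 hj
    set N := (fut.getD (rep (Cst.eta0 d) fut t) default).1
    have hN : Contr N := hfut.contr _ (getD_mem (rep_lt (Finset.mem_range.1 ht)) default)
    set thr := G (Cst.cc d) (N ∘ₗ op) a + Cst.KK d with hthr
    calc L.P _ ≤ L.E fun o => exp (-thr) *
          exp (G (Cst.cc d) N (op a + (a + o.sum - op a))) := by
          refine L.E_mono' fun o => ?_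
          rw [← exp_add]
          refine Law.ind_le_exp fun h => ?_
          rw [add_sub_cancel]
          linarith
      _ ≤ exp (-thr) * exp (q' + G (Cst.cc d) (N ∘ₗ op) a) := by
          rw [Law.E_const_mul]
          exact mul_le_mul_of_nonneg_left (quad_bound (Cst.cc_pos d).le (by positivity)
            (Cst.cc_sig d k (by omega)) hN hsN.contr_op L _ a hmgf) (exp_pos _).le
      _ ≤ _ := by rw [← exp_add]; refine exp_le_exp.2 ?_; linarith
  have hvec : ∀ x : Sp d, ‖x‖ ≤ 1 → ∀ t : ℝ,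
      σ / 2 * (t ^ 2 * ‖x‖ ^ 2) ≤ 9 / Cst.eta d / 2 * t ^ 2 := by
    intro x hx t
    have : ‖x‖ ^ 2 ≤ 1 := by nlinarith [norm_nonneg x]
    calc σ / 2 * (t ^ 2 * ‖x‖ ^ 2) ≤ 9 / Cst.eta d / 2 * (t ^ 2 * 1) := by gcongr
      _ = _ := by ring
  have htail : ∀ m, m ≤ 1 → ∀ X : List (Sp d) → ℝ,
      (∀ t, L.E (fun o => exp (t * X o)) ≤ exp (m + 9 / Cst.eta d / 2 * t ^ 2)) →
      L.P (fun o => Cst.LL d < |X o|) ≤ 2 * exp (1 - Cst.LL d ^ 2 * Cst.eta d / 18) := by
    intro m hm X hX
    refine (tail L X (by positivity) (Cst.LL_nonneg d) hX).trans ?_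
    rw [show Cst.LL d ^ 2 / (2 * (9 / Cst.eta d)) = Cst.LL d ^ 2 * Cst.eta d / 18 by field_simp; ring]
    gcongr
  have hE3 : ∀ i ∈ (Finset.range (ops cs).length).filter (fun i =>
      Cst.delta d < ‖((ops cs).getD i default).1.adjoint ((ops cs).getD i default).2‖),
      L.P (fun o => Cst.LL d < |⟪((ops cs).getD i default).2,
        pre a o i - ((ops cs).getD i default).1 a⟫_ℝ|) ≤
        2 * exp (1 - Cst.LL d ^ 2 * Cst.eta d / 18) := by
    intro i hi
    have hi' := Finset.mem_range.1 (Finset.mem_filter.1 hi).1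
    refine htail (Cst.mm d k + fq Φ v / (2 * Cst.sig d k * Cst.eps d)) (by linarith) _ fun t => ?_
    refine (hL.mid i hi' t).trans (exp_le_exp.2 (add_le_add le_rfl ?_))
    refine le_trans ?_ (hvec _ (hsR.vec _ (getD_mem hi' default)) t)
    rw [← hσ]
    calc σ / 2 * t ^ 2 * _ ≤ σ / 2 * t ^ 2 * ‖((ops cs).getD i default).2‖ ^ 2 :=
          mul_le_mul_of_nonneg_left (by linarith [sq_nonneg (‖((ops cs).getD i default).1.adjoint ((ops cs).getD i default).2‖)]) (by positivity)
      _ = _ := by ring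
  have hE4 : ∀ i ∈ (Finset.range fut.length).filter (fun i =>
      Cst.delta d < ‖(fut.getD i default).1.adjoint (fut.getD i default).2‖),
      L.P (fun o => Cst.LL d <
        |⟪(fut.getD i default).1.adjoint (fut.getD i default).2, a + o.sum - op a⟫_ℝ|) ≤
        2 * exp (1 - Cst.LL d ^ 2 * Cst.eta d / 18) := by
    intro i hi
    have hi' := Finset.mem_range.1 (Finset.mem_filter.1 hi).1
    set x := (fut.getD i default).1.adjoint (fut.getD i default).2
    have hx : ‖x‖ ≤ 1 := ((hfut.contr _ (getD_mem hi' default)).adjoint _).trans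
      (hfut.vec _ (getD_mem hi' default))
    refine htail q' (by linarith) _ fun t => ?_
    refine le_trans (le_of_eq ?_) ((hmgf (t • x)).trans (exp_le_exp.2 (add_le_add le_rfl ?_)))
    · simp only [inner_smul_left, starRingEnd_apply, star_trivial]
    · refine le_trans ?_ (hvec x hx t)
      rw [fq_smul]
      refine mul_le_mul_of_nonneg_left (mul_le_mul_of_nonneg_left ?_ (sq_nonneg t)) (by positivity)
      unfold fq; linarith [sq_nonneg ‖op.adjoint x‖]
  have hc1 := card_reps (Cst.eta0_pos d) hsR.contr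
  have hc2 := card_reps (Cst.eta0_pos d) hfut.contr
  have hc3 := hits_card hη (Cst.delta_pos d) hsR.chain
  have hc4 := hits_card hη (Cst.delta_pos d) hfut
  have sum_bound : ∀ (s : Finset ℕ) (A : ℕ → List (Sp d) → Prop) (c N : ℝ), 0 ≤ c →
      (s.card : ℝ) ≤ N → (∀ i ∈ s, L.P (A i) ≤ c) →
      L.P (fun o => ∃ i ∈ s, A i o) ≤ N * c := by
    intro s A c N hc hN h
    refine (L.P_exists_finset s A).trans ((Finset.sum_le_sum h).trans ?_)
    rw [Finset.sum_const, nsmul_eq_mul]
    exact mul_le_mul_of_nonneg_right hN hc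
  have b1 := sum_bound _ _ _ _ (exp_pos _).le hc1 hE1
  have b2 := sum_bound _ _ _ _ (exp_pos _).le hc2 hE2
  have b3 := sum_bound _ _ _ _ (mul_nonneg (by norm_num) (exp_pos _).le) hc3 hE3
  have b4 := sum_bound _ _ _ _ (mul_nonneg (by norm_num) (exp_pos _).le) hc4 hE4
  have hU := Cst.union_le d (le_refl ((d : ℝ) / Cst.eta0 d + 1))
    (le_refl ((d : ℝ) / (Cst.eta d * Cst.delta d ^ 2)))
  unfold Bad
  refine (L.P_or _ _).trans ?_
  refine le_trans (add_le_add le_rfl ((L.P_or _ _).trans (add_le_add le_rfl (L.P_or _ _)))) ?_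
  linarith

/-- The node step. -/
theorem node_spec {k : ℕ} (hk : k + 1 ≤ d + 1) {cs : List (Blk d)}
    (hseg : ∀ c ∈ cs, Seg (Cst.eta d) c.op c.steps) (hspec : ∀ c ∈ cs, Spec k c)
    (hgood : GoodList cs 1) {S : Finset (Fin d)}
    (hS : ∀ i ∈ S, ev (prod cs).adjoint i ≤ Cst.theta d ^ 2) :
    Spec (k + 1) (nodeBlk cs S) := by
  classical
  intro fut hfut a u hu
  by_cases hA : Adm (k + 1) (nodeBlk cs S).steps a
  swap
  · exact out_virtual (seg_node hseg S) fut a u hA
  have hsN := seg_node hseg S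
  have hsR := seg_ops hseg
  set Φ := prod cs with hΦ
  set op := (nodeBlk cs S).op with hop
  have hs := Cst.sig_pos d k
  have he := Cst.eps_pos d
  have hp0 := Cst.pp_pos d
  have hp1 := Cst.pp_le d
  have hrr := Cst.rr_nonneg d
  have hθ := Cst.theta_pos d
  have hna : ‖a‖ ≤ Cst.T d ^ 3 := by
    refine Cst.norm_le d (norm_nonneg _) ?_
    obtain ⟨v, rest, e⟩ := hsR.first
    have h := hA (1, v) (by
      show (1, v) ∈ ops cs
      rw [e]; exact List.mem_cons_self)
    rw [G_one] at h
    linarith [Cst.two_B0_le d, Cst.B_le_zero d (k + 1), Cst.B_nonneg d 0 (by omega)]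
  obtain ⟨u₀, htar, hu₀⟩ :=
    exists_base hsR.contr_op hθ.le (Cst.theta_le d) hS a u hna
  have hstep := Cst.rho_step d k hk
  have hT3 : 0 ≤ Cst.theta d * Cst.T d ^ 3 := mul_nonneg hθ.le ((norm_nonneg a).trans hna)
  have hu0' : fn Φ u₀ + Cst.rr d ≤ Cst.rho d k := by
    refine le_trans ?_ hstep
    refine add_le_add (hu₀.trans ?_) le_rfl
    rw [mul_comm]
    exact mul_le_mul_of_nonneg_right (add_le_add hu le_rfl) (by positivity)
  have hu' : fn op u + Cst.rr d ≤ Cst.rho d k := by
    refine le_trans ?_ hstep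
    refine add_le_add (le_trans ?_ (le_mul_of_one_le_right ?_ ?_)) le_rfl
    · linarith
    · linarith [Cst.rho_nonneg d (k + 1) hk]
    · nlinarith
  let w : Option (Fin d × Bool) → Sp d := fun i => u₀ + pert Φ (Cst.rr d) i
  have hw : ∀ i, fn Φ (w i) ≤ Cst.rho d k := fun i =>
    (fn_add_le hsR.contr_op _ _).trans (by linarith [fn_pert hsR.contr_op hrr i])
  choose L hL using fun i => raw_exists hk hseg hspec a (w i) (hw i)
  set D : Option (Fin d × Bool) → Sp d := fun i => fop Φ (pert Φ (Cst.rr d) i) with hD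
  have htw : ∀ i, target Φ a (w i) = target op a u + D i := fun i => by
    rw [target_eq_shift, htar]; rfl
  have hDb : ∀ i θ, |⟪θ, D i⟫_ℝ| ≤ Cst.rr d * fn op θ := fun i θ => by
    refine (inner_fop_le hsR.contr_op θ _).trans ?_
    rw [mul_comm]
    exact mul_le_mul (fn_pert hsR.contr_op hrr i) (fn_le_kill Φ S θ) (fn_nonneg _ _) hrr
  have hprob : ∀ i, (L i).P (Bad cs op fut a) ≤ Cst.pp d := fun i =>
    prob_bad hk hseg S hfut (hL i) (hw i) hu' (htw i) (hDb i)
  have hlt : ∀ i, (L i).P (Bad cs op fut a) < 1 := fun i => by linarith [hprob i]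
  let L' : Option (Fin d × Bool) → Law (List (Sp d)) := fun i => (L i).cond _ (hlt i)
  let z : Option (Fin d × Bool) → Sp d := fun i =>
    (L' i).vmean fun o => a + o.sum - target op a u
  have hz : ∀ h i, ⟪h, z i⟫_ℝ =
      (L' i).E (fun o => ⟪h, a + o.sum - target Φ a (w i)⟫_ℝ) + ⟪h, D i⟫_ℝ := by
    intro h i
    rw [Law.inner_vmean, ← (L' i).E_const ⟪h, D i⟫_ℝ, ← Law.E_add]
    refine (L' i).E_congr fun p _ => ?_
    rw [← inner_add_right, htw]; congr 1; abel
  have hbias : ∀ h i, |(L' i).E (fun o => ⟪h, a + o.sum - target Φ a (w i)⟫_ℝ)| ≤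
      2 * √(2 * Cst.sig d k * Cst.pp d) * fn Φ h := by
    intro h i
    have hv : 0 ≤ Cst.sig d k * fq Φ h := mul_nonneg hs.le (fq_nonneg hsR.contr_op h)
    have h2 := second_moment (L i) (fun o => ⟪h, a + o.sum - target Φ a (w i)⟫_ℝ) hv fun t => by
      refine le_trans (le_of_eq ?_) (((hL i).mgf (t • h)).trans (le_of_eq ?_))
      · simp only [inner_smul_left, starRingEnd_apply, star_trivial]; rfl
      · rw [fq_smul]; simp only [hΦ]; ring_nf
    refine ((L i).abs_E_cond_le (hlt i) (by positivity) (hprob i) hp1 ((hL i).mean h) h2).trans ?_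
    rw [show 2 * (Cst.sig d k * fq Φ h) * Cst.pp d = 2 * Cst.sig d k * Cst.pp d * fq Φ h by ring,
      Real.sqrt_mul (by positivity), fn]
    linarith
  obtain ⟨wt, hwt0, hwt1, hwtz⟩ := exists_weights z fun h => by
    rcases exists_pert hsR.contr_op hrr h with h0 | ⟨hd, i, hi⟩
    · refine ⟨none, ?_⟩
      rw [hz]
      have h1 := (abs_le.1 (hbias h none)).2
      rw [h0, mul_zero] at h1
      simp only [hD, pert, map_zero, inner_zero_right, add_zero]
      exact h1
    · refine ⟨i, ?_⟩
      rw [hz]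
      have h1 := (abs_le.1 (hbias h i)).2
      have h2 : 2 * √(2 * Cst.sig d k * Cst.pp d) * fn Φ h ≤ Cst.rr d / √d * fn Φ h :=
        mul_le_mul_of_nonneg_right (Cst.bias_lt d k (by omega) hd).le (fn_nonneg _ _)
      simp only [hD] at hi ⊢
      linarith
  refine ⟨(Law.ofWeights wt hwt0 hwt1).bind L', ?_, ?_, ?_, ?_, ?_⟩
  · intro p hp
    obtain ⟨i, _, q, hq, e⟩ := Law.mem_bind hp
    obtain ⟨q', hq', e', _⟩ := (L i.2).mem_cond (hlt i.2) hq
    rw [← e, ← e']
    exact (hL i.2).len q' hq'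
  · intro h
    rw [Law.E_bind, Law.E_ofWeights]
    calc ∑ i, wt i * (L' i).E _ = ∑ i, ⟪h, wt i • z i⟫_ℝ :=
          Finset.sum_congr rfl fun i _ => by rw [inner_smul_right, Law.inner_vmean]
      _ = 0 := by rw [← inner_sum, hwtz, inner_zero_right]
  · intro θ
    set v := Cst.sig d k * fq op θ with hv
    have hv0 : 0 ≤ v := mul_nonneg hs.le (fq_nonneg hsN.contr_op θ)
    have hσ1 := Real.sqrt_pos.2 hs
    have key := recenter ((Law.ofWeights wt hwt0 hwt1).bind L')
      (fun o => ⟪θ, a + o.sum - target op a u⟫_ℝ) (ε := Cst.eps d)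
      (a := 2 * Cst.pp d) (b := Cst.rr d / √(Cst.sig d k)) he
      (by linarith [Cst.eps_le d]) hv0 (by positivity) (Cst.small_a d) (by positivity)
      (Cst.small_b d k) (by
        rw [Law.E_bind, Law.E_ofWeights]
        calc ∑ i, wt i * (L' i).E _ = ∑ i, ⟪θ, wt i • z i⟫_ℝ :=
              Finset.sum_congr rfl fun i _ => by rw [inner_smul_right, Law.inner_vmean]
          _ = 0 := by rw [← inner_sum, hwtz, inner_zero_right]) (fun t => by
        rw [Law.E_bind]
        refine ((Law.ofWeights wt hwt0 hwt1).E_mono' fun i => ?_).trans (Law.E_const _ _).le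
        refine ((L i).E_cond_le (hlt i) (hprob i) hp1 fun o => (exp_pos _).le).trans ?_
        have e : ∀ o : List (Sp d), t * ⟪θ, a + o.sum - target op a u⟫_ℝ =
            ⟪t • θ, a + o.sum - target Φ a (w i)⟫_ℝ + t * ⟪θ, D i⟫_ℝ := fun o => by
          rw [inner_smul_left, starRingEnd_apply, star_trivial, ← mul_add, ← inner_add_right, htw]
          congr 2; abel
        simp only [e, exp_add, Law.E_mul_const]
        have h1 : t * ⟪θ, D i⟫_ℝ ≤ Cst.rr d / √(Cst.sig d k) * |t| * √v := by
          refine (le_abs_self _).trans ?_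
          rw [abs_mul, hv, Real.sqrt_mul hs.le]
          calc |t| * |⟪θ, D i⟫_ℝ| ≤ |t| * (Cst.rr d * fn op θ) :=
                mul_le_mul_of_nonneg_left (hDb i θ) (abs_nonneg t)
            _ = _ := by rw [fn]; field_simp
        have h2 : Cst.sig d k / 2 * fq Φ (t • θ) ≤ v * t ^ 2 / 2 := by
          rw [fq_smul, hv]
          have := mul_le_mul_of_nonneg_left (fq_le_kill Φ S θ)
            (by positivity : 0 ≤ Cst.sig d k * t ^ 2)
          calc _ = Cst.sig d k * t ^ 2 * fq Φ θ / 2 := by ring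
            _ ≤ Cst.sig d k * t ^ 2 * fq op θ / 2 := by gcongr; exact fq_le_kill Φ S θ
            _ = _ := by ring
        calc exp (2 * Cst.pp d) * ((L i).E _ * exp (t * ⟪θ, D i⟫_ℝ))
            ≤ exp (2 * Cst.pp d) *
              (exp (v * t ^ 2 / 2) * exp (Cst.rr d / √(Cst.sig d k) * |t| * √v)) :=
              mul_le_mul_of_nonneg_left (mul_le_mul (((hL i).mgf _).trans (exp_le_exp.2 h2))
                (exp_le_exp.2 h1) (exp_pos _).le (exp_pos _).le) (exp_pos _).le
          _ = _ := by simp only [← exp_add]; congr 1; ring) 1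
    simp only [one_mul, one_pow, mul_one] at key
    refine key.trans (exp_le_exp.2 (le_of_eq ?_))
    rw [hv, Cst.sig_succ]; ring
  · intro j hj t
    rw [Law.E_bind]
    refine ((Law.ofWeights wt hwt0 hwt1).E_mono' fun i => ?_).trans (Law.E_const _ _).le
    refine ((L i).E_cond_le (hlt i) (hprob i) hp1 fun o => (exp_pos _).le).trans ?_
    refine (mul_le_mul_of_nonneg_left ((hL i).mid j hj t) (exp_pos _).le).trans ?_
    rw [← exp_add, Cst.mm_succ]
    refine exp_le_exp.2 ?_
    have hc := Cst.shift_cost d k (fn_nonneg Φ (w i)) ((hw i).trans (Cst.rho_le_zero d k))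
    rw [fn_sq hsR.contr_op] at hc
    have hX : 0 ≤ ‖((ops cs).getD j default).2‖ ^ 2 -
        ‖((ops cs).getD j default).1.adjoint ((ops cs).getD j default).2‖ ^ 2 :=
      sub_nonneg.2 (pow_le_pow_left₀ (norm_nonneg _)
        ((hsR.contr _ (getD_mem hj default)).adjoint _) 2)
    have h3 := mul_le_mul_of_nonneg_right (Cst.sig_le_succ d k)
      (by positivity : 0 ≤ (1 + Cst.eps d) / 2 * t ^ 2 *
        (‖((ops cs).getD j default).2‖ ^ 2 -
          ‖((ops cs).getD j default).1.adjoint ((ops cs).getD j default).2‖ ^ 2))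
    simp only [nodeBlk] at hX h3 ⊢
    linarith
  · intro _ p hp
    obtain ⟨i, _, q, hq, e⟩ := Law.mem_bind hp
    obtain ⟨q', hq', e', hgd⟩ := (L i.2).mem_cond (hlt i.2) hq
    rw [← e, ← e']
    exact sure_node hseg hgood S hfut hA (hL i.2) hq' (by rw [e']; exact hgd)

end Vale.Agent.P262.Sigma
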