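import Mathlib
import Vale.Agent.P262.Sigma.Decomp

/-!
From the top block to signs.
-/

namespace Vale.Agent.P262.Sigma

open Real
open scoped InnerProductSpace

variable {d : ℕ}

/-- Signs with all prefix sums short, for a list of vectors. -/
lemma root_signs (HL : LeafSpec d) (HN : NodeSpec d) (hd : 0 < d) {vs : List (Sp d)}
    (hvs : ∀ v ∈ vs, ‖v‖ ≤ 1) :
    ∃ w : List (Sp d), List.Forall₂ (fun v x => x = v ∨ x = -v) vs w ∧
      ∀ k, ‖(w.take k).sum‖ ≤ 2 * 10 ^ 6 * √d * Real.log (2 * d) := by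
  rcases eq_or_ne vs [] with rfl | hne
  · refine ⟨[], List.Forall₂.nil, fun k => ?_⟩
    simp only [List.take_nil, List.sum_nil, norm_zero]
    have : 0 ≤ Real.log (2 * d) := by
      have : (1:ℝ) ≤ d := by exact_mod_cast hd
      exact Real.log_nonneg (by linarith)
    positivity
  obtain ⟨cs, hE, hl, hspec⟩ := exists_root HL HN hvs hne
  have hη := Cst.eta_pos d
  obtain ⟨L, hL⟩ := hspec [] ⟨by simp, by simp, by simp, by simp⟩ 0 0
    (by simp [fn, fq, Cst.rho_nonneg d (d + 1) le_rfl])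
  obtain ⟨p, hp⟩ : ∃ p, p ∈ L.supp := by
    rcases List.eq_nil_or_concat L.supp with h | ⟨l, p, h⟩
    · have := L.total; rw [h] at this; simp at this
    · exact ⟨p, by rw [h]; simp⟩
  have hS := hL.sure (fun s _ => by
    rw [Cst.B_top]; exact (G_zero _ _).trans (by linarith)) p hp
  have hlen := hL.len p hp
  have hvalid : ∀ i < (nodeBlk cs ∅).steps.length,
      p.2.getD i 0 = ((nodeBlk cs ∅).steps.getD i default).2 ∨
      p.2.getD i 0 = -((nodeBlk cs ∅).steps.getD i default).2 := by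
    intro i hi
    refine hS.valid i hi ?_
    have h2 := Cst.two_LL_le d
    have h3 := Cst.LL_nonneg d
    rcases lt_or_ge (Cst.delta d) ‖((nodeBlk cs ∅).steps.getD i default).1.adjoint
      ((nodeBlk cs ∅).steps.getD i default).2‖ with h | h
    · have h1 := hS.dev i hi h
      rw [map_zero, sub_zero] at h1
      linarith
    · have h1 := hS.small i hi h
      linarith
  obtain ⟨w, hw, -, hk⟩ := ext_ops hE p.2 hlen hvalid
  refine ⟨w, hl ▸ hw, fun k => ?_⟩
  obtain ⟨i, hi, e⟩ := hk k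
  have h := hS.path i (hlen ▸ hi)
  rw [pre, zero_add] at h
  rw [e]
  exact Cst.final d hd h

/-- `σ(d) = O(√d log d)`, given the two steps of the recursion. -/
theorem sigma_bound (HL : ∀ d, LeafSpec d) (HN : ∀ d, NodeSpec d) :
    ∀ (d N : ℕ) (v : Fin N → EuclideanSpace ℝ (Fin d)), (∀ i, ‖v i‖ ≤ 1) →
      ∃ ε : Fin N → ℝ, (∀ i, ε i = 1 ∨ ε i = -1) ∧ ∀ k : ℕ,
        ‖∑ i ∈ Finset.univ.filter (fun i : Fin N => i.val < k), ε i • v i‖ ≤
          2 * 10 ^ 6 * √d * Real.log (2 * d) := by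
  intro d N v hv
  rcases Nat.eq_zero_or_pos d with rfl | hd
  · refine ⟨fun _ => 1, fun _ => Or.inl rfl, fun k => ?_⟩
    rw [Subsingleton.elim (∑ i ∈ Finset.univ.filter (fun i : Fin N => i.val < k), _) 0, norm_zero]
    simp
  classical
  obtain ⟨w, hw, hk⟩ := root_signs (HL d) (HN d) hd (vs := List.ofFn v) fun x hx => by
    obtain ⟨i, rfl⟩ := List.mem_ofFn.1 hx; exact hv i
  have hN : w.length = N := by rw [← hw.length_eq, List.length_ofFn]
  have hval : ∀ i : Fin N, w[(i : ℕ)]'(hN ▸ i.2) = v i ∨ w[(i : ℕ)]'(hN ▸ i.2) = -v i := by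
    intro i
    have h := hw.get (i := i) (by simp) (hN ▸ i.2)
    simpa using h
  refine ⟨fun i => if w[(i : ℕ)]'(hN ▸ i.2) = v i then 1 else -1, fun i => ?_, fun k => ?_⟩
  · dsimp only; split_ifs <;> simp
  have hw' : w = List.ofFn fun i : Fin N =>
      (if w[(i : ℕ)]'(hN ▸ i.2) = v i then (1:ℝ) else -1) • v i := by
    refine List.ext_getElem (by simp [hN]) fun j h1 h2 => ?_
    rw [List.getElem_ofFn]
    rcases hval ⟨j, hN ▸ h1⟩ with h | h
    · rw [if_pos h, one_smul]; exact h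
    · split_ifs with hq
      · rw [one_smul]; exact hq
      · rw [neg_one_smul]; exact h
  rw [← List.sum_take_ofFn, ← hw']
  exact hk k

end Vale.Agent.P262.Sigma
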